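import Crest.Agent.R133.Dfc

/-! Row 133: blocks of `m` steps in a model. -/

set_option autoImplicit false

namespace Crest.Agent.R133

open MeasureTheory Finset Metric Function

variable {d C : ℕ} {M : Type}

theorem coc_add (A : M → E d →L[ℝ] E d) (S : M → M) (x : M) (m m' : ℕ) :
    coc A S x (m + m') = coc A S (S^[m] x) m' ∘L coc A S x m := by
  unfold coc
  rw [prod_add, zero_add]
  congr 1
  have := prod_shift (fun t => A (S^[t] x)) m 0 m'
  rw [add_zero] at this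
  rw [← this]
  congr 1
  funext t
  rw [add_comm, Function.iterate_add_apply]

theorem prod_blk (A : M → E d →L[ℝ] E d) (S : M → M) (m : ℕ) (x : M) (s k : ℕ) :
    prod (blk A S m x) s k = coc A S (S^[m * s] x) (m * k) := by
  induction k with
  | zero => rfl
  | succ k ih =>
    rw [prod, ih, Nat.mul_succ, coc_add, blk, ← Function.iterate_add_apply, mul_add, add_comm (m * k)]

theorem dfc_blk (A : M → E d →L[ℝ] E d) (S : M → M) (m : ℕ) (x : M) (Λ : ℝ) (s k : ℕ) :
    dfc Λ (blk A S m x) s k = dfc Λ (blk A S m (S^[m * s] x)) 0 k := by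
  unfold dfc
  rw [prod_blk, prod_blk, mul_zero, Function.iterate_zero_apply]
  congr 1
  refine Finset.sum_congr rfl fun r _ => ?_
  rw [blk, blk, zero_add, ← Function.iterate_add_apply, mul_add, add_comm (m * r)]

variable [MeasurableSpace M] {ν : Measure M} {S : M → M} {K : Bool → Set M}

theorem Model.bilip_coc (Mo : Model M ν S d C K) (x : M) (m : ℕ) : BiLip ((C : ℝ) ^ m) (coc Mo.A S x m) := by
  exact bilip_prod (Nat.cast_nonneg C) fun t _ _ => Mo.bilip _

theorem Model.bilip_coc_exp (Mo : Model M ν S d C K) (x : M) (m : ℕ) :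
    BiLip (Real.exp ((3 * C * m : ℕ) : ℝ)) (coc Mo.A S x m) := by
  refine (Mo.bilip_coc x m).mono ?_
  have h1 : (C : ℝ) ≤ Real.exp (3 * C) := by
    have := Real.add_one_le_exp (3 * (C : ℝ))
    have h0 : (0 : ℝ) ≤ C := Nat.cast_nonneg C
    linarith
  calc (C : ℝ) ^ m ≤ Real.exp (3 * C) ^ m := pow_le_pow_left₀ (Nat.cast_nonneg C) h1 m
    _ = _ := by
      rw [← Real.exp_nat_mul]
      congr 1
      push_cast
      ring

theorem Model.measurable_coc (Mo : Model M ν S d C K) (hS : Measurable S) (m : ℕ) :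
    Measurable fun x => coc Mo.A S x m := by
  induction m with
  | zero => exact measurable_const
  | succ m ih =>
    have h1 : Measurable fun x => Mo.A (S^[0 + m] x) := Mo.meas_A.comp (hS.iterate _)
    exact h1.mul ih

theorem Model.measurable_dfc (Mo : Model M ν S d C K) (hS : Measurable S) (m : ℕ) (Λ : ℝ) (s k : ℕ) :
    Measurable fun x => dfc Λ (blk Mo.A S m x) s k := by
  unfold dfc
  simp_rw [prod_blk]
  refine Measurable.sub (Finset.measurable_sum _ fun r _ => ?_) ?_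
  · exact (measurable_tot _).comp ((Mo.measurable_coc hS m).comp (hS.iterate _))
  · exact (measurable_tot _).comp ((Mo.measurable_coc hS _).comp (hS.iterate _))

/-- Induction on `m`.  With `x_s = φ (c (S^[s] x)) (S^[s] x)` and `v_s = φ (c (S^[s] x)) (S^[s] (ψ (c x) v))`: `S^[s] (ψ (c x) v) = ψ (c (S^[s] x)) v_s` for `s ≤ m`,
`‖v_s - x_s‖ ≤ C ^ s ‖v - x_0‖` (mean value inequality on the ball), the derivative `D_s` has `‖D_s‖ ≤ C ^ s` and
`‖D_(s+1) - coc (s + 1)‖ ≤ ‖F' - A‖ ‖D_s‖ + ‖A‖ ‖D_s - coc s‖`.  The block map agrees with the composition on the open ball. -/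
theorem Model.block (Mo : Model M ν S d C K) {m : ℕ} (hm : 1 ≤ m) {r : ℝ} (hr : 0 < r) (hrC : r * C ≤ 1) {x : M}
    (hx : ∀ s, s < m → S^[s] x ∉ Mo.U r) : ∃ F' : E d → E d →L[ℝ] E d,
    ∀ v ∈ ball (Mo.φ (Mo.c x) x) (r / (C : ℝ) ^ m),
      HasStrictFDerivAt (fun w => Mo.φ (Mo.c (S^[m] x)) (S^[m] (Mo.ψ (Mo.c x) w))) (F' v) v ∧
      ‖F' v - coc Mo.A S x m‖ ≤ m * (C : ℝ) ^ (2 * m) * ‖v - Mo.φ (Mo.c x) x‖ ∧
      ∀ s, s < m → ∀ b, S^[s] x ∈ K b → S^[s] (Mo.ψ (Mo.c x) v) ∉ K (!b) := by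
  have hC1 : (1 : ℝ) ≤ C := by exact_mod_cast Mo.one_le
  have hC0 : (0 : ℝ) < C := by linarith
  set x₀ := Mo.φ (Mo.c x) x with hx₀
  set ρ := r / (C : ℝ) ^ m with hρ
  have hρ0 : 0 < ρ := by positivity
  have key : ∀ s, s ≤ m → ∃ (G : E d → E d) (D : E d → E d →L[ℝ] E d),
      G x₀ = Mo.φ (Mo.c (S^[s] x)) (S^[s] x) ∧ ∀ v ∈ ball x₀ ρ,
        Mo.ψ (Mo.c (S^[s] x)) (G v) = S^[s] (Mo.ψ (Mo.c x) v) ∧
        HasStrictFDerivAt G (D v) v ∧ ‖D v‖ ≤ (C : ℝ) ^ s ∧
        ‖D v - coc Mo.A S x s‖ ≤ s * (C : ℝ) ^ (2 * s) * ‖v - x₀‖ ∧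
        (∀ s', s' < s → ∀ b, S^[s'] x ∈ K b → S^[s'] (Mo.ψ (Mo.c x) v) ∉ K (!b)) ∧
        (1 ≤ s → G v = Mo.φ (Mo.c (S^[s] x)) (S^[s] (Mo.ψ (Mo.c x) v))) := by
    intro s
    induction s with
    | zero =>
      intro _
      refine ⟨id, fun _ => ContinuousLinearMap.id ℝ (E d), rfl, fun v _ =>
        ⟨rfl, hasStrictFDerivAt_id v, ?_, ?_, fun s' h => absurd h (Nat.not_lt_zero _),
          fun h => absurd h (by norm_num)⟩⟩
      · rw [pow_zero]; exact ContinuousLinearMap.norm_id_le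
      · simp [coc, prod]
    | succ s ih =>
      intro hs
      obtain ⟨G, D, hG0, hG⟩ := ih (by omega)
      obtain ⟨F', hF⟩ := Mo.loc r hr hrC _ (hx s (by omega))
      have hmv : ∀ v ∈ ball x₀ ρ,
          ‖G v - Mo.φ (Mo.c (S^[s] x)) (S^[s] x)‖ ≤ (C : ℝ) ^ s * ‖v - x₀‖ := by
        intro v hv
        rw [← hG0]
        exact (convex_ball x₀ ρ).norm_image_sub_le_of_norm_hasFDerivWithin_le
          (fun w hw => (hG w hw).2.1.hasFDerivAt.hasFDerivWithinAt) (fun w hw => (hG w hw).2.2.1)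
          (mem_ball_self hρ0) hv
      have hin : ∀ v ∈ ball x₀ ρ, G v ∈ ball (Mo.φ (Mo.c (S^[s] x)) (S^[s] x)) r := by
        intro v hv
        rw [mem_ball, dist_eq_norm] at hv ⊢
        calc _ ≤ (C : ℝ) ^ s * ‖v - x₀‖ := hmv v (by rwa [mem_ball, dist_eq_norm])
          _ ≤ (C : ℝ) ^ m * ‖v - x₀‖ :=
            mul_le_mul_of_nonneg_right (pow_le_pow_right₀ hC1 (by omega)) (norm_nonneg _)
          _ < (C : ℝ) ^ m * ρ := mul_lt_mul_of_pos_left hv (by positivity)
          _ = r := by rw [hρ]; field_simp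
      refine ⟨fun w => Mo.φ (Mo.c (S (S^[s] x))) (S (Mo.ψ (Mo.c (S^[s] x)) (G w))),
        fun v => F' (G v) ∘L D v, ?_, fun v hv => ?_⟩
      · simp only [Function.iterate_succ_apply', hG0, Mo.inv]
      obtain ⟨a1, a2, a3, a4, a5, -⟩ := hG v hv
      obtain ⟨b1, b2, b3, b4, b5⟩ := hF _ (hin v hv)
      refine ⟨?_, b2.comp v a2, ?_, ?_, fun s' hs' b hb => ?_, fun _ => ?_⟩
      · simp only [Function.iterate_succ_apply']
        rw [b1, a1]
      · refine (ContinuousLinearMap.opNorm_comp_le _ _).trans ?_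
        rw [pow_succ']
        exact mul_le_mul b3 a3 (norm_nonneg _) hC0.le
      · have e : F' (G v) ∘L D v - coc Mo.A S x (s + 1) =
            (F' (G v) - Mo.A (S^[s] x)) ∘L D v + Mo.A (S^[s] x) ∘L (D v - coc Mo.A S x s) := by
          have : coc Mo.A S x (s + 1) = Mo.A (S^[s] x) ∘L coc Mo.A S x s := by
            simp only [coc, prod, zero_add]
          rw [this, ContinuousLinearMap.sub_comp, ContinuousLinearMap.comp_sub]
          abel
        have hA : ‖Mo.A (S^[s] x)‖ ≤ C :=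
          ContinuousLinearMap.opNorm_le_bound _ hC0.le fun p => (Mo.bilip _ p).1
        have hn := norm_nonneg (v - x₀)
        have c1 : ‖(F' (G v) - Mo.A (S^[s] x)) ∘L D v‖ ≤
            C * ((C : ℝ) ^ s * ‖v - x₀‖) * (C : ℝ) ^ s :=
          (ContinuousLinearMap.opNorm_comp_le _ _).trans (mul_le_mul
            (b4.trans (mul_le_mul_of_nonneg_left (hmv v hv) hC0.le)) a3 (norm_nonneg _)
            (by positivity))
        have c2 : ‖Mo.A (S^[s] x) ∘L (D v - coc Mo.A S x s)‖ ≤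
            C * (s * (C : ℝ) ^ (2 * s) * ‖v - x₀‖) :=
          (ContinuousLinearMap.opNorm_comp_le _ _).trans
            (mul_le_mul hA a4 (norm_nonneg _) hC0.le)
        beta_reduce
        rw [e]
        calc _ ≤ C * ((C : ℝ) ^ s * ‖v - x₀‖) * (C : ℝ) ^ s +
              C * (s * (C : ℝ) ^ (2 * s) * ‖v - x₀‖) := (norm_add_le _ _).trans (add_le_add c1 c2)
          _ = ((s + 1 : ℕ) : ℝ) * (C : ℝ) ^ (2 * s + 1) * ‖v - x₀‖ := by push_cast; ring
          _ ≤ _ := by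
            refine mul_le_mul_of_nonneg_right (mul_le_mul_of_nonneg_left
              (pow_le_pow_right₀ hC1 (by omega)) (Nat.cast_nonneg _)) hn
      · rcases Nat.lt_succ_iff_lt_or_eq.1 hs' with h | rfl
        · exact a5 s' h b hb
        · rw [← a1]
          exact b5 b hb
      · simp only [Function.iterate_succ_apply']
        rw [a1]
  obtain ⟨G, D, -, hG⟩ := key m le_rfl
  refine ⟨D, fun v hv => ⟨(hG v hv).2.1.congr_of_eventuallyEq ?_, (hG v hv).2.2.2.1,
    (hG v hv).2.2.2.2.1⟩⟩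
  filter_upwards [isOpen_ball.mem_nhds hv] with w hw
  exact (hG w hw).2.2.2.2.2 hm

end Crest.Agent.R133
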