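import Crest.Agent.R133.CountB

/-! Row 133: the counting argument for the good points of one type. -/

set_option autoImplicit false

namespace Crest.Agent.R133

open MeasureTheory Finset Metric Function
open scoped ENNReal



theorem count_double {M I : Type} [Fintype I] [DecidableEq I] (Z : Finset M) (Ω : M → I → Bool) {h : ℝ} (Θ : ℝ)
    (hh : 40 * h ≤ Fintype.card I) :
    (#{ω : I → Bool | Θ ≤ (#{z ∈ Z | (hammingDist (Ω z) ω : ℝ) ≤ 2 * h} : ℝ)} : ℝ) * Θ * 2⁻¹ ^ Fintype.card I ≤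
      #Z * Real.exp (-(Fintype.card I / 4)) := by
  have h1 : (#{ω : I → Bool | Θ ≤ (#{z ∈ Z | (hammingDist (Ω z) ω : ℝ) ≤ 2 * h} : ℝ)} : ℝ) * Θ ≤
      ∑ ω : I → Bool, (#{z ∈ Z | (hammingDist (Ω z) ω : ℝ) ≤ 2 * h} : ℝ) := by
    calc (#{ω : I → Bool | Θ ≤ (#{z ∈ Z | (hammingDist (Ω z) ω : ℝ) ≤ 2 * h} : ℝ)} : ℝ) * Θ
        = ∑ _ω ∈ ({ω : I → Bool | Θ ≤ (#{z ∈ Z | (hammingDist (Ω z) ω : ℝ) ≤ 2 * h} : ℝ)} : Finset _), Θ := by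
          rw [Finset.sum_const, nsmul_eq_mul]
      _ ≤ ∑ ω ∈ ({ω : I → Bool | Θ ≤ (#{z ∈ Z | (hammingDist (Ω z) ω : ℝ) ≤ 2 * h} : ℝ)} : Finset _),
            (#{z ∈ Z | (hammingDist (Ω z) ω : ℝ) ≤ 2 * h} : ℝ) :=
          Finset.sum_le_sum fun ω hω => (Finset.mem_filter.1 hω).2
      _ ≤ _ := Finset.sum_le_sum_of_subset_of_nonneg (Finset.filter_subset _ _) fun _ _ _ => Nat.cast_nonneg _
  have h2 : ∑ ω : I → Bool, (#{z ∈ Z | (hammingDist (Ω z) ω : ℝ) ≤ 2 * h} : ℝ) =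
      ∑ z ∈ Z, (#{ω : I → Bool | (hammingDist ω (Ω z) : ℝ) ≤ 2 * h} : ℝ) := by
    simp only [Finset.card_filter, Nat.cast_sum]
    rw [Finset.sum_comm]
    refine Finset.sum_congr rfl fun z _ => Finset.sum_congr rfl fun ω _ => ?_
    rw [hammingDist_comm]
  have h3 : (0 : ℝ) ≤ 2⁻¹ ^ Fintype.card I := by positivity
  calc _ ≤ (∑ z ∈ Z, (#{ω : I → Bool | (hammingDist ω (Ω z) : ℝ) ≤ 2 * h} : ℝ)) * 2⁻¹ ^ Fintype.card I :=
        mul_le_mul_of_nonneg_right (h1.trans h2.le) h3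
    _ = ∑ z ∈ Z, (#{ω : I → Bool | (hammingDist ω (Ω z) : ℝ) ≤ 2 * h} : ℝ) * 2⁻¹ ^ Fintype.card I :=
        Finset.sum_mul _ _ _
    _ ≤ ∑ _z ∈ Z, Real.exp (-(Fintype.card I / 4)) := Finset.sum_le_sum fun z _ => hamming_ball (Ω z) hh
    _ = _ := by rw [Finset.sum_const, nsmul_eq_mul]

theorem count_rich {M I : Type} [Fintype I] [DecidableEq I] [MeasurableSpace M] (ν : Measure M) {Y : Set M}
    {Ω : M → I → Bool} (R : Finset (I → Bool)) (hω : ∀ ω, ν {x | x ∈ Y ∧ Ω x = ω} ≤ 2⁻¹ ^ Fintype.card I) :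
    ν {x | x ∈ Y ∧ Ω x ∈ R} ≤ ENNReal.ofReal (#R * 2⁻¹ ^ Fintype.card I) := by
  have h1 : {x | x ∈ Y ∧ Ω x ∈ R} ⊆ ⋃ ω ∈ R, {x | x ∈ Y ∧ Ω x = ω} := by
    intro x hx
    simp only [Set.mem_iUnion]
    exact ⟨Ω x, hx.2, hx.1, rfl⟩
  calc ν {x | x ∈ Y ∧ Ω x ∈ R} ≤ ν (⋃ ω ∈ R, {x | x ∈ Y ∧ Ω x = ω}) := measure_mono h1
    _ ≤ ∑ ω ∈ R, ν {x | x ∈ Y ∧ Ω x = ω} := measure_biUnion_finset_le _ _
    _ ≤ ∑ _ω ∈ R, (2⁻¹ : ℝ≥0∞) ^ Fintype.card I := Finset.sum_le_sum fun ω _ => hω ω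
    _ = _ := by
      rw [Finset.sum_const, nsmul_eq_mul, ENNReal.ofReal_mul (Nat.cast_nonneg _), ENNReal.ofReal_natCast,
        ENNReal.ofReal_pow (by norm_num), ENNReal.ofReal_inv_of_pos (by norm_num), ENNReal.ofReal_ofNat]

/-- Let `Z` be as in `cells`, `Θ = exp (n₂ - n₁) ϱ ^ d exp (-s)`; `ω` is rich if at least `Θ` of the `Ω z` are `2 h`-close to it.  Double counting and `hamming_ball`:
`#rich * 2⁻¹ ^ m ≤ #Z * exp (-m / 4) / Θ`.  The points with a poor `Ω x`: apply `slice_le` and `leaf` to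
`B = {w | ψ w ∈ Y, Ω (ψ w) poor, ξ (ψ w) 0 = w}`. -/
theorem count (d C : ℕ) : ∃ C₁ : ℝ, 0 < C₁ ∧ ∀ {M I : Type} [Fintype I] [DecidableEq I] [MeasurableSpace M]
    (ν : Measure M) {Y : Set M} {u : ℕ} {O : E u →L[ℝ] E d} {N T₁ : ℕ} {F : ℕ → E d → E d} {ξ : M → ℕ → E d}
    {A : M → ℕ → E d →L[ℝ] E d} {r : ℕ → ℝ} {ϱ ι L n₁ n₂ h : ℝ} {Ω : M → I → Bool} (ψ : E d → M) (s : ℝ),
    Typ C Y O N T₁ F ξ A r ϱ ι L n₁ n₂ h Ω → MeasurableSet Y → Measurable ψ → (Measurable fun x => ξ x 0) →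
    Measurable Ω → (∀ x ∈ Y, ψ (ξ x 0) = x) →
    (∀ B, MeasurableSet B → ν {x | x ∈ Y ∧ ξ x 0 ∈ B} ≤ C * volume B) →
    (∀ ω, ν {x | x ∈ Y ∧ Ω x = ω} ≤ 2⁻¹ ^ Fintype.card I) →
    ν Y ≤ ENNReal.ofReal (C₁ * (Real.exp (-s) + Real.exp s * ϱ⁻¹ ^ (3 * d) * Real.exp (-(Fintype.card I / 4)))) := by
  set V : ℝ≥0∞ := volume (closedBall (0 : E d) ((C : ℝ) + 1)) with hV
  have hVtop : V ≠ ⊤ := measure_closedBall_lt_top.ne
  set a : ℝ := C * (4 * 8 ^ d * Real.exp 1) * V.toReal with ha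
  set b : ℝ := 2 ^ (d + 1) * ((C : ℝ) + 1) ^ d * Real.exp 1 with hb
  have ha0 : 0 ≤ a := by positivity
  have hb0 : 0 < b := by positivity
  refine ⟨a + b, by linarith, ?_⟩
  intro M I _ _ _ ν Y u O N T₁ F ξ A r ϱ ι L n₁ n₂ h Ω ψ s H hY hψ hξ hΩ hinv hB hω
  obtain ⟨Z, hZ, hcard, hZ'⟩ := H.cells
  have hϱ := H.hϱ.1
  set Θ : ℝ := Real.exp (n₂ - n₁) * ϱ ^ d * Real.exp (-s) with hΘ
  have hΘ0 : 0 < Θ := by positivity
  set R : Finset (I → Bool) := {ω : I → Bool | Θ ≤ (#{z ∈ Z | (hammingDist (Ω z) ω : ℝ) ≤ 2 * h} : ℝ)} with hR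
  -- the rich points
  have hrich : ν {x | x ∈ Y ∧ Ω x ∈ R} ≤
      ENNReal.ofReal (b * (Real.exp s * ϱ⁻¹ ^ (3 * d) * Real.exp (-(Fintype.card I / 4)))) := by
    refine (count_rich ν R hω).trans (ENNReal.ofReal_le_ofReal ?_)
    have h1 := count_double Z Ω Θ H.hh
    rw [← hR] at h1
    have h2 : (#Z : ℝ) * Real.exp (-(Fintype.card I / 4)) ≤
        2 ^ (d + 1) * ((C : ℝ) + 1) ^ d * Real.exp (n₂ - n₁ + 1) * ϱ⁻¹ ^ (2 * d) *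
          Real.exp (-(Fintype.card I / 4)) := mul_le_mul_of_nonneg_right hcard (Real.exp_pos _).le
    have h3 : 2 ^ (d + 1) * ((C : ℝ) + 1) ^ d * Real.exp (n₂ - n₁ + 1) * ϱ⁻¹ ^ (2 * d) *
          Real.exp (-(Fintype.card I / 4)) =
        b * (Real.exp s * ϱ⁻¹ ^ (3 * d) * Real.exp (-(Fintype.card I / 4))) * Θ := by
      have e1 : ϱ⁻¹ ^ (3 * d) * ϱ ^ d = ϱ⁻¹ ^ (2 * d) := by
        rw [show 3 * d = 2 * d + d by ring, pow_add, mul_assoc, ← mul_pow, inv_mul_cancel₀ hϱ.ne', one_pow, mul_one]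
      have e2 : Real.exp s * Real.exp (-s) = 1 := by rw [← Real.exp_add]; simp
      rw [hb, hΘ, Real.exp_add, ← e1]
      linear_combination (-(2 ^ (d + 1) * ((C : ℝ) + 1) ^ d * Real.exp (n₂ - n₁) * Real.exp 1 * (ϱ⁻¹ ^ (3 * d) * ϱ ^ d) *
        Real.exp (-(Fintype.card I / 4)))) * e2
    refine le_of_mul_le_mul_right ?_ hΘ0
    calc (#R : ℝ) * 2⁻¹ ^ Fintype.card I * Θ = #R * Θ * 2⁻¹ ^ Fintype.card I := by ring
      _ ≤ _ := (h1.trans h2).trans h3.le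
  -- the poor points
  set B : Set (E d) := {w | ψ w ∈ Y ∧ Ω (ψ w) ∉ R ∧ ξ (ψ w) 0 = w} with hBdef
  have hBm : MeasurableSet B := by
    have m1 : MeasurableSet {w | ψ w ∈ Y} := hψ hY
    have m2 : MeasurableSet {w | Ω (ψ w) ∉ R} :=
      (hΩ.comp hψ) (Set.toFinite {ω : I → Bool | ω ∉ R}).measurableSet
    have m3 : MeasurableSet {w | ξ (ψ w) 0 = w} := measurableSet_eq_fun (hξ.comp hψ) measurable_id
    exact m1.inter (m2.inter m3)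
  have hBC : B ⊆ closedBall 0 (C : ℝ) := by
    intro w hw
    rw [mem_closedBall_zero_iff, ← hw.2.2]
    exact H.bdd _ hw.1 0
  have hK : Θ * 4 * 8 ^ d * Real.exp (n₁ + 1 - n₂) * ϱ⁻¹ ^ d = 4 * 8 ^ d * Real.exp 1 * Real.exp (-s) := by
    have e1 : ϱ ^ d * ϱ⁻¹ ^ d = 1 := by rw [← mul_pow, mul_inv_cancel₀ hϱ.ne', one_pow]
    have e2 : Real.exp (n₂ - n₁) * Real.exp (n₁ + 1 - n₂) = Real.exp 1 := by
      rw [← Real.exp_add]; congr 1; ring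
    rw [hΘ, ← e2]
    linear_combination (4 * 8 ^ d * Real.exp (n₂ - n₁) * Real.exp (n₁ + 1 - n₂) * Real.exp (-s)) * e1
  have hslice := slice_le H.hO hBm hBC
    (κ := ENNReal.ofReal (4 * 8 ^ d * Real.exp 1 * Real.exp (-s)) * volume (ball (0 : E u) 1)) (fun w => by
      rw [← hK]
      refine le_trans (measure_mono ?_) (H.leaf hZ hZ' (Θ := Θ) w)
      intro a ha
      refine ⟨ha.1, ψ (w + O a), ha.2.1, ha.2.2.2, ?_⟩
      have := ha.2.2.1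
      rw [hR, Finset.mem_filter] at this
      exact not_le.1 fun hle => this ⟨Finset.mem_univ _, hle⟩)
  have hvB : volume B ≤ ENNReal.ofReal (4 * 8 ^ d * Real.exp 1 * Real.exp (-s)) * V := by
    have hpos : volume (ball (0 : E u) 1) ≠ 0 := (measure_ball_pos _ _ one_pos).ne'
    have htop : volume (ball (0 : E u) 1) ≠ ⊤ := measure_ball_lt_top.ne
    rw [mul_right_comm] at hslice
    exact (ENNReal.mul_le_mul_iff_left hpos htop).1 hslice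
  have hpoor : ν {x | x ∈ Y ∧ Ω x ∉ R} ≤ ENNReal.ofReal (a * Real.exp (-s)) := by
    have h1 : {x | x ∈ Y ∧ Ω x ∉ R} ⊆ {x | x ∈ Y ∧ ξ x 0 ∈ B} := by
      intro x hx
      refine ⟨hx.1, ?_⟩
      show ψ (ξ x 0) ∈ Y ∧ Ω (ψ (ξ x 0)) ∉ R ∧ ξ (ψ (ξ x 0)) 0 = ξ x 0
      rw [hinv x hx.1]
      exact ⟨hx.1, hx.2, rfl⟩
    calc ν {x | x ∈ Y ∧ Ω x ∉ R} ≤ ν {x | x ∈ Y ∧ ξ x 0 ∈ B} := measure_mono h1
      _ ≤ C * volume B := hB B hBm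
      _ ≤ C * (ENNReal.ofReal (4 * 8 ^ d * Real.exp 1 * Real.exp (-s)) * V) := by gcongr
      _ = _ := by
        have : a * Real.exp (-s) = C * ((4 * 8 ^ d * Real.exp 1 * Real.exp (-s)) * V.toReal) := by
          rw [ha]; ring
        rw [this, ENNReal.ofReal_mul (Nat.cast_nonneg _), ENNReal.ofReal_natCast,
          ENNReal.ofReal_mul (p := 4 * 8 ^ d * Real.exp 1 * Real.exp (-s)) (by positivity),
          ENNReal.ofReal_toReal hVtop]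
  have hsplit : Y ⊆ {x | x ∈ Y ∧ Ω x ∉ R} ∪ {x | x ∈ Y ∧ Ω x ∈ R} := by
    intro x hx
    by_cases hxR : Ω x ∈ R
    · exact Or.inr ⟨hx, hxR⟩
    · exact Or.inl ⟨hx, hxR⟩
  have p1 : 0 ≤ Real.exp (-s) := (Real.exp_pos _).le
  have p2 : 0 ≤ Real.exp s * ϱ⁻¹ ^ (3 * d) * Real.exp (-(Fintype.card I / 4)) := by positivity
  calc ν Y ≤ ν {x | x ∈ Y ∧ Ω x ∉ R} + ν {x | x ∈ Y ∧ Ω x ∈ R} := (measure_mono hsplit).trans (measure_union_le _ _)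
    _ ≤ ENNReal.ofReal (a * Real.exp (-s)) +
        ENNReal.ofReal (b * (Real.exp s * ϱ⁻¹ ^ (3 * d) * Real.exp (-(Fintype.card I / 4)))) := add_le_add hpoor hrich
    _ = ENNReal.ofReal (a * Real.exp (-s) +
        b * (Real.exp s * ϱ⁻¹ ^ (3 * d) * Real.exp (-(Fintype.card I / 4)))) :=
        (ENNReal.ofReal_add (by positivity) (by positivity)).symm
    _ ≤ _ := ENNReal.ofReal_le_ofReal (by nlinarith [mul_nonneg ha0 p2, mul_nonneg hb0.le p1])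

end Crest.Agent.R133
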