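import Crest.Agent.R133.Vol

/-! Row 133: covering, slicing and counting lemmas. -/

set_option autoImplicit false

namespace Crest.Agent.R133

open MeasureTheory Finset Metric Function
open scoped ENNReal

variable {d k : ℕ}

/-- a maximal finite family with pairwise disjoint `H z` -/
theorem exists_cover {X ι : Type} [MeasurableSpace X] (m : Measure X) (Y : Set ι) (H : ι → Set X) (B : Set X)
    (V : ℝ≥0∞) (hH : ∀ y ∈ Y, MeasurableSet (H y)) (hB : ∀ y ∈ Y, H y ⊆ B) (hfin : m B ≠ ⊤) (hV : 0 < V)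
    (hle : ∀ y ∈ Y, V ≤ m (H y)) :
    ∃ Z : Finset ι, (∀ z ∈ Z, z ∈ Y) ∧ Z.card * V ≤ m B ∧ ∀ y ∈ Y, ∃ z ∈ Z, (H y ∩ H z).Nonempty := by
  classical
  have hcard : ∀ Z : Finset ι, (∀ z ∈ Z, z ∈ Y) → Set.PairwiseDisjoint (Z : Set ι) H →
      Z.card * V ≤ m B := by
    intro Z hZ hd
    calc (Z.card : ℝ≥0∞) * V = ∑ _z ∈ Z, V := by rw [sum_const, nsmul_eq_mul]
      _ ≤ ∑ z ∈ Z, m (H z) := sum_le_sum fun z hz => hle z (hZ z hz)
      _ = m (⋃ z ∈ Z, H z) := (measure_biUnion_finset hd fun z hz => hH z (hZ z hz)).symm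
      _ ≤ m B := measure_mono (Set.iUnion₂_subset fun z hz => hB z (hZ z hz))
  by_contra hcon
  have hall : ∀ n : ℕ, ∃ Z : Finset ι, (∀ z ∈ Z, z ∈ Y) ∧ Set.PairwiseDisjoint (Z : Set ι) H ∧
      Z.card = n := by
    intro n
    induction n with
    | zero => exact ⟨∅, by simp, by simp, rfl⟩
    | succ n ih =>
      obtain ⟨Z, hZ, hd, hn⟩ := ih
      have h1 : ∃ y ∈ Y, ∀ z ∈ Z, ¬ (H y ∩ H z).Nonempty := by
        by_contra h2
        push Not at h2
        exact hcon ⟨Z, hZ, hcard Z hZ hd, h2⟩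
      obtain ⟨y, hy, h1⟩ := h1
      have hne : (H y).Nonempty := nonempty_of_measure_ne_zero (hV.trans_le (hle y hy)).ne'
      have hyZ : y ∉ Z := fun h => h1 y h (by rwa [Set.inter_self])
      refine ⟨insert y Z, ?_, ?_, by rw [card_insert_of_notMem hyZ, hn]⟩
      · intro z hz
        rcases mem_insert.mp hz with rfl | hz
        · exact hy
        · exact hZ z hz
      · rw [coe_insert]
        refine hd.insert fun z hz _ => ?_
        exact Set.disjoint_iff_inter_eq_empty.mpr (Set.not_nonempty_iff_eq_empty.mp (h1 z hz))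
  obtain ⟨n, hn⟩ := ENNReal.exists_nat_mul_gt hV.ne' hfin
  obtain ⟨Z, hZ, hd, rfl⟩ := hall n
  exact absurd (hcard Z hZ hd) (not_le.mpr hn)

/-- Fubini for the set `{(ξ, a) | ‖a‖ < 1, ξ + O a ∈ B}` and translation invariance -/
theorem slice_le {O : E k →L[ℝ] E d} (hO : Iso O) {B : Set (E d)} (hB : MeasurableSet B) {C : ℝ}
    (hC : B ⊆ closedBall 0 C) {κ : ℝ≥0∞} (h : ∀ ξ, volume {a : E k | ‖a‖ < 1 ∧ ξ + O a ∈ B} ≤ κ) :
    volume B * volume (ball (0 : E k) 1) ≤ κ * volume (closedBall (0 : E d) (C + 1)) := by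
  have hS : MeasurableSet {p : E d × E k | ‖p.2‖ < 1 ∧ p.1 + O p.2 ∈ B} :=
    (measurableSet_lt (by fun_prop : Measurable fun p : E d × E k => ‖p.2‖) measurable_const).inter
      ((by fun_prop : Measurable fun p : E d × E k => p.1 + O p.2) hB)
  have h1 := Measure.prod_apply (μ := (volume : Measure (E d))) (ν := (volume : Measure (E k))) hS
  have h2 := Measure.prod_apply_symm (μ := (volume : Measure (E d)))
    (ν := (volume : Measure (E k))) hS
  calc volume B * volume (ball (0 : E k) 1)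
      = ∫⁻ a, (ball (0 : E k) 1).indicator (fun _ => volume B) a := by
        rw [lintegral_indicator_const measurableSet_ball]
    _ = ∫⁻ a : E k, volume ((fun ξ : E d => (ξ, a)) ⁻¹'
          {p : E d × E k | ‖p.2‖ < 1 ∧ p.1 + O p.2 ∈ B}) := by
        refine lintegral_congr fun a => ?_
        by_cases ha : ‖a‖ < 1
        · rw [Set.indicator_of_mem (mem_ball_zero_iff.mpr ha),
            ← measure_preimage_add_right volume (O a) B]
          congr 1
          ext ξ
          simp [ha]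
        · rw [Set.indicator_of_notMem (fun h => ha (mem_ball_zero_iff.mp h))]
          symm
          convert measure_empty (μ := (volume : Measure (E d)))
          ext ξ
          simp [ha]
    _ = ∫⁻ ξ : E d, volume (Prod.mk ξ ⁻¹' {p : E d × E k | ‖p.2‖ < 1 ∧ p.1 + O p.2 ∈ B}) := by
        rw [← h1, ← h2]
    _ ≤ ∫⁻ ξ, (closedBall (0 : E d) (C + 1)).indicator (fun _ => κ) ξ := by
        refine lintegral_mono fun ξ => ?_
        by_cases hξ : ξ ∈ closedBall (0 : E d) (C + 1)
        · rw [Set.indicator_of_mem hξ]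
          exact h ξ
        · rw [Set.indicator_of_notMem hξ]
          refine le_of_eq ?_
          convert measure_empty (μ := (volume : Measure (E k)))
          refine Set.eq_empty_of_forall_notMem fun a ha => hξ ?_
          have h3 : ‖ξ + O a‖ ≤ C := mem_closedBall_zero_iff.mp (hC ha.2)
          have h4 : ‖a‖ < 1 := ha.1
          have h5 : ‖ξ‖ ≤ ‖ξ + O a‖ + ‖O a‖ := by simpa using norm_sub_le (ξ + O a) (O a)
          rw [hO a] at h5
          exact mem_closedBall_zero_iff.mpr (by linarith)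
    _ = κ * volume (closedBall (0 : E d) (C + 1)) :=
        lintegral_indicator_const measurableSet_closedBall _

/-- Fubini for the set `{(q, a) | ‖q‖ ≤ ϱ, z + q + O a ∈ H}` -/
theorem le_slice {O : E k →L[ℝ] E d} {H : Set (E d)} (hH : MeasurableSet H) {z : E d} (hz : H ⊆ closedBall z 1)
    {ϱ : ℝ} (hϱ : ϱ ≤ 1) {V : ℝ≥0∞} (h : ∀ q : E d, ‖q‖ ≤ ϱ → V ≤ volume {a : E k | z + q + O a ∈ H}) :
    V * volume (closedBall (0 : E d) ϱ) ≤ volume H * volume {a : E k | ‖O a‖ ≤ 2} := by
  have hS : MeasurableSet {p : E d × E k | ‖p.1‖ ≤ ϱ ∧ z + p.1 + O p.2 ∈ H} :=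
    (measurableSet_le (by fun_prop : Measurable fun p : E d × E k => ‖p.1‖) measurable_const).inter
      ((by fun_prop : Measurable fun p : E d × E k => z + p.1 + O p.2) hH)
  have hA : MeasurableSet {a : E k | ‖O a‖ ≤ 2} := measurableSet_le (by fun_prop) measurable_const
  have h1 := Measure.prod_apply (μ := (volume : Measure (E d))) (ν := (volume : Measure (E k))) hS
  have h2 := Measure.prod_apply_symm (μ := (volume : Measure (E d)))
    (ν := (volume : Measure (E k))) hS
  calc V * volume (closedBall (0 : E d) ϱ)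
      = ∫⁻ q, (closedBall (0 : E d) ϱ).indicator (fun _ => V) q :=
        (lintegral_indicator_const measurableSet_closedBall _).symm
    _ ≤ ∫⁻ q : E d, volume (Prod.mk q ⁻¹' {p : E d × E k | ‖p.1‖ ≤ ϱ ∧ z + p.1 + O p.2 ∈ H}) := by
        refine lintegral_mono fun q => ?_
        by_cases hq : q ∈ closedBall (0 : E d) ϱ
        · rw [Set.indicator_of_mem hq]
          have hq' := mem_closedBall_zero_iff.mp hq
          exact (h q hq').trans (measure_mono fun a ha => ⟨hq', ha⟩)
        · rw [Set.indicator_of_notMem hq]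
          exact zero_le
    _ = ∫⁻ a : E k, volume ((fun q : E d => (q, a)) ⁻¹'
          {p : E d × E k | ‖p.1‖ ≤ ϱ ∧ z + p.1 + O p.2 ∈ H}) := by
        rw [← h1, ← h2]
    _ ≤ ∫⁻ a, {a : E k | ‖O a‖ ≤ 2}.indicator (fun _ => volume H) a := by
        refine lintegral_mono fun a => ?_
        by_cases ha : a ∈ {a : E k | ‖O a‖ ≤ 2}
        · rw [Set.indicator_of_mem ha, ← measure_preimage_add_right volume (z + O a) H]
          refine measure_mono fun q hq => ?_
          have h3 : z + q + O a ∈ H := hq.2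
          have h4 : q + (z + O a) = z + q + O a := by abel
          show q + (z + O a) ∈ H
          rwa [h4]
        · rw [Set.indicator_of_notMem ha]
          refine le_of_eq ?_
          convert measure_empty (μ := (volume : Measure (E d)))
          refine Set.eq_empty_of_forall_notMem fun q hq => ha ?_
          have h3 : ‖z + q + O a - z‖ ≤ 1 := mem_closedBall_iff_norm.mp (hz hq.2)
          have h4 : ‖q‖ ≤ ϱ := hq.1
          have h5 : O a = (z + q + O a - z) - q := by abel
          have h6 := norm_sub_le (z + q + O a - z) q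
          rw [← h5] at h6
          show ‖O a‖ ≤ 2
          linarith
    _ = volume H * volume {a : E k | ‖O a‖ ≤ 2} := lintegral_indicator_const hA _

/-- `#ball ≤ 8 ^ (2 h) ∑_ω 8⁻¹ ^ dist (ω, ω₀) = 8 ^ (2 h) (9 / 8) ^ m`, and `8 ^ (m / 20) (9 / 16) ^ m ≤ exp (-m / 4)` -/
theorem hamming_ball {I : Type} [Fintype I] [DecidableEq I] (ω₀ : I → Bool) {h : ℝ}
    (hh : 40 * h ≤ Fintype.card I) :
    (#{ω : I → Bool | (hammingDist ω ω₀ : ℝ) ≤ 2 * h} : ℝ) * 2⁻¹ ^ Fintype.card I ≤
      Real.exp (-(Fintype.card I / 4)) := by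
  set t : ℝ := Real.exp (-2) with ht
  have ht0 : 0 < t := Real.exp_pos _
  have ht1 : t ≤ 1 / 4 := by
    have h1 : (2 : ℝ) ≤ Real.exp 1 := by linarith [Real.add_one_le_exp (1 : ℝ)]
    have h2 : t * (Real.exp 1 * Real.exp 1) = 1 := by
      rw [ht, ← Real.exp_add, ← Real.exp_add]; norm_num
    have h3 : 4 ≤ Real.exp 1 * Real.exp 1 := by nlinarith
    nlinarith
  have hsum : ∑ ω : I → Bool, t ^ hammingDist ω ω₀ = (1 + t) ^ Fintype.card I := by
    have h1 : ∀ ω : I → Bool, t ^ hammingDist ω ω₀ = ∏ i, if ω i ≠ ω₀ i then t else 1 := by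
      intro ω
      rw [← prod_filter, prod_const]
      rfl
    simp only [h1]
    have h2 := prod_univ_sum (fun _ : I => (univ : Finset Bool))
      (fun i b => if b ≠ ω₀ i then t else 1)
    rw [Fintype.piFinset_univ] at h2
    rw [← h2, ← card_univ, ← prod_const]
    refine prod_congr rfl fun i _ => ?_
    cases ω₀ i <;> simp [add_comm]
  have h1 : (#{ω : I → Bool | (hammingDist ω ω₀ : ℝ) ≤ 2 * h} : ℝ)
      ≤ Real.exp (Fintype.card I / 10) * (1 + t) ^ Fintype.card I := by
    rw [← hsum, mul_sum, card_eq_sum_ones, Nat.cast_sum, sum_filter]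
    refine sum_le_sum fun ω _ => ?_
    split_ifs with hω
    · rw [ht, ← Real.exp_nat_mul, ← Real.exp_add, Nat.cast_one]
      exact Real.one_le_exp (by linarith)
    · positivity
  have h2 : (1 + t) * 2⁻¹ ≤ Real.exp (-(3 / 8)) := by
    have := Real.add_one_le_exp (-(3 / 8) : ℝ)
    linarith
  calc (#{ω : I → Bool | (hammingDist ω ω₀ : ℝ) ≤ 2 * h} : ℝ) * 2⁻¹ ^ Fintype.card I
      ≤ Real.exp (Fintype.card I / 10) * (1 + t) ^ Fintype.card I * 2⁻¹ ^ Fintype.card I :=
        mul_le_mul_of_nonneg_right h1 (by positivity)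
    _ = Real.exp (Fintype.card I / 10) * ((1 + t) * 2⁻¹) ^ Fintype.card I := by
        rw [mul_pow, mul_assoc]
    _ ≤ Real.exp (Fintype.card I / 10) * Real.exp (-(3 / 8)) ^ Fintype.card I :=
        mul_le_mul_of_nonneg_left (pow_le_pow_left₀ (by positivity) h2 _) (Real.exp_pos _).le
    _ ≤ Real.exp (-(Fintype.card I / 4)) := by
        rw [← Real.exp_nat_mul, ← Real.exp_add]
        refine Real.exp_le_exp.mpr ?_
        have : (0 : ℝ) ≤ Fintype.card I := Nat.cast_nonneg _
        linarith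

end Crest.Agent.R133
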