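import Crest.Agent.R133.Disc
import Crest.Agent.R133.Cover

/-! Row 133: the counting argument for the good points of one type. -/

set_option autoImplicit false

namespace Crest.Agent.R133

open MeasureTheory Finset Metric Function
open scoped ENNReal

variable {d u : ℕ}

/-- the geometric data for the good points `Y` of one type -/
structure Typ {M I : Type} [Fintype I] [DecidableEq I] (C : ℕ) (Y : Set M) (O : E u →L[ℝ] E d) (N T₁ : ℕ)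
    (F : ℕ → E d → E d) (ξ : M → ℕ → E d) (A : M → ℕ → E d →L[ℝ] E d) (r : ℕ → ℝ) (ϱ ι L n₁ n₂ h : ℝ)
    (Ω : M → I → Bool) : Prop where
  hO : Iso O
  hT : T₁ ≤ N
  hr : ∀ t, 0 < r t ∧ r t ≤ 1
  hϱ : 0 < ϱ ∧ ϱ ≤ 1
  hL : 1 ≤ L
  hι : 800 * ((d : ℝ) + 1) * ((N : ℝ) + 1) ^ 2 * L ^ 5 * ι ≤ 1
  hh : 40 * h ≤ Fintype.card I
  bdd : ∀ x ∈ Y, ∀ t, ‖ξ x t‖ ≤ C
  bilip : ∀ x ∈ Y, ∀ t, BiLip L (A x t)
  near : ∀ x ∈ Y, Near F (ξ x) (A x) (fun t => 8 * r t) (fun t => 8 * L * r t) N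
  reg : ∀ x ∈ Y, Reg (A x) O N T₁ r ϱ ι
  vol1 : ∀ x ∈ Y, Real.exp n₁ ≤ vol (prod (A x) 0 T₁ ∘L O) ∧ vol (prod (A x) 0 T₁ ∘L O) ≤ Real.exp (n₁ + 1)
  vol2 : ∀ x ∈ Y, Real.exp n₂ ≤ vol (prod (A x) 0 N ∘L O) ∧ vol (prod (A x) 0 N ∘L O) ≤ Real.exp (n₂ + 1)
  past : ∀ x ∈ Y, ∀ x' ∈ Y, (∀ t, t ≤ T₁ → ‖ξ x t - ξ x' t‖ ≤ 2 * r t) → (hammingDist (Ω x) (Ω x') : ℝ) ≤ h
  future : ∀ x ∈ Y, ∀ x' ∈ Y, (∀ t, T₁ ≤ t → t ≤ N → ‖ξ x t - ξ x' t‖ ≤ 2 * r t) →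
    (hammingDist (Ω x) (Ω x') : ℝ) ≤ h

variable {M I : Type} [Fintype I] [DecidableEq I] {C : ℕ} {Y : Set M} {O : E u →L[ℝ] E d} {N T₁ : ℕ}
  {F : ℕ → E d → E d} {ξ : M → ℕ → E d} {A : M → ℕ → E d →L[ℝ] E d} {r : ℕ → ℝ} {ϱ ι L n₁ n₂ h : ℝ}
  {Ω : M → I → Bool}

lemma counta_closedBall (d : ℕ) {s : ℝ} (hs : 0 ≤ s) :
    volume (closedBall (0 : E d) s) = ENNReal.ofReal (s ^ d) * volume (ball (0 : E d) 1) := by
  rw [Measure.addHaar_closedBall _ _ hs, finrank_euclideanSpace_fin]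

lemma counta_near (H : Typ C Y O N T₁ F ξ A r ϱ ι L n₁ n₂ h Ω) {z : M} (hz : z ∈ Y) :
    Near (fun t => F (T₁ + t)) (fun t => ξ z (T₁ + t)) (fun t => A z (T₁ + t))
      (fun t => 2 * r (T₁ + t)) (fun t => 8 * L * r (T₁ + t)) (N - T₁) := by
  refine ⟨fun t ht => (H.near z hz).step (T₁ + t) (by omega), fun t ht => ?_⟩
  obtain ⟨F', hF'⟩ := (H.near z hz).der (T₁ + t) (by omega)
  exact ⟨F', fun x hx => hF' x (ball_subset_ball (by linarith [(H.hr (T₁ + t)).1]) hx)⟩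

lemma counta_sub (H : Typ C Y O N T₁ F ξ A r ϱ ι L n₁ n₂ h Ω) (z : M) :
    {w | Tube (fun t => F (T₁ + t)) (fun t => ξ z (T₁ + t)) (fun t => r (T₁ + t)) (N - T₁) w} ⊆
      closedBall (ξ z T₁) 1 := fun w hw => by
  rw [mem_closedBall, dist_eq_norm]
  exact (hw 0 (Nat.zero_le _)).trans (H.hr _).2

lemma counta_vol (H : Typ C Y O N T₁ F ξ A r ϱ ι L n₁ n₂ h Ω) {z : M} (hz : z ∈ Y) :
    ENNReal.ofReal (ϱ ^ (2 * d) * Real.exp (n₁ - n₂ - 1) / 2 ^ (d + 1)) * volume (ball (0 : E d) 1) ≤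
      volume {w | Tube (fun t => F (T₁ + t)) (fun t => ξ z (T₁ + t)) (fun t => r (T₁ + t)) (N - T₁) w} := by
  obtain ⟨κ, hdom, hκ⟩ := (H.reg z hz).future
  obtain ⟨hϱ0, hϱ1⟩ := H.hϱ
  have hL := H.hL
  have hT := H.hT
  have hκ1 : 1 ≤ κ := hdom.one 0
  have hι0 : 0 ≤ ι := le_trans (mul_nonneg (sq_nonneg _) (H.hr T₁).1.le) (hκ T₁ le_rfl hT).1
  have hinj : ∀ m, Injective (prod (A z) 0 m ∘L O) := fun m =>
    (bilip_prod (L := L) (by linarith) fun t _ _ => H.bilip z hz t).injective.comp H.hO.injective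
  have hud : u ≤ d := le_of_injective H.hO.injective
  have hNT : ((N - T₁ : ℕ) : ℝ) ≤ N := by exact_mod_cast Nat.sub_le _ _
  have hNT0 : (0 : ℝ) ≤ ((N - T₁ : ℕ) : ℝ) := Nat.cast_nonneg _
  have hD : DiscH (fun t => F (T₁ + t)) (fun t => ξ z (T₁ + t)) (fun t => A z (T₁ + t))
      (prod (A z) 0 T₁ ∘L O) (N - T₁) (fun _ => κ) (fun _ => 1) (fun t => r (T₁ + t))
      (fun t => 8 * L * r (T₁ + t)) L (8 * L * ι) := by
    refine ⟨hdom, counta_near H hz, fun t => (H.hr _).1, hL, fun t _ => H.bilip z hz _, hinj T₁,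
      fun s => by have := (H.hr (T₁ + s)).1; positivity, fun s hs => ?_, ?_⟩
    · have := (hκ (T₁ + s) (by omega) (by omega)).1
      calc κ ^ 2 * (8 * L * r (T₁ + s)) = 8 * L * (κ ^ 2 * r (T₁ + s)) := by ring
        _ ≤ 8 * L * ι := by gcongr
    · refine le_trans ?_ H.hι
      calc 100 * ((d : ℝ) + 1) * (((N - T₁ : ℕ) : ℝ) + 1) ^ 2 * L ^ 4 * (8 * L * ι)
          = 800 * ((d : ℝ) + 1) * (((N - T₁ : ℕ) : ℝ) + 1) ^ 2 * L ^ 5 * ι := by ring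
        _ ≤ _ := by gcongr
  have hsmall : ι * (4 + 2 * (((N - T₁ : ℕ) : ℝ) * L ^ 2)) < 1 := by
    have h1 : (1 : ℝ) ≤ L ^ 2 := one_le_pow₀ hL
    have h2 : L ^ 2 ≤ L ^ 5 := pow_le_pow_right₀ hL (by norm_num)
    have h3 : (0 : ℝ) ≤ N := Nat.cast_nonneg _
    have h4 : 4 + 2 * (((N - T₁ : ℕ) : ℝ) * L ^ 2) ≤ 4 * (((N : ℝ) + 1) * L ^ 2) := by nlinarith
    have h5 : ((N : ℝ) + 1) * L ^ 2 ≤ ((d : ℝ) + 1) * ((N : ℝ) + 1) ^ 2 * L ^ 5 := by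
      have h6 : ((N : ℝ) + 1) ≤ ((d : ℝ) + 1) * ((N : ℝ) + 1) ^ 2 := by
        have : (0 : ℝ) ≤ d := Nat.cast_nonneg _
        nlinarith [mul_nonneg this (sq_nonneg ((N : ℝ) + 1))]
      gcongr
    have h7 : ι * (4 + 2 * (((N - T₁ : ℕ) : ℝ) * L ^ 2)) ≤
        ι * (4 * (((d : ℝ) + 1) * ((N : ℝ) + 1) ^ 2 * L ^ 5)) := by
      gcongr; linarith
    have h8 := H.hι
    nlinarith
  have hlow := fun q (hq : ‖q‖ ≤ ϱ) => hD.lower hϱ0 (ϱ' := ϱ) (fun s hs => by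
    have h1 := (hκ (T₁ + s) (by omega) (by omega)).2
    have h2 := (H.hr (T₁ + s)).1
    have h3 : κ * ϱ ≤ κ ^ 2 * ϱ := by gcongr; nlinarith
    have h4 : 0 ≤ ((N - T₁ : ℕ) : ℝ) * L ^ 2 := by positivity
    calc κ * 1 * (2 * ϱ / 1 + 2 * (((N - T₁ : ℕ) : ℝ) * L ^ 2 + 1) * (κ * ϱ / 1))
        = 2 * (κ * ϱ) + 2 * (((N - T₁ : ℕ) : ℝ) * L ^ 2 + 1) * (κ ^ 2 * ϱ) := by ring
      _ ≤ 2 * (ι * r (T₁ + s)) + 2 * (((N - T₁ : ℕ) : ℝ) * L ^ 2 + 1) * (ι * r (T₁ + s)) := by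
          have h5 := h3.trans h1
          have h6 := mul_le_mul_of_nonneg_left h1
            (show 0 ≤ 2 * (((N - T₁ : ℕ) : ℝ) * L ^ 2 + 1) by positivity)
          linarith
      _ = ι * (4 + 2 * (((N - T₁ : ℕ) : ℝ) * L ^ 2)) * r (T₁ + s) := by ring
      _ < 1 * r (T₁ + s) := by gcongr
      _ = _ := one_mul _) hq
  have hcomp : prod (fun t => A z (T₁ + t)) 0 (N - T₁) ∘L (prod (A z) 0 T₁ ∘L O) =
      prod (A z) 0 N ∘L O := by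
    have := prod_add (A z) 0 T₁ (N - T₁)
    rw [Nat.add_sub_cancel' hT, zero_add] at this
    rw [prod_shift, add_zero, this, ContinuousLinearMap.comp_assoc]
  rw [hcomp] at hlow
  have hsl := le_slice (O := prod (A z) 0 T₁ ∘L O)
    (isClosed_tube (counta_near H hz) fun t => (H.hr _).1).measurableSet (counta_sub H z) hϱ1 hlow
  rw [volume_ellipsoid_le (hinj T₁) (by norm_num), counta_closedBall d hϱ0.le] at hsl
  have hv1 := vol_pos (hinj T₁)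
  have hv2 := vol_pos (hinj N)
  have hcu0 : volume (ball (0 : E u) 1) ≠ 0 := (measure_ball_pos _ _ one_pos).ne'
  have hcu1 : volume (ball (0 : E u) 1) ≠ ⊤ := measure_ball_lt_top.ne
  have hβ : 0 < 2 ^ u / vol (prod (A z) 0 T₁ ∘L O) := by positivity
  refine (ENNReal.mul_le_mul_iff_left (c := ENNReal.ofReal (2 ^ u / vol (prod (A z) 0 T₁ ∘L O)) *
    volume (ball (0 : E u) 1)) (mul_ne_zero (ENNReal.ofReal_pos.2 hβ).ne' hcu0)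
    (ENNReal.mul_ne_top ENNReal.ofReal_ne_top hcu1)).1 (le_trans ?_ hsl)
  have key : ϱ ^ (2 * d) * Real.exp (n₁ - n₂ - 1) / 2 ^ (d + 1) * (2 ^ u / vol (prod (A z) 0 T₁ ∘L O)) ≤
      ϱ ^ u / (2 * vol (prod (A z) 0 N ∘L O)) * ϱ ^ d := by
    have h1 := (H.vol1 z hz).1
    have h2 := (H.vol2 z hz).2
    have h3 : ϱ ^ d ≤ ϱ ^ u := pow_le_pow_of_le_one hϱ0.le hϱ1 hud
    have h4 : (2 : ℝ) ^ u ≤ 2 ^ d := pow_le_pow_right₀ one_le_two hud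
    calc ϱ ^ (2 * d) * Real.exp (n₁ - n₂ - 1) / 2 ^ (d + 1) * (2 ^ u / vol (prod (A z) 0 T₁ ∘L O))
        ≤ ϱ ^ (2 * d) * Real.exp (n₁ - n₂ - 1) / 2 ^ (d + 1) * (2 ^ d / Real.exp n₁) := by gcongr
      _ = ϱ ^ d / (2 * Real.exp (n₂ + 1)) * ϱ ^ d := by
          rw [show n₁ - n₂ - 1 = n₁ - (n₂ + 1) by ring, Real.exp_sub]
          field_simp
          ring
      _ ≤ _ := by gcongr
  calc ENNReal.ofReal (ϱ ^ (2 * d) * Real.exp (n₁ - n₂ - 1) / 2 ^ (d + 1)) * volume (ball (0 : E d) 1) *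
        (ENNReal.ofReal (2 ^ u / vol (prod (A z) 0 T₁ ∘L O)) * volume (ball (0 : E u) 1))
      = ENNReal.ofReal (ϱ ^ (2 * d) * Real.exp (n₁ - n₂ - 1) / 2 ^ (d + 1) *
          (2 ^ u / vol (prod (A z) 0 T₁ ∘L O))) *
          (volume (ball (0 : E d) 1) * volume (ball (0 : E u) 1)) := by
        rw [ENNReal.ofReal_mul (by positivity)]; ring
    _ ≤ ENNReal.ofReal (ϱ ^ u / (2 * vol (prod (A z) 0 N ∘L O)) * ϱ ^ d) *
          (volume (ball (0 : E d) 1) * volume (ball (0 : E u) 1)) := by gcongr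
    _ = _ := by rw [ENNReal.ofReal_mul (by positivity)]; ring

/-- Forward cells.  For `z ∈ Y` let `H z` be the closed set of the `w` whose orbit under the shifted maps `F (T₁ + ·)` stays in the tube `r (T₁ + ·)` around
`ξ z (T₁ + ·)`.  `DiscH.lower` (shifted data, `Reg.future`, `ϱ' = ϱ`), `le_slice` and `volume_ellipsoid_le` give
`volume (H z) ≥ ϱ ^ (2 d) exp (n₁ - n₂ - 1) / 2 ^ (d + 1) * volume (ball 0 1)`; `H z ⊆ closedBall 0 (C + 1)`; use `exists_cover`. -/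
theorem Typ.cells (H : Typ C Y O N T₁ F ξ A r ϱ ι L n₁ n₂ h Ω) : ∃ Z : Finset M, (∀ z ∈ Z, z ∈ Y) ∧
    (Z.card : ℝ) ≤ 2 ^ (d + 1) * ((C : ℝ) + 1) ^ d * Real.exp (n₂ - n₁ + 1) * ϱ⁻¹ ^ (2 * d) ∧
    ∀ y ∈ Y, ∃ z ∈ Z, ∀ t, T₁ ≤ t → t ≤ N → ‖ξ y t - ξ z t‖ ≤ 2 * r t := by
  obtain ⟨hϱ0, hϱ1⟩ := H.hϱ
  have hγ : 0 < ϱ ^ (2 * d) * Real.exp (n₁ - n₂ - 1) / 2 ^ (d + 1) := by positivity
  have hc0 : volume (ball (0 : E d) 1) ≠ 0 := (measure_ball_pos _ _ one_pos).ne'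
  have hc1 : volume (ball (0 : E d) 1) ≠ ⊤ := measure_ball_lt_top.ne
  obtain ⟨Z, hZ, hcard, hcov⟩ := exists_cover volume Y
    (fun z => {w | Tube (fun t => F (T₁ + t)) (fun t => ξ z (T₁ + t)) (fun t => r (T₁ + t)) (N - T₁) w})
    (closedBall (0 : E d) ((C : ℝ) + 1)) _
    (fun z hz => (isClosed_tube (counta_near H hz) fun t => (H.hr _).1).measurableSet)
    (fun z hz => (counta_sub H z).trans (closedBall_subset_closedBall' (by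
      rw [dist_zero_right]; linarith [H.bdd z hz T₁])))
    measure_closedBall_lt_top.ne
    (ENNReal.mul_pos (ENNReal.ofReal_pos.2 hγ).ne' hc0) (fun z hz => counta_vol H hz)
  refine ⟨Z, hZ, ?_, fun y hy => ?_⟩
  · rw [counta_closedBall d (by positivity), ← mul_assoc, ENNReal.mul_le_mul_iff_left hc0 hc1,
      ← ENNReal.ofReal_natCast, ← ENNReal.ofReal_mul (Nat.cast_nonneg _),
      ENNReal.ofReal_le_ofReal_iff (by positivity), ← le_div_iff₀ hγ] at hcard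
    refine hcard.trans (le_of_eq ?_)
    rw [show n₁ - n₂ - 1 = -(n₂ - n₁ + 1) by ring, Real.exp_neg, inv_pow]
    field_simp
  · obtain ⟨z, hz, w, hw, hw'⟩ := hcov y hy
    refine ⟨z, hz, fun t h1 h2 => ?_⟩
    obtain ⟨s, rfl⟩ := Nat.exists_eq_add_of_le h1
    have h3 := hw s (by omega)
    have h4 := hw' s (by omega)
    calc ‖ξ y (T₁ + s) - ξ z (T₁ + s)‖
        = ‖(orb (fun t => F (T₁ + t)) w s - ξ z (T₁ + s)) -
            (orb (fun t => F (T₁ + t)) w s - ξ y (T₁ + s))‖ := by congr 1; abel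
      _ ≤ r (T₁ + s) + r (T₁ + s) := (norm_sub_le _ _).trans (add_le_add h4 h3)
      _ = _ := by ring

end Crest.Agent.R133
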