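import Crest.Agent.R133.CountA

/-! Row 133: the counting argument for the good points of one type. -/

set_option autoImplicit false

namespace Crest.Agent.R133

open MeasureTheory Finset Metric Function
open scoped ENNReal

variable {d u : ℕ}

variable {M I : Type} [Fintype I] [DecidableEq I] {C : ℕ} {Y : Set M} {O : E u →L[ℝ] E d} {N T₁ : ℕ}
  {F : ℕ → E d → E d} {ξ : M → ℕ → E d} {A : M → ℕ → E d →L[ℝ] E d} {r : ℕ → ℝ} {ϱ ι L n₁ n₂ h : ℝ}
  {Ω : M → I → Bool}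

theorem countb_near {y : ℕ → E d} {B : ℕ → E d →L[ℝ] E d} {s s' e : ℕ → ℝ} {T T' : ℕ}
    (H : Near F y B s e T) (hs : ∀ t, s' t ≤ s t) (hT : T' ≤ T) : Near F y B s' e T' :=
  ⟨fun t ht => H.step t (ht.trans_le hT), fun t ht =>
    let ⟨F', hF'⟩ := H.der t (ht.trans_le hT)
    ⟨F', fun x hx => hF' x (ball_subset_ball (hs t) hx)⟩⟩

theorem countb_inj (hO : Iso O) : Injective O := fun a b hab => by
  rw [← sub_eq_zero, ← norm_eq_zero, ← hO, map_sub, hab, sub_self, norm_zero]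

theorem countb_disc (H : Typ C Y O N T₁ F ξ A r ϱ ι L n₁ n₂ h Ω) {x : M} (hx : x ∈ Y) {κ ρ : ℕ → ℝ}
    (hD : Dom (A x) O N κ ρ) (hκ : ∀ s, s ≤ N → κ s ^ 2 * r s ≤ ι) {T : ℕ} (hT : T ≤ N) {s : ℕ → ℝ}
    (hs0 : ∀ t, 0 < s t) (hs : ∀ t, s t ≤ 4 * r t) :
    DiscH F (ξ x) (A x) O T κ ρ s (fun t => 8 * L * r t) L (8 * L * ι) := by
  have hL := H.hL
  have hι : 0 ≤ ι := le_trans (mul_nonneg (sq_nonneg _) (H.hr 0).1.le) (hκ 0 (Nat.zero_le _))
  refine ⟨⟨hD.pos, hD.one, fun s t h1 h2 => hD.back s t h1 (h2.trans hT),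
    fun s t h1 h2 => hD.quot s t h1 (h2.trans hT)⟩,
    countb_near (H.near x hx) (fun t => by linarith [hs t]) hT, hs0, hL,
    fun t _ => H.bilip x hx t, countb_inj H.hO, fun t => ?_, fun t ht => ?_, le_trans ?_ H.hι⟩
  · have := (H.hr t).1
    positivity
  · have := mul_le_mul_of_nonneg_left (hκ t (ht.le.trans hT)) (show 0 ≤ 8 * L by linarith)
    linarith
  · have h1 : (T : ℝ) ≤ N := by exact_mod_cast hT
    calc 100 * ((d : ℝ) + 1) * ((T : ℝ) + 1) ^ 2 * L ^ 4 * (8 * L * ι)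
        = 800 * ((d : ℝ) + 1) * ((T : ℝ) + 1) ^ 2 * L ^ 5 * ι := by ring
      _ ≤ _ := by gcongr

theorem countb_lower (H : Typ C Y O N T₁ F ξ A r ϱ ι L n₁ n₂ h Ω) {x : M} (hx : x ∈ Y) {w : E d}
    {a : E u} (ha : ξ x 0 = w + O a) :
    ENNReal.ofReal (ϱ ^ u / (2 * Real.exp (n₁ + 1))) * volume (ball (0 : E u) 1) ≤
      volume {a' : E u | Tube F (ξ x) r T₁ (w + O a')} := by
  obtain ⟨κ, ρ, hD, hκ, hρ⟩ := (H.reg x hx).past
  have hϱ := H.hϱ.1
  have h1 := (countb_disc H hx hD hκ H.hT (fun t => (H.hr t).1)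
    (fun t => by linarith [(H.hr t).1])).lower (ϱ' := 0) (q := 0) hϱ (fun s hs => by
      have h2 := hρ s hs
      have h3 := mul_pos (H.hr s).1 (hD.pos T₁)
      rw [mul_zero, zero_div, mul_zero, add_zero, ← mul_div_assoc, div_lt_iff₀ (hD.pos T₁)]
      linarith) (by simp)
  have h2 : {a' : E u | Tube F (ξ x) r T₁ (ξ x 0 + 0 + O a')} =
      (fun a' => a + a') ⁻¹' {a' : E u | Tube F (ξ x) r T₁ (w + O a')} := by
    ext a'
    simp only [Set.mem_ofPred_eq, Set.mem_preimage, ha, add_zero, map_add, add_assoc]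
  rw [h2, measure_preimage_add] at h1
  refine le_trans ?_ h1
  have h3 := (Real.exp_pos _).trans_le (H.vol1 x hx).1
  have h4 := (H.vol1 x hx).2
  gcongr

theorem countb_upper (H : Typ C Y O N T₁ F ξ A r ϱ ι L n₁ n₂ h Ω) {x : M} (hx : x ∈ Y) {w : E d}
    {a : E u} (ha : ξ x 0 = w + O a) :
    volume {a' : E u | Tube F (ξ x) (fun t => 4 * r t) N (w + O a')} ≤
      ENNReal.ofReal (2 * 4 ^ u / Real.exp n₂) * volume (ball (0 : E u) 1) := by
  obtain ⟨κ, ρ, hD, hκ, -⟩ := (H.reg x hx).past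
  have h1 := (countb_disc H hx hD hκ le_rfl (s := fun t => 4 * r t)
    (fun t => by linarith [(H.hr t).1]) (fun t => le_rfl)).upper
  have h2 : {a' : E u | Tube F (ξ x) (fun t => 4 * r t) N (ξ x 0 + O a')} =
      (fun a' => a + a') ⁻¹' {a' : E u | Tube F (ξ x) (fun t => 4 * r t) N (w + O a')} := by
    ext a'
    simp only [Set.mem_ofPred_eq, Set.mem_preimage, ha, map_add, add_assoc]
  rw [h2, measure_preimage_add] at h1
  refine h1.trans ?_
  have h3 := (H.vol2 x hx).1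
  have h4 := H.hr N
  have h5 : 4 * r N ≤ 4 := by linarith
  have h6 : 0 ≤ 4 * r N := by linarith
  gcongr

/-- One leaf.  For `a` in the set let `x a` be the point, `Hf a = {a' | Tube F (ξ (x a)) r T₁ (w + O a')} ⊆ ball 0 2`, of volume
`≥ V = ϱ ^ u / (2 exp (n₁ + 1)) * c` with `c = volume (ball 0 1)` (`DiscH.lower`, `Reg.past`, `ϱ' = 0`, translation).  Take a cover `a₁, …` (`exists_cover`, number `≤ 2 ^ u c / V`).  If
`Hf a` meets `Hf aᵢ` then `Ω (x a)` is `h`-close to `Ω (x aᵢ)`, and `x a` is in the forward cell of some `z ∈ Z`, whose `Ω z` is `2 h`-close to `Ω (x aᵢ)`: fewer than `Θ`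
choices.  For given `i`, `z`, all such `a` are in the tube of radii `4 r` around one of them up to time `N`, a set of volume `≤ 2 * 4 ^ u / exp n₂ * c`
(`DiscH.upper`). -/
theorem Typ.leaf (H : Typ C Y O N T₁ F ξ A r ϱ ι L n₁ n₂ h Ω) {Z : Finset M} (hZ : ∀ z ∈ Z, z ∈ Y)
    (hZ' : ∀ y ∈ Y, ∃ z ∈ Z, ∀ t, T₁ ≤ t → t ≤ N → ‖ξ y t - ξ z t‖ ≤ 2 * r t) {Θ : ℝ} (w : E d) :
    volume {a : E u | ‖a‖ < 1 ∧ ∃ x ∈ Y, ξ x 0 = w + O a ∧
        (#{z ∈ Z | (hammingDist (Ω z) (Ω x) : ℝ) ≤ 2 * h} : ℝ) < Θ} ≤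
      ENNReal.ofReal (Θ * 4 * 8 ^ d * Real.exp (n₁ + 1 - n₂) * ϱ⁻¹ ^ d) * volume (ball (0 : E u) 1) := by
  set S := {a : E u | ‖a‖ < 1 ∧ ∃ x ∈ Y, ξ x 0 = w + O a ∧
    (#{z ∈ Z | (hammingDist (Ω z) (Ω x) : ℝ) ≤ 2 * h} : ℝ) < Θ} with hS
  rcases S.eq_empty_or_nonempty with he | ⟨a₀, -, x₀, -, -, hΘ⟩
  · rw [he, measure_empty]
    exact bot_le
  have hΘ0 : 0 < Θ := (Nat.cast_nonneg _).trans_lt hΘ
  have : Nonempty M := ⟨x₀⟩
  have hx : ∀ a ∈ S, ∃ x ∈ Y, ξ x 0 = w + O a ∧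
    (#{z ∈ Z | (hammingDist (Ω z) (Ω x) : ℝ) ≤ 2 * h} : ℝ) < Θ := fun a ha => ha.2
  choose! x hxY hx0 hxΘ using hx
  set c := volume (ball (0 : E u) 1) with hc
  have hc0 : c ≠ 0 := (measure_ball_pos _ _ one_pos).ne'
  have hct : c ≠ ⊤ := measure_ball_lt_top.ne
  have hϱ := H.hϱ
  have hV : 0 < ϱ ^ u / (2 * Real.exp (n₁ + 1)) := by
    have := hϱ.1
    positivity
  obtain ⟨Z₁, hZ₁, hcard, hcov⟩ := exists_cover volume S
    (fun a => {a' : E u | Tube F (ξ (x a)) r T₁ (w + O a')}) (ball 0 2)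
    (ENNReal.ofReal (ϱ ^ u / (2 * Real.exp (n₁ + 1))) * c)
    (fun a ha => ((isClosed_tube (countb_near (H.near _ (hxY a ha))
      (fun t => by linarith [(H.hr t).1]) H.hT) fun t => (H.hr t).1).preimage
        (f := fun a' : E u => w + O a') (by fun_prop)).measurableSet)
    (fun a ha a' ha' => by
      have h1 : ‖w + O a' - ξ (x a) 0‖ ≤ r 0 := ha' 0 (Nat.zero_le _)
      rw [hx0 a ha, add_sub_add_left_eq_sub, ← map_sub, H.hO] at h1
      rw [mem_ball_zero_iff]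
      linarith [norm_sub_norm_le a' a, ha.1, (H.hr 0).2])
    measure_ball_lt_top.ne (ENNReal.mul_pos (ENNReal.ofReal_pos.2 hV).ne' hc0)
    (fun a ha => countb_lower H (hxY a ha) (hx0 a ha))
  rw [Measure.addHaar_ball_of_pos _ _ two_pos, finrank_euclideanSpace_fin, ← mul_assoc,
    ENNReal.mul_le_mul_iff_left hc0 hct, ← ENNReal.ofReal_natCast,
    ← ENNReal.ofReal_mul (Nat.cast_nonneg _), ENNReal.ofReal_le_ofReal_iff (by positivity),
    ← le_div_iff₀ hV] at hcard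
  set G : E u → M → Set (E u) := fun i z => {a | a ∈ S ∧
    (∀ t, t ≤ T₁ → ‖ξ (x a) t - ξ (x i) t‖ ≤ 2 * r t) ∧
    ∀ t, T₁ ≤ t → t ≤ N → ‖ξ (x a) t - ξ z t‖ ≤ 2 * r t} with hG
  have tri : ∀ (p q s : E d) (b : ℝ), ‖p - s‖ ≤ b → ‖q - s‖ ≤ b → ‖p - q‖ ≤ 2 * b :=
    fun p q s b h1 h2 => by
      have := norm_sub_le (p - s) (q - s)
      rw [sub_sub_sub_cancel_right] at this
      linarith
  have hsub : S ⊆ ⋃ i ∈ Z₁, ⋃ z ∈ Z.filter fun z => (hammingDist (Ω z) (Ω (x i)) : ℝ) ≤ 2 * h,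
      G i z := by
    intro a ha
    obtain ⟨i, hi, b, hb1, hb2⟩ := hcov a ha
    obtain ⟨z, hz, hz'⟩ := hZ' _ (hxY a ha)
    have h1 : ∀ t, t ≤ T₁ → ‖ξ (x a) t - ξ (x i) t‖ ≤ 2 * r t := fun t ht =>
      tri _ _ (orb F (w + O b) t) _ (by rw [norm_sub_rev]; exact hb1 t ht)
        (by rw [norm_sub_rev]; exact hb2 t ht)
    have h2 := H.past _ (hxY a ha) _ (hxY i (hZ₁ i hi)) h1
    have h3 := H.future _ (hxY a ha) _ (hZ z hz) hz'
    have h4 : (hammingDist (Ω z) (Ω (x i)) : ℝ) ≤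
        hammingDist (Ω (x a)) (Ω z) + hammingDist (Ω (x a)) (Ω (x i)) := by
      exact_mod_cast hammingDist_triangle_left _ _ _
    simp only [Set.mem_iUnion]
    exact ⟨i, hi, z, mem_filter.2 ⟨hz, by linarith⟩, ha, h1, hz'⟩
  have hGle : ∀ i z, volume (G i z) ≤ ENNReal.ofReal (2 * 4 ^ u / Real.exp n₂) * c := by
    intro i z
    rcases (G i z).eq_empty_or_nonempty with he | ⟨b, hb, hb1, hb2⟩
    · rw [he, measure_empty]
      exact bot_le
    refine le_trans (measure_mono ?_) (countb_upper H (hxY b hb) (hx0 b hb))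
    rintro a ⟨ha, ha1, ha2⟩ t ht
    rw [← hx0 a ha, (H.near _ (hxY a ha)).orb_eq ht]
    rcases le_total t T₁ with h1 | h1
    · linarith [tri _ _ _ _ (ha1 t h1) (hb1 t h1)]
    · linarith [tri _ _ _ _ (ha2 t h1 ht) (hb2 t h1 ht)]
  have hud : u ≤ d := by
    simpa using LinearMap.finrank_le_finrank_of_injective (f := (O : E u →ₗ[ℝ] E d))
      (countb_inj H.hO)
  have hϱ1 : 1 ≤ ϱ⁻¹ := (one_le_inv₀ hϱ.1).2 hϱ.2
  calc volume S ≤ ∑ i ∈ Z₁, ENNReal.ofReal (Θ * (2 * 4 ^ u / Real.exp n₂)) * c := by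
        refine (measure_mono hsub).trans ((measure_biUnion_finset_le _ _).trans
          (sum_le_sum fun i hi => (measure_biUnion_finset_le _ _).trans ?_))
        refine (sum_le_card_nsmul _ _ _ fun z _ => hGle i z).trans ?_
        rw [nsmul_eq_mul, ← mul_assoc, ← ENNReal.ofReal_natCast,
          ← ENNReal.ofReal_mul (Nat.cast_nonneg _)]
        gcongr
        exact (hxΘ i (hZ₁ i hi)).le
    _ = ENNReal.ofReal (#Z₁ * (Θ * (2 * 4 ^ u / Real.exp n₂))) * c := by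
        rw [sum_const, nsmul_eq_mul, ← mul_assoc, ← ENNReal.ofReal_natCast,
          ← ENNReal.ofReal_mul (Nat.cast_nonneg _)]
    _ ≤ ENNReal.ofReal (Θ * 4 * 8 ^ u * Real.exp (n₁ + 1 - n₂) * ϱ⁻¹ ^ u) * c := by
        refine mul_le_mul_left (ENNReal.ofReal_le_ofReal
          ((mul_le_mul_of_nonneg_right hcard (by positivity)).trans_eq ?_)) _
        rw [Real.exp_sub, inv_pow, show (8 : ℝ) = 2 * 4 by norm_num, mul_pow]
        have := hϱ.1
        field_simp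
        norm_num
    _ ≤ _ := by
        gcongr
        norm_num

end Crest.Agent.R133
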