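import Mathlib
import Crest.Prelude.Def_SmoothModel

/-!
Row 133 (S0182): an ergodic zero entropy system without a smooth model.  Definitions.

Idea.  In the system `T` the bit read at time `t` is read again after a time `per c` depending on the class `c` of `t`; the
return times `per 0 ≪ per 1 ≪ ⋯` live on a huge number of scales.  In a smooth model the derivative along an orbit
window has only `d` singular values.  For a well chosen base scale and `d + 1` groups of classes, each group forces a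
finite time exponent in its own interval `(ζ b, X b)`, and the intervals are disjoint.
-/

set_option autoImplicit false

namespace Crest.Agent.R133

open MeasureTheory Finset Metric

/-- Euclidean space -/
abbrev E (d : ℕ) : Type := EuclideanSpace ℝ (Fin d)

variable {d k : ℕ}

/-- the `k`-dimensional volume factor -/
noncomputable def vol (W : E k →L[ℝ] E d) : ℝ := (W : E k →ₗ[ℝ] E d).normDet

/-- isometric frames -/
def Iso (O : E k →L[ℝ] E d) : Prop := ∀ a, ‖O a‖ = ‖a‖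

/-- the largest expansion of `k`-dimensional volumes -/
noncomputable def alpha (k : ℕ) (g : E d →L[ℝ] E d) : ℝ :=
  sSup {r | ∃ O : E k →L[ℝ] E d, Iso O ∧ r = vol (g ∘L O)}

/-- two-sided bound -/
def BiLip (L : ℝ) (g : E d →L[ℝ] E d) : Prop := ∀ p, ‖g p‖ ≤ L * ‖p‖ ∧ ‖p‖ ≤ L * ‖g p‖

/-- `ea (j + 1) lam g = log (alpha j g)` for `j ≤ d`, extended to `j = -1` and `j = d + 1` with the extreme slopes -/
noncomputable def ea (j : ℕ) (lam : ℝ) (g : E d →L[ℝ] E d) : ℝ :=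
  if j = 0 then -lam else if j ≤ d + 1 then Real.log (alpha (j - 1) g) else Real.log (alpha d g) - lam

/-- the sum of all the subadditive functionals that are used -/
noncomputable def tot (lam : ℝ) (g : E d →L[ℝ] E d) : ℝ :=
  ∑ j ∈ range (d + 3), (ea j lam g + max (ea j lam g) (ea (j + 1) lam g))

/-- `u` exponents are at least `X`, the others are at most `ζ` -/
def Gap (u : ℕ) (X ζ lam : ℝ) (g : E d →L[ℝ] E d) : Prop :=
  X * lam ≤ ea (u + 1) lam g - ea u lam g ∧ ea (u + 2) lam g - ea (u + 1) lam g ≤ ζ * lam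

/-- `prod A s m = A (s + m - 1) ∘ ⋯ ∘ A s` -/
noncomputable def prod (A : ℕ → E d →L[ℝ] E d) (s : ℕ) : ℕ → E d →L[ℝ] E d
  | 0 => ContinuousLinearMap.id ℝ (E d)
  | m + 1 => A (s + m) ∘L prod A s m

/-- the defect of additivity of `tot` on the window of length `m` starting at `s` -/
noncomputable def dfc (Λ : ℝ) (A : ℕ → E d →L[ℝ] E d) (s m : ℕ) : ℝ :=
  ∑ r ∈ range m, tot Λ (A (s + r)) - tot (Λ * m) (prod A s m)

/-- The images of the plane `O` are weakly expanded at the rate `ρ`, and the quotient is weakly dominated, on `[0, T]`. -/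
structure Dom (A : ℕ → E d →L[ℝ] E d) (O : E k →L[ℝ] E d) (T : ℕ) (κ ρ : ℕ → ℝ) : Prop where
  pos : ∀ s, 0 < ρ s
  one : ∀ s, 1 ≤ κ s
  back : ∀ s t, s ≤ t → t ≤ T → ∀ a, ‖prod A 0 s (O a)‖ * ρ t ≤ κ s * ρ s * ‖prod A 0 t (O a)‖
  quot : ∀ s t, s ≤ t → t ≤ T → ∀ x, ∃ a,
    ‖prod A 0 t x - prod A 0 t (O a)‖ * ρ s ≤ κ s * ρ t * ‖prod A 0 s x‖

/-- Regularity of an orbit window `[0, N]` split at `T₁`, for the profile `r`. -/
structure Reg (A : ℕ → E d →L[ℝ] E d) (O : E k →L[ℝ] E d) (N T₁ : ℕ) (r : ℕ → ℝ) (ϱ ι : ℝ) : Prop where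
  past : ∃ κ ρ : ℕ → ℝ, Dom A O N κ ρ ∧ (∀ s, s ≤ N → κ s ^ 2 * r s ≤ ι) ∧
    ∀ s, s ≤ T₁ → 4 * ϱ * κ s * ρ s ≤ r s * ρ T₁
  future : ∃ κ : ℝ, Dom (fun t => A (T₁ + t)) (prod A 0 T₁ ∘L O) (N - T₁) (fun _ => κ) (fun _ => 1) ∧
    ∀ s, T₁ ≤ s → s ≤ N → κ ^ 2 * r s ≤ ι ∧ κ ^ 2 * ϱ ≤ ι * r s

/-- the profile -/
noncomputable def prof (Λ ζ θ : ℝ) (N Q K : ℕ) (s : ℕ) : ℝ :=
  Real.exp (-(20 * ζ * Λ * Q) - if N - s ≤ K * Q then 0 else 16 * θ * K * Λ * ((N - s : ℕ) : ℝ))

/-- orbits of a sequence of maps -/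
def orb (F : ℕ → E d → E d) (x : E d) : ℕ → E d
  | 0 => x
  | t + 1 => F t (orb F x t)

/-- the orbit of `x` stays in the tube of radii `r` around `y` up to time `T` -/
def Tube (F : ℕ → E d → E d) (y : ℕ → E d) (r : ℕ → ℝ) (T : ℕ) (x : E d) : Prop :=
  ∀ t, t ≤ T → ‖orb F x t - y t‖ ≤ r t

/-- `y` is an orbit of `F` up to time `T`, and `F t` is `e t`-close to the affine map with linear part `A t` on the ball of
radius `r t` -/
structure Near (F : ℕ → E d → E d) (y : ℕ → E d) (A : ℕ → E d →L[ℝ] E d) (r e : ℕ → ℝ) (T : ℕ) : Prop where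
  step : ∀ t, t < T → F t (y t) = y (t + 1)
  der : ∀ t, t < T → ∃ F' : E d → E d →L[ℝ] E d, ∀ x ∈ ball (y t) (r t),
    HasStrictFDerivAt (F t) (F' x) x ∧ ‖F' x - A t‖ ≤ e t

/-- What is used of a smooth volume preserving map: finitely many charts with uniform `C²` bounds away from an
unsafe set (the neighbourhood of the boundary).  The sets `K true`, `K false` are uniformly separated. -/
structure Model (M : Type) [MeasurableSpace M] (ν : Measure M) (S : M → M) (d C : ℕ) (K : Bool → Set M) where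
  k : ℕ
  c : M → Fin k
  φ : Fin k → M → E d
  ψ : Fin k → E d → M
  A : M → E d →L[ℝ] E d
  U : ℝ → Set M
  one_le : 1 ≤ C
  k_le : k ≤ C
  meas_c : Measurable c
  meas_φ : ∀ i, Measurable (φ i)
  meas_ψ : ∀ i, Measurable (ψ i)
  meas_A : Measurable A
  meas_U : ∀ r, MeasurableSet (U r)
  inv : ∀ x, ψ (c x) (φ (c x) x) = x
  bdd : ∀ x, ‖φ (c x) x‖ ≤ C
  bilip : ∀ x, BiLip C (A x)
  unsafe_le : ∀ r : ℝ, 0 < r → r * C ≤ 1 → ν (U r) ≤ ENNReal.ofReal (C * r)
  dens : ∀ i B, MeasurableSet B → ν {x | c x = i ∧ φ i x ∈ B} ≤ C * volume B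
  loc : ∀ r : ℝ, 0 < r → r * C ≤ 1 → ∀ x, x ∉ U r → ∃ F' : E d → E d →L[ℝ] E d,
    ∀ v ∈ ball (φ (c x) x) r,
      ψ (c (S x)) (φ (c (S x)) (S (ψ (c x) v))) = S (ψ (c x) v) ∧
      HasStrictFDerivAt (fun w => φ (c (S x)) (S (ψ (c x) w))) (F' v) v ∧ ‖F' v‖ ≤ C ∧
      ‖F' v - A x‖ ≤ C * ‖v - φ (c x) x‖ ∧ ∀ b, x ∈ K b → ψ (c x) v ∉ K (!b)

/-- the derivative cocycle -/
noncomputable def coc {M : Type} (A : M → E d →L[ℝ] E d) (S : M → M) (x : M) (m : ℕ) : E d →L[ℝ] E d :=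
  prod (fun t => A (S^[t] x)) 0 m

/-- the sequence of the derivatives of the blocks of length `m` -/
noncomputable def blk {M : Type} (A : M → E d →L[ℝ] E d) (S : M → M) (m : ℕ) (x : M) (t : ℕ) : E d →L[ℝ] E d :=
  coc A S (S^[m * t] x) m

/-- the return time of the class `c` -/
def per (n J R c : ℕ) : ℕ := n * J * R ^ c

/-- the label of the visit `v` (its class is `v % n`) -/
def lab (n J R v : ℕ) : ℕ := v % per n J R (v % n)

/-- What is used of one level of the system `T` (time unit `τ`). -/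
structure Level {M : Type} [MeasurableSpace M] (ν : Measure M) (S : M → M) (P : M → Bool) (τ n J R V : ℕ) where
  v : M → ℕ
  good : Set M
  meas_v : Measurable v
  meas_good : MeasurableSet good
  null : ν goodᶜ = 0
  step : ∀ x ∈ good, ∀ t, v x + t < V → v (S^[τ * t] x) = v x + t
  same : ∀ x ∈ good, ∀ t t', v x + t < V → v x + t' < V → lab n J R (v x + t) = lab n J R (v x + t') →
    P (S^[τ * t] x) = P (S^[τ * t'] x)
  lt : ∀ x, v x < V
  unif : ∀ a, ν {x | v x = a} ≤ (V : ENNReal)⁻¹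
  indep : ∀ (a : ℕ) (I : Finset ℕ) (β : ℕ → Bool), (∀ t ∈ I, a + t < V) →
    Set.InjOn (fun t => lab n J R (a + t)) I →
    ν {x | v x = a ∧ ∀ t ∈ I, P (S^[τ * t] x) = β t} ≤ 2⁻¹ ^ I.card

/-- the times of the window `[lo, hi)` whose class is in `[i + 1, i + y]` -/
def times (n i y a lo hi : ℕ) : Finset ℕ := (Ico lo hi).filter fun t => i + 1 ≤ (a + t) % n ∧ (a + t) % n ≤ i + y

end Crest.Agent.R133
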