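import Crest.Agent.R133.Ea

/-! Row 133: the extended logarithmic volume growth functionals and their defects. -/

set_option autoImplicit false

namespace Crest.Agent.R133

open MeasureTheory Finset Metric Function

variable {d : ℕ}

variable {A : ℕ → E d →L[ℝ] E d} {Λ : ℝ}

/-- the functional `ea j` of the window `[s, t]` -/
noncomputable def wa (Λ : ℝ) (A : ℕ → E d →L[ℝ] E d) (j s t : ℕ) : ℝ :=
  ea j (Λ * ((t - s : ℕ) : ℝ)) (prod A s (t - s))

/-- abstract subadditive window functional -/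
structure DfcSub (f : ℕ → ℕ → ℝ) : Prop where
  sub : ∀ {s t w : ℕ}, s ≤ t → t ≤ w → f s w ≤ f s t + f t w
  zero : ∀ s, f s s = 0

/-- abstract defect -/
noncomputable def dfcD (f : ℕ → ℕ → ℝ) (s m : ℕ) : ℝ := ∑ r ∈ range m, f (s + r) (s + r + 1) - f s (s + m)

theorem DfcSub.le_sum {f : ℕ → ℕ → ℝ} (hf : DfcSub f) (s m : ℕ) :
    f s (s + m) ≤ ∑ r ∈ range m, f (s + r) (s + r + 1) := by
  induction m with
  | zero => simp [hf.zero]
  | succ m ih =>
    rw [sum_range_succ]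
    have := hf.sub (s := s) (t := s + m) (w := s + (m + 1)) (by omega) (by omega)
    rw [← add_assoc] at this ⊢
    linarith

theorem DfcSub.nonneg {f : ℕ → ℕ → ℝ} (hf : DfcSub f) (s m : ℕ) : 0 ≤ dfcD f s m :=
  sub_nonneg.2 (hf.le_sum s m)

theorem DfcSub.superadd {f : ℕ → ℕ → ℝ} (hf : DfcSub f) (s m m' : ℕ) :
    dfcD f s m + dfcD f (s + m) m' ≤ dfcD f s (m + m') := by
  unfold dfcD
  rw [sum_range_add]
  have := hf.sub (s := s) (t := s + m) (w := s + (m + m')) (by omega) (by omega)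
  simp only [← add_assoc] at this ⊢
  linarith

theorem DfcSub.max {f g : ℕ → ℕ → ℝ} (hf : DfcSub f) (hg : DfcSub g) : DfcSub fun s t => max (f s t) (g s t) where
  sub := by
    intro s t w h1 h2
    refine max_le ?_ ?_
    · exact (hf.sub h1 h2).trans (add_le_add (le_max_left _ _) (le_max_left _ _))
    · exact (hg.sub h1 h2).trans (add_le_add (le_max_right _ _) (le_max_right _ _))
  zero := by
    intro s
    simp [hf.zero, hg.zero]

theorem DfcSub.sum_le_steps {f : ℕ → ℕ → ℝ} (hf : DfcSub f) {p : ℕ → ℕ} (hp : Monotone p) (n : ℕ) :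
    ∑ i ∈ range n, f (p i) (p (i + 1)) ≤ ∑ r ∈ range (p n - p 0), f (p 0 + r) (p 0 + r + 1) := by
  induction n with
  | zero => simp
  | succ n ih =>
    have h0 : p 0 ≤ p n := hp (Nat.zero_le n)
    have h1 : p n ≤ p (n + 1) := hp (Nat.le_succ n)
    have e : p (n + 1) - p 0 = (p n - p 0) + (p (n + 1) - p n) := by omega
    rw [sum_range_succ, e, sum_range_add]
    have h2 := hf.le_sum (p n) (p (n + 1) - p n)
    rw [Nat.add_sub_cancel' h1] at h2
    have h3 : ∑ r ∈ range (p (n + 1) - p n), f (p n + r) (p n + r + 1) =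
        ∑ r ∈ range (p (n + 1) - p n), f (p 0 + (p n - p 0 + r)) (p 0 + (p n - p 0 + r) + 1) := by
      refine sum_congr rfl fun r _ => ?_
      rw [← add_assoc, Nat.add_sub_cancel' h0]
    linarith

theorem DfcSub.sum_le {f : ℕ → ℕ → ℝ} (hf : DfcSub f) {p : ℕ → ℕ} (hp : Monotone p) (n : ℕ) :
    ∑ i ∈ range n, f (p i) (p (i + 1)) ≤ f (p 0) (p n) + dfcD f (p 0) (p n - p 0) := by
  have := hf.sum_le_steps hp n
  unfold dfcD
  rw [Nat.add_sub_cancel' (hp (Nat.zero_le n))]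
  linarith

theorem DfcSub.three_le {f : ℕ → ℕ → ℝ} (hf : DfcSub f) {s a b t : ℕ} (h1 : s ≤ a) (h2 : a ≤ b) (h3 : b ≤ t) :
    f s a + f a b + f b t ≤ f s t + dfcD f s (t - s) := by
  let p : ℕ → ℕ := fun i => if i = 0 then s else if i = 1 then a else if i = 2 then b else t
  have hp : Monotone p := by
    refine monotone_nat_of_le_succ fun i => ?_
    rcases i with _ | _ | _ | i <;> simp [p, h1, h2, h3]
  have := hf.sum_le hp 3
  simpa [p, sum_range_succ] using this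

theorem dfc_prod_injective (hA : ∀ t, Injective (A t)) (s m : ℕ) : Injective (prod A s m) := by
  induction m with
  | zero => exact fun _ _ h => h
  | succ m ih => exact (hA (s + m)).comp ih

theorem wa_sub (hA : ∀ t, Injective (A t)) (j : ℕ) {s t w : ℕ} (h1 : s ≤ t) (h2 : t ≤ w) :
    wa Λ A j s w ≤ wa Λ A j s t + wa Λ A j t w := by
  obtain ⟨m, rfl⟩ := Nat.exists_eq_add_of_le h1
  obtain ⟨m', rfl⟩ := Nat.exists_eq_add_of_le h2
  unfold wa
  have e1 : s + m + m' - s = m + m' := by omega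
  have e2 : s + m - s = m := by omega
  have e3 : s + m + m' - (s + m) = m' := by omega
  rw [e1, e2, e3, prod_add, Nat.cast_add, mul_add, add_comm (ea j _ (prod A s m))]
  exact ea_comp j (dfc_prod_injective hA _ _) (dfc_prod_injective hA _ _)

theorem dfc_wa_sub (hA : ∀ t, Injective (A t)) (j : ℕ) : DfcSub (wa Λ A j) where
  sub := fun h1 h2 => wa_sub hA j h1 h2
  zero := by
    intro s
    unfold wa
    simp only [Nat.sub_self, Nat.cast_zero, mul_zero]
    exact ea_id j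

theorem dfc_wa_step (j s : ℕ) : wa Λ A j s (s + 1) = ea j Λ (A s) := by
  unfold wa
  have e : s + 1 - s = 1 := by omega
  rw [e]
  simp only [Nat.cast_one, mul_one]
  rfl

theorem dfc_wa_add (j s m : ℕ) : wa Λ A j s (s + m) = ea j (Λ * m) (prod A s m) := by
  unfold wa
  have e : s + m - s = m := by omega
  rw [e]

theorem dfc_eq_sum (s m : ℕ) : dfc Λ A s m = ∑ j ∈ range (d + 3),
    (dfcD (wa Λ A j) s m + dfcD (fun a b => max (wa Λ A j a b) (wa Λ A (j + 1) a b)) s m) := by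
  unfold dfc dfcD tot
  simp only [dfc_wa_step, dfc_wa_add]
  rw [sum_comm, ← sum_sub_distrib]
  refine sum_congr rfl fun j _ => ?_
  rw [sum_add_distrib]
  ring

theorem dfc_le_of (hA : ∀ t, Injective (A t)) {j : ℕ} (hj : j < d + 3) (s m : ℕ) :
    dfcD (wa Λ A j) s m + dfcD (fun a b => max (wa Λ A j a b) (wa Λ A (j + 1) a b)) s m ≤ dfc Λ A s m := by
  rw [dfc_eq_sum]
  exact single_le_sum (f := fun j => dfcD (wa Λ A j) s m +
      dfcD (fun a b => max (wa Λ A j a b) (wa Λ A (j + 1) a b)) s m)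
    (fun i _ => add_nonneg ((dfc_wa_sub hA i).nonneg s m)
      (((dfc_wa_sub hA i).max (dfc_wa_sub hA (i + 1))).nonneg s m)) (mem_range.2 hj)

theorem dfc_le_one (hA : ∀ t, Injective (A t)) {j : ℕ} (hj : j < d + 3) (s m : ℕ) :
    dfcD (wa Λ A j) s m ≤ dfc Λ A s m := by
  have h1 := dfc_le_of (Λ := Λ) hA hj s m
  have h2 := ((dfc_wa_sub (Λ := Λ) hA j).max (dfc_wa_sub (Λ := Λ) hA (j + 1))).nonneg s m
  linarith

theorem dfc_le_two (hA : ∀ t, Injective (A t)) {j : ℕ} (hj : j < d + 3) (s m : ℕ) :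
    dfcD (fun a b => max (wa Λ A j a b) (wa Λ A (j + 1) a b)) s m ≤ dfc Λ A s m := by
  have h1 := dfc_le_of (Λ := Λ) hA hj s m
  have h2 := (dfc_wa_sub (Λ := Λ) hA j).nonneg s m
  linarith

theorem dfc_zero (s : ℕ) : dfc Λ A s 0 = 0 := by
  unfold dfc tot
  simp only [range_zero, sum_empty, Nat.cast_zero, mul_zero, prod, ea_id, max_self, add_zero, sum_const_zero, sub_zero]

theorem dfc_superadd (hA : ∀ t, Injective (A t)) (s m m' : ℕ) :
    dfc Λ A s m + dfc Λ A (s + m) m' ≤ dfc Λ A s (m + m') := by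
  simp only [dfc_eq_sum]
  rw [← sum_add_distrib]
  refine sum_le_sum fun j _ => ?_
  have h1 := (dfc_wa_sub (Λ := Λ) hA j).superadd s m m'
  have h2 := ((dfc_wa_sub (Λ := Λ) hA j).max (dfc_wa_sub (Λ := Λ) hA (j + 1))).superadd s m m'
  linarith

theorem dfc_nonneg (hA : ∀ t, Injective (A t)) (s m : ℕ) : 0 ≤ dfc Λ A s m := by
  have h1 := dfc_le_one (Λ := Λ) hA (j := 0) (by omega) s m
  exact ((dfc_wa_sub (Λ := Λ) hA 0).nonneg s m).trans h1

theorem dfc_mono (hA : ∀ t, Injective (A t)) {N k k' : ℕ} (h1 : k ≤ k') (h2 : k' ≤ N) :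
    dfc Λ A (N - k) k ≤ dfc Λ A (N - k') k' := by
  have h3 := dfc_superadd (Λ := Λ) hA (N - k') (k' - k) k
  have h4 := dfc_nonneg (Λ := Λ) hA (N - k') (k' - k)
  have e1 : N - k' + (k' - k) = N - k := by omega
  have e2 : k' - k + k = k' := by omega
  rw [e1, e2] at h3
  linarith

/-- Every piece is bounded by the sum over its unit steps, and the defect of each functional is at most `dfc`. -/
theorem sum_wa_le (hA : ∀ t, Injective (A t)) {j : ℕ} (hj : j < d + 3) {p : ℕ → ℕ} (hp : Monotone p) (n : ℕ) :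
    ∑ i ∈ range n, wa Λ A j (p i) (p (i + 1)) ≤ wa Λ A j (p 0) (p n) + dfc Λ A (p 0) (p n - p 0) := by
  have h1 := (dfc_wa_sub (Λ := Λ) hA j).sum_le hp n
  have h2 := dfc_le_one (Λ := Λ) hA hj (p 0) (p n - p 0)
  linarith

theorem sum_max_wa_le (hA : ∀ t, Injective (A t)) {j : ℕ} (hj : j < d + 3) {p : ℕ → ℕ} (hp : Monotone p) (n : ℕ) :
    ∑ i ∈ range n, max (wa Λ A j (p i) (p (i + 1))) (wa Λ A (j + 1) (p i) (p (i + 1))) ≤
      max (wa Λ A j (p 0) (p n)) (wa Λ A (j + 1) (p 0) (p n)) + dfc Λ A (p 0) (p n - p 0) := by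
  have h1 := ((dfc_wa_sub (Λ := Λ) hA j).max (dfc_wa_sub (Λ := Λ) hA (j + 1))).sum_le hp n
  have h2 := dfc_le_two (Λ := Λ) hA hj (p 0) (p n - p 0)
  linarith

theorem three_wa_le (hA : ∀ t, Injective (A t)) {j : ℕ} (hj : j < d + 3) {s a b t : ℕ} (h1 : s ≤ a) (h2 : a ≤ b)
    (h3 : b ≤ t) : wa Λ A j s a + wa Λ A j a b + wa Λ A j b t ≤ wa Λ A j s t + dfc Λ A s (t - s) := by
  have h4 := (dfc_wa_sub (Λ := Λ) hA j).three_le h1 h2 h3
  have h5 := dfc_le_one (Λ := Λ) hA hj s (t - s)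
  linarith

theorem three_max_wa_le (hA : ∀ t, Injective (A t)) {j : ℕ} (hj : j < d + 3) {s a b t : ℕ} (h1 : s ≤ a) (h2 : a ≤ b)
    (h3 : b ≤ t) : max (wa Λ A j s a) (wa Λ A (j + 1) s a) + max (wa Λ A j a b) (wa Λ A (j + 1) a b) +
      max (wa Λ A j b t) (wa Λ A (j + 1) b t) ≤ max (wa Λ A j s t) (wa Λ A (j + 1) s t) + dfc Λ A s (t - s) := by
  have h4 := ((dfc_wa_sub (Λ := Λ) hA j).max (dfc_wa_sub (Λ := Λ) hA (j + 1))).three_le h1 h2 h3
  have h5 := dfc_le_two (Λ := Λ) hA hj s (t - s)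
  linarith

end Crest.Agent.R133
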