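import Crest.Agent.R133.DiscA

/-! Row 133: the volume of the part of an affine plane whose orbit stays in a tube. -/

set_option autoImplicit false

namespace Crest.Agent.R133

open MeasureTheory Finset Metric Function

variable {d k : ℕ} {A : ℕ → E d →L[ℝ] E d} {O : E k →L[ℝ] E d} {T : ℕ} {κ ρ : ℕ → ℝ} {F : ℕ → E d → E d}
  {y : ℕ → E d} {r e : ℕ → ℝ} {L ι : ℝ}

theorem DiscH.disc_iota (H : DiscH F y A O T κ ρ r e L ι) : 6 * ((T : ℝ) + 1) ^ 2 * L ^ 3 * ι ≤ 1 := by
  have hL := H.hL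
  rcases le_total ι 0 with h | h
  · exact (mul_nonpos_of_nonneg_of_nonpos (by positivity) h).trans zero_le_one
  · refine le_trans (mul_le_mul_of_nonneg_right ?_ h) H.hι
    have h1 : L ^ 3 ≤ L ^ 4 := pow_le_pow_right₀ hL (by norm_num)
    have h2 : (0 : ℝ) ≤ d := Nat.cast_nonneg d
    have h3 : 6 * ((T : ℝ) + 1) ^ 2 ≤ 100 * ((d : ℝ) + 1) * ((T : ℝ) + 1) ^ 2 :=
      mul_le_mul_of_nonneg_right (by linarith) (by positivity)
    exact mul_le_mul h3 h1 (by positivity) (by positivity)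

theorem DiscH.disc_inj (H : DiscH F y A O T κ ρ r e L ι) : Injective (prod A 0 T ∘L O) :=
  (bilip_prod (zero_le_one.trans H.hL) (s := 0) (m := T) fun t _ ht => H.hA t (by omega)).injective.comp H.hO

theorem DiscH.disc_cont (H : DiscH F y A O T κ ρ r e L ι) {x : E d} (hx : Tube F y r T x) {t : ℕ} (ht : t ≤ T) :
    ContinuousAt (fun z => orb F z t) x := by
  induction t with
  | zero => exact continuousAt_id
  | succ t ih =>
    obtain ⟨F', hF'⟩ := H.near.der t ht
    have h1 : orb F x t ∈ ball (y t) (2 * r t) := by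
      rw [mem_ball, dist_eq_norm]
      have := hx t (by omega)
      have := H.hr t
      linarith
    exact ContinuousAt.comp (f := fun z => orb F z t) (hF' _ h1).1.continuousAt (ih (by omega))

theorem DiscH.disc_base (H : DiscH F y A O T κ ρ r e L ι) : Tube F y r T (y 0) := fun t ht => by
  rw [H.near.orb_eq ht, sub_self, norm_zero]
  exact (H.hr t).le

theorem DiscH.disc_lp (H : DiscH F y A O T κ ρ r e L ι) {P : E d →L[ℝ] E k} (hP : IsProj (prod A 0 T ∘L O) P)
    {x x' : E d} (hx : Tube F y r T x) (hx' : Tube F y r T x') {a : E k} {q : E d} (h : x - x' = O a + q)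
    {s : ℕ} (hs : s ≤ T) : ‖orb F x s - orb F x' s‖ ≤ κ s * ρ s *
      (2 * ‖prod A 0 T (O (P (orb F x T - orb F x' T)))‖ / ρ T + 2 * (T * L ^ 2 + 1) * (κ 0 * ‖q‖ / ρ 0)) :=
  (lp H.dom H.hL H.hA H.hO H.he0 H.he H.disc_iota (v := fun t => orb F x t - orb F x' t)
    (fun _ ht => H.near.diff H.hr hx hx' ht) h hP).1 s hs

theorem DiscH.disc_meas (H : DiscH F y A O T κ ρ r e L ι) (z : E d) :
    MeasurableSet {a : E k | Tube F y r T (z + O a)} :=
  ((isClosed_tube H.near H.hr).preimage (f := fun a : E k => z + O a) (by fun_prop)).measurableSet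

theorem DiscH.disc_der (H : DiscH F y A O T κ ρ r e L ι) {P : E d →L[ℝ] E k} (hP : IsProj (prod A 0 T ∘L O) P)
    (z : E d) : ∃ D : E k → E k →L[ℝ] E k, ∀ a, Tube F y r T (z + O a) →
      HasFDerivAt (fun b => P (orb F (z + O b) T - y T)) (D a) a ∧ 1 / 2 ≤ |(D a).det| ∧ |(D a).det| ≤ 2 := by
  have h : ∀ a, ∃ D : E k →L[ℝ] E k, Tube F y r T (z + O a) →
      HasFDerivAt (fun b => P (orb F (z + O b) T - y T)) D a ∧ 1 / 2 ≤ |D.det| ∧ |D.det| ≤ 2 := fun a => by
    by_cases ha : Tube F y r T (z + O a)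
    · obtain ⟨D, h1, h2⟩ := H.der hP ha
      refine ⟨P ∘L D ∘L O, fun _ => ⟨?_, h2⟩⟩
      exact P.hasFDerivAt.comp a
        ((h1.hasFDerivAt.comp a (f := fun b => z + O b) (O.hasFDerivAt.const_add z)).sub_const (y T))
    · exact ⟨0, fun h => absurd h ha⟩
  choose D hD using h
  exact ⟨D, hD⟩

/-- the open-closed argument along the segment `τ ↦ (τ • b, τ • q)` -/
theorem DiscH.disc_surj (H : DiscH F y A O T κ ρ r e L ι) {P : E d →L[ℝ] E k} (hP : IsProj (prod A 0 T ∘L O) P)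
    {ϱ ϱ' : ℝ}
    (hc : ∀ s, s ≤ T → κ s * ρ s * (2 * ϱ / ρ T + 2 * (T * L ^ 2 + 1) * (κ 0 * ϱ' / ρ 0)) < r s) {q : E d}
    (hq : ‖q‖ ≤ ϱ') {b : E k} (hb : ‖prod A 0 T (O b)‖ ≤ ϱ) :
    ∃ a, Tube F y r T (y 0 + q + O a) ∧ P (orb F (y 0 + q + O a) T - y T) = b := by
  set X : E k × ℝ → E d := fun z => y 0 + z.2 • q + O z.1 with hX
  have hXc : Continuous X := by fun_prop
  set g : E k × ℝ → E k × ℝ := fun z => (P (orb F (X z) T - y T) - z.2 • b, z.2) with hg
  set s : Set ℝ := {τ | ∃ a, Tube F y r T (X (a, τ)) ∧ g (a, τ) = (0, τ)} with hs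
  have hcl : IsClosed (s ∩ Set.Icc 0 1) := by
    obtain ⟨P₀, hP₀⟩ := exists_proj H.hO
    set K : Set (E k × ℝ) := {z | Tube F y r T (X z)} ∩ (fun z => (g z).1) ⁻¹' {0} with hK
    have hKc : IsClosed K := by
      refine ContinuousOn.preimage_isClosed_of_isClosed (fun z hz => ContinuousAt.continuousWithinAt ?_)
        ((isClosed_tube H.near H.hr).preimage hXc) isClosed_singleton
      have h1 : ContinuousAt (fun z => orb F (X z) T) z :=
        ContinuousAt.comp (f := X) (H.disc_cont hz le_rfl) hXc.continuousAt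
      exact (P.continuous.continuousAt.comp (h1.sub continuousAt_const)).sub (by fun_prop)
    have hcomp : IsCompact (K ∩ (closedBall 0 (‖P₀‖ * (r 0 + ‖q‖)) ×ˢ Set.Icc 0 1)) :=
      ((isCompact_closedBall _ _).prod isCompact_Icc).inter_left hKc
    convert (hcomp.image continuous_snd).isClosed using 1
    ext τ
    constructor
    · rintro ⟨⟨a, h1, h2⟩, hτ⟩
      refine ⟨(a, τ), ⟨⟨h1, congrArg Prod.fst h2⟩, ?_, hτ⟩, rfl⟩
      have h3 : ‖y 0 + τ • q + O a - y 0‖ ≤ r 0 := h1 0 (Nat.zero_le _)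
      have h4 : ‖O a‖ ≤ r 0 + ‖q‖ := by
        have h5 : O a = (y 0 + τ • q + O a - y 0) - τ • q := by abel
        have h6 : ‖τ • q‖ ≤ ‖q‖ := by
          rw [norm_smul, Real.norm_of_nonneg hτ.1]
          exact mul_le_of_le_one_left (norm_nonneg _) hτ.2
        rw [h5]
        exact (norm_sub_le _ _).trans (add_le_add h3 h6)
      rw [mem_closedBall_zero_iff]
      calc ‖a‖ = ‖P₀ (O a)‖ := by rw [hP₀.left]
        _ ≤ _ := (P₀.le_opNorm _).trans (mul_le_mul_of_nonneg_left h4 (norm_nonneg _))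
    · rintro ⟨⟨a, τ'⟩, ⟨⟨h1, h2⟩, -, hτ⟩, rfl⟩
      exact ⟨⟨a, h1, Prod.ext h2 rfl⟩, hτ⟩
  have h0 : (0 : ℝ) ∈ s := by
    refine ⟨0, ?_, ?_⟩
    · simpa [hX] using H.disc_base
    · simp [hg, hX, H.near.orb_eq le_rfl]
  have hop : ∀ τ ∈ s ∩ Set.Ico 0 1, s ∈ nhdsWithin τ (Set.Ioi τ) := by
    rintro τ ⟨⟨a, h1, h2⟩, hτ⟩
    refine mem_nhdsWithin_of_mem_nhds ?_
    have hτ1 : ∀ w : E d, ‖τ • w‖ ≤ ‖w‖ := fun w => by
      rw [norm_smul, Real.norm_of_nonneg hτ.1]
      exact mul_le_of_le_one_left (norm_nonneg _) hτ.2.le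
    have h3 : P (orb F (X (a, τ)) T - y T) = τ • b := sub_eq_zero.1 (congrArg Prod.fst h2)
    have hstrict : ∀ t, t ≤ T → ‖orb F (X (a, τ)) t - y t‖ < r t := fun t ht => by
      have h4 := H.disc_lp hP h1 H.disc_base (a := a) (q := τ • q) (by simp only [hX]; abel) ht
      rw [H.near.orb_eq ht, H.near.orb_eq le_rfl, h3, map_smul, map_smul] at h4
      refine h4.trans_lt (lt_of_le_of_lt ?_ (hc t ht))
      have := H.dom.pos t
      have := H.dom.pos T
      have := H.dom.pos 0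
      have := H.dom.one t
      have := H.dom.one 0
      have := (hτ1 _).trans hb
      have := (hτ1 _).trans hq
      gcongr
    have hnb : {z | Tube F y r T (X z)} ∈ nhds (a, τ) := by
      have h5 : ∀ t ∈ range (T + 1), ∀ᶠ z in nhds (a, τ), ‖orb F (X z) t - y t‖ < r t := fun t ht => by
        have ht' : t ≤ T := Nat.lt_succ_iff.1 (mem_range.1 ht)
        have h6 : ContinuousAt (fun z => orb F (X z) t) (a, τ) :=
          ContinuousAt.comp (f := X) (H.disc_cont h1 ht') hXc.continuousAt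
        exact (h6.sub continuousAt_const).norm.eventually_lt continuousAt_const (hstrict t ht')
      filter_upwards [(Filter.eventually_all_finset _).2 h5] with z hz t ht
      exact (hz t (mem_range.2 (Nat.lt_succ_iff.2 ht))).le
    obtain ⟨D, hD, hdet, -⟩ := H.der hP h1
    have hXd : HasStrictFDerivAt X ((ContinuousLinearMap.snd ℝ (E k) ℝ).smulRight q +
        O ∘L ContinuousLinearMap.fst ℝ (E k) ℝ) (a, τ) :=
      ((hasStrictFDerivAt_snd.smul_const q).const_add (y 0)).add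
        (O.hasStrictFDerivAt.comp (a, τ) hasStrictFDerivAt_fst)
    have hgd := ((P.hasStrictFDerivAt.comp (a, τ) ((hD.comp (a, τ) hXd).sub_const (y T))).sub
      (hasStrictFDerivAt_snd.smul_const b)).prodMk (hasStrictFDerivAt_snd (p := (a, τ)))
    have hsurj : Surjective (P ∘L D ∘L O) := by
      have h7 : (P ∘L D ∘L O).det ≠ 0 := fun h => by rw [h, abs_zero] at hdet; norm_num at hdet
      exact (LinearMap.equivOfDetNeZero (P ∘L D ∘L O : E k →L[ℝ] E k).toLinearMap h7).surjective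
    have hmap := hgd.map_nhds_eq_of_surj (LinearMap.range_eq_top.2 fun w => by
      obtain ⟨c, hc⟩ := hsurj (w.1 + w.2 • b - w.2 • P (D q))
      refine ⟨(c, w.2), Prod.ext ?_ rfl⟩
      have hc' : P (D (O c)) = w.1 + w.2 • b - w.2 • P (D q) := hc
      simp [hc'])
    have h8 : g '' {z | Tube F y r T (X z)} ∈ nhds (0, τ) := by
      rw [← h2]
      exact hmap ▸ Filter.image_mem_map hnb
    have h9 : ContinuousAt (fun σ : ℝ => ((0 : E k), σ)) τ := by fun_prop
    filter_upwards [h9 h8] with σ ⟨z, hz, hz'⟩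
    have h10 : z.2 = σ := congrArg Prod.snd hz'
    subst h10
    exact ⟨z.1, hz, hz'⟩
  obtain ⟨a, h1, h2⟩ := hcl.Icc_subset_of_forall_mem_nhdsWithin h0 hop (Set.right_mem_Icc.2 zero_le_one)
  have h3 := sub_eq_zero.1 (congrArg Prod.fst h2)
  simp only [hX, one_smul] at h1 h3
  exact ⟨a, h1, h3⟩

/-- `Ψ a = P (orb F (y 0 + O a) T - y T)` is injective on the set (`lp` with `s = 0` for the difference of two orbits), maps it into
`{a | ‖W a‖ ≤ r T}`, and `|det Ψ'| ≥ 1 / 2` (`lintegral_abs_det_fderiv_le_addHaar_image`, `volume_ellipsoid_le`). -/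
theorem DiscH.upper (H : DiscH F y A O T κ ρ r e L ι) :
    volume {a : E k | Tube F y r T (y 0 + O a)} ≤
      ENNReal.ofReal (2 * r T ^ k / vol (prod A 0 T ∘L O)) * volume (ball (0 : E k) 1) := by
  obtain ⟨P, hP⟩ := exists_proj H.disc_inj
  obtain ⟨D, hD⟩ := H.disc_der hP (y 0)
  have hm := H.disc_meas (y 0)
  have h1 := lintegral_abs_det_fderiv_le_addHaar_image volume hm
    (fun a ha => (hD a ha).1.hasFDerivWithinAt) (fun a ha a' ha' h => by
      have h2 := H.disc_lp hP ha ha' (a := a - a') (q := 0) (by simp) (Nat.zero_le T)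
      have h3 : P (orb F (y 0 + O a) T - orb F (y 0 + O a') T) = 0 := by
        rw [← sub_sub_sub_cancel_right _ _ (y T), map_sub]
        exact sub_eq_zero.2 h
      simp only [h3, map_zero, norm_zero, mul_zero, zero_div, add_zero, orb, norm_le_zero_iff,
        add_sub_add_left_eq_sub] at h2
      exact H.hO (sub_eq_zero.1 h2))
  have h2 : (fun b => P (orb F (y 0 + O b) T - y T)) '' {a : E k | Tube F y r T (y 0 + O a)} ⊆
      {a | ‖(prod A 0 T ∘L O) a‖ ≤ r T} := by
    rintro _ ⟨a, ha, rfl⟩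
    exact (hP.norm_le _).trans (ha T le_rfl)
  have h3 : ENNReal.ofReal (1 / 2) * volume {a : E k | Tube F y r T (y 0 + O a)} ≤ _ :=
    le_trans (by
      rw [← setLIntegral_const]
      exact setLIntegral_mono' hm fun a ha => ENNReal.ofReal_le_ofReal (hD a ha).2.1)
      (h1.trans (measure_mono h2))
  rw [volume_ellipsoid_le H.disc_inj (H.hr T).le] at h3
  calc _ = ENNReal.ofReal 2 * (ENNReal.ofReal (1 / 2) * volume {a : E k | Tube F y r T (y 0 + O a)}) := by
        rw [← mul_assoc, ← ENNReal.ofReal_mul zero_le_two]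
        simp
    _ ≤ _ := mul_le_mul_right h3 _
    _ = _ := by rw [← mul_assoc, ← ENNReal.ofReal_mul zero_le_two, mul_div_assoc]

/-- Choose `ϱ'' > ϱ'` for which the strict inequalities still hold.  `Ψ (a, q) = (P (orb F (y 0 + q + O a) T - y T), q)` on the compact set `𝒰` of the `(a, q)` with
`‖q‖ ≤ ϱ''` in the tube.  If `(a, q) ∈ 𝒰` and `Ψ (a, q)` is in the open convex set `B = {‖W a'‖ < ϱ} × ball 0 ϱ''` then `lp` (for the difference with the orbit `y`) shows that the
orbit is in the open tube, so `𝒰` is a neighbourhood of `(a, q)`; the strict derivative of `Ψ` is block triangular and invertible (`DiscH.der`), so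
`Ψ 𝒰` is a neighbourhood of `Ψ (a, q)` (`HasStrictFDerivAt.map_nhds_eq_of_equiv` or `map_nhds_eq_of_surj`).  `Ψ 𝒰 ∩ B` is open, closed in `B` and contains `(0, 0)`, hence `B ⊆ Ψ 𝒰`.
For fixed `q` use `addHaar_image_le_lintegral_abs_det_fderiv` and `volume_ellipsoid_lt`. -/
theorem DiscH.lower (H : DiscH F y A O T κ ρ r e L ι) {ϱ ϱ' : ℝ} (hϱ : 0 < ϱ)
    (hc : ∀ s, s ≤ T → κ s * ρ s * (2 * ϱ / ρ T + 2 * (T * L ^ 2 + 1) * (κ 0 * ϱ' / ρ 0)) < r s) {q : E d}
    (hq : ‖q‖ ≤ ϱ') :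
    ENNReal.ofReal (ϱ ^ k / (2 * vol (prod A 0 T ∘L O))) * volume (ball (0 : E k) 1) ≤
      volume {a : E k | Tube F y r T (y 0 + q + O a)} := by
  obtain ⟨P, hP⟩ := exists_proj H.disc_inj
  obtain ⟨D, hD⟩ := H.disc_der hP (y 0 + q)
  have hm := H.disc_meas (y 0 + q)
  have h1 := addHaar_image_le_lintegral_abs_det_fderiv volume hm
    (fun a ha => (hD a ha).1.hasFDerivWithinAt)
  have h2 : {a | ‖(prod A 0 T ∘L O) a‖ < ϱ} ⊆
      (fun b => P (orb F (y 0 + q + O b) T - y T)) '' {a : E k | Tube F y r T (y 0 + q + O a)} :=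
    fun b hb => H.disc_surj hP hc hq (le_of_lt hb)
  have h3 : _ ≤ ENNReal.ofReal 2 * volume {a : E k | Tube F y r T (y 0 + q + O a)} :=
    ((measure_mono h2).trans h1).trans (by
      rw [← setLIntegral_const]
      exact setLIntegral_mono' hm fun a ha => ENNReal.ofReal_le_ofReal (hD a ha).2.2)
  rw [volume_ellipsoid_lt H.disc_inj hϱ] at h3
  calc _ = ENNReal.ofReal (1 / 2) * (ENNReal.ofReal (ϱ ^ k / vol (prod A 0 T ∘L O)) *
        volume (ball (0 : E k) 1)) := by
        rw [← mul_assoc, ← ENNReal.ofReal_mul (by norm_num), div_mul_div_comm, one_mul]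
    _ ≤ _ := mul_le_mul_right h3 _
    _ = _ := by
        rw [← mul_assoc, ← ENNReal.ofReal_mul (by norm_num)]
        simp

end Crest.Agent.R133
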