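import Crest.Agent.R133.LP

/-! Row 133: the volume of the part of an affine plane whose orbit stays in a tube. -/

set_option autoImplicit false

namespace Crest.Agent.R133

open MeasureTheory Finset Metric Function

variable {d k : ℕ} {A : ℕ → E d →L[ℝ] E d} {O : E k →L[ℝ] E d} {T : ℕ} {κ ρ : ℕ → ℝ} {F : ℕ → E d → E d}
  {y : ℕ → E d} {r e : ℕ → ℝ} {L ι : ℝ}

/-- the standing hypotheses -/
structure DiscH (F : ℕ → E d → E d) (y : ℕ → E d) (A : ℕ → E d →L[ℝ] E d) (O : E k →L[ℝ] E d) (T : ℕ)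
    (κ ρ r e : ℕ → ℝ) (L ι : ℝ) : Prop where
  dom : Dom A O T κ ρ
  near : Near F y A (fun t => 2 * r t) e T
  hr : ∀ t, 0 < r t
  hL : 1 ≤ L
  hA : ∀ t, t < T → BiLip L (A t)
  hO : Injective O
  he0 : ∀ s, 0 ≤ e s
  he : ∀ s, s < T → κ s ^ 2 * e s ≤ ι
  hι : 100 * ((d : ℝ) + 1) * ((T : ℝ) + 1) ^ 2 * L ^ 4 * ι ≤ 1

theorem disca_mem (hr : ∀ t, 0 < r t) {x : E d} (hx : Tube F y r T x) {t : ℕ} (ht : t ≤ T) :
    orb F x t ∈ ball (y t) (2 * r t) := by
  rw [mem_ball, dist_eq_norm]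
  linarith [hx t ht, hr t]

theorem Near.orb_eq {r : ℕ → ℝ} (H : Near F y A r e T) {t : ℕ} (ht : t ≤ T) : orb F (y 0) t = y t := by
  induction t with
  | zero => rfl
  | succ t ih => rw [orb, ih (Nat.le_of_succ_le ht), H.step t ht]

/-- induction on `T`: `orb · (t + 1)` is continuous on the closed set of the points that stay in the tube up to time `t` -/
theorem isClosed_tube (H : Near F y A (fun t => 2 * r t) e T) (hr : ∀ t, 0 < r t) : IsClosed {x | Tube F y r T x} := by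
  suffices h : ∀ t, t ≤ T → IsClosed {x | Tube F y r t x} ∧
      ContinuousOn (fun x => orb F x t) {x | Tube F y r t x} from (h T le_rfl).1
  intro t
  induction t with
  | zero =>
    refine fun _ => ⟨?_, continuousOn_id⟩
    have : {x | Tube F y r 0 x} = closedBall (y 0) (r 0) := by
      ext x
      simp [Tube, orb, dist_eq_norm]
    rw [this]
    exact isClosed_closedBall
  | succ t ih =>
    intro ht
    obtain ⟨h1, h2⟩ := ih (Nat.le_of_succ_le ht)
    obtain ⟨F', hF'⟩ := H.der t ht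
    have h3 : ContinuousOn (fun x => orb F x (t + 1)) {x | Tube F y r t x} := fun x hx =>
      ContinuousAt.comp_continuousWithinAt (f := fun x => orb F x t)
        (hF' _ (disca_mem hr hx le_rfl)).1.continuousAt (h2 x hx)
    have h4 : {x | Tube F y r (t + 1) x} = {x | Tube F y r t x} ∩
        (fun x => orb F x (t + 1)) ⁻¹' closedBall (y (t + 1)) (r (t + 1)) := by
      ext x
      simp only [Tube, Set.mem_inter_iff, Set.mem_ofPred_eq, Set.mem_preimage, mem_closedBall,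
        dist_eq_norm]
      refine ⟨fun h => ⟨fun s hs => h s (hs.trans (Nat.le_succ t)), h _ le_rfl⟩, fun h s hs => ?_⟩
      rcases Nat.of_le_succ hs with h5 | rfl
      · exact h.1 s h5
      · exact h.2
    rw [h4]
    exact ⟨h3.preimage_isClosed_of_isClosed h1 isClosed_closedBall, h3.mono Set.inter_subset_left⟩

/-- differences of orbits in the tube solve a perturbed linear equation (mean value inequality for `F t - A t` on the ball) -/
theorem Near.diff (H : Near F y A (fun t => 2 * r t) e T) (hr : ∀ t, 0 < r t) {x x' : E d} (hx : Tube F y r T x)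
    (hx' : Tube F y r T x') {t : ℕ} (ht : t < T) :
    ‖orb F x (t + 1) - orb F x' (t + 1) - A t (orb F x t - orb F x' t)‖ ≤ e t * ‖orb F x t - orb F x' t‖ := by
  obtain ⟨F', hF'⟩ := H.der t ht
  exact (convex_ball (y t) (2 * r t)).norm_image_sub_le_of_norm_hasFDerivWithin_le'
    (fun z hz => (hF' z hz).1.hasFDerivAt.hasFDerivWithinAt) (fun z hz => (hF' z hz).2)
    (disca_mem hr hx' ht.le) (disca_mem hr hx ht.le)

theorem disca_det {W : E k →L[ℝ] E d} (hW : Injective W) {M M' : E k →L[ℝ] E k} {η : ℝ} (h0 : 0 ≤ η)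
    (h1 : η < 1) (h : ∀ a, ‖W (M' a) - W (M a)‖ ≤ η * ‖W (M a)‖) :
    (1 - η) ^ k * |M.det| ≤ |M'.det| ∧ |M'.det| ≤ (1 + η) ^ k * |M.det| := by
  have hv := vol_pos hW
  have h2 : 0 < 1 - η := by linarith
  constructor
  · have h3 := vol_mono (W := W ∘L M) (W' := W ∘L M') (c := (1 - η)⁻¹) (by positivity) fun a => by
      rw [le_inv_mul_iff₀ h2]
      have := norm_sub_norm_le (W (M a)) (W (M' a))
      rw [norm_sub_rev] at this
      simp only [ContinuousLinearMap.comp_apply]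
      linarith [h a]
    rw [vol_comp, vol_comp, inv_pow, le_inv_mul_iff₀ (by positivity)] at h3
    refine le_of_mul_le_mul_left ?_ hv
    linarith
  · have h3 := vol_mono (W := W ∘L M') (W' := W ∘L M) (c := 1 + η) (by positivity) fun a => by
      have := norm_sub_norm_le (W (M' a)) (W (M a))
      simp only [ContinuousLinearMap.comp_apply]
      linarith [h a]
    rw [vol_comp, vol_comp] at h3
    refine le_of_mul_le_mul_left ?_ hv
    linarith

theorem disca_chain (H : Near F y A (fun t => 2 * r t) e T) (hr : ∀ t, 0 < r t) {x : E d}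
    (hx : Tube F y r T x) : ∃ G : ℕ → E d →L[ℝ] E d, (∀ t, t < T → ‖G t - A t‖ ≤ e t) ∧
      HasStrictFDerivAt (fun z => orb F z T) (prod G 0 T) x := by
  choose F' hF' using H.der
  refine ⟨fun t => if h : t < T then F' t h (orb F x t) else A t, fun t ht => ?_, ?_⟩
  · simp only [dif_pos ht]
    exact (hF' t ht _ (disca_mem hr hx ht.le)).2
  · suffices h : ∀ t, t ≤ T → HasStrictFDerivAt (fun z => orb F z t)
        (prod (fun t => if h : t < T then F' t h (orb F x t) else A t) 0 t) x from h T le_rfl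
    intro t
    induction t with
    | zero => exact fun _ => hasStrictFDerivAt_id x
    | succ t ih =>
      intro ht
      have ht' : t < T := ht
      simp only [prod, zero_add, dif_pos ht', orb]
      exact HasStrictFDerivAt.comp x (hF' t ht' _ (disca_mem hr hx ht'.le)).1 (ih ht'.le)

theorem DiscH.disca_step (H : DiscH F y A O T κ ρ r e L ι) {G : ℕ → E d →L[ℝ] E d}
    (hG : ∀ t, t < T → ‖G t - A t‖ ≤ e t) {t : ℕ} (ht : t < T) {P P' : E d →L[ℝ] E k}
    (hP : IsProj (prod A 0 t ∘L O) P) (hP' : IsProj (prod A 0 (t + 1) ∘L O) P') (a : E k) :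
    ‖(prod A 0 (t + 1) ∘L O) ((P' ∘L prod G 0 (t + 1) ∘L O) a) -
        (prod A 0 (t + 1) ∘L O) ((P ∘L prod G 0 t ∘L O) a)‖ ≤
      2 * (T + 1) * L ^ 3 * ι * ‖(prod A 0 (t + 1) ∘L O) ((P ∘L prod G 0 t ∘L O) a)‖ := by
  have hL := H.hL
  have hL0 : 0 < L := by linarith
  have he : e t ≤ ι := by
    have h1 : 1 ≤ κ t ^ 2 := one_le_pow₀ (H.dom.one t)
    nlinarith [H.he t ht, H.he0 t]
  have hι0 : 0 ≤ ι := (H.he0 t).trans he
  have htT : (t : ℝ) + 1 ≤ T + 1 := by
    have : (t : ℝ) ≤ T := by exact_mod_cast ht.le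
    linarith
  have hd : (1 : ℝ) ≤ d + 1 := by linarith [Nat.cast_nonneg (α := ℝ) d]
  have h6 : 6 * ((t : ℝ) + 1) ^ 2 * L ^ 3 * ι ≤ 1 := by
    refine le_trans ?_ H.hι
    calc 6 * ((t : ℝ) + 1) ^ 2 * L ^ 3 * ι = 6 * 1 * ((t : ℝ) + 1) ^ 2 * L ^ 3 * ι := by ring
      _ ≤ _ := by gcongr <;> norm_num
  set v : ℕ → E d := fun s => prod G 0 s (O a) with hv
  have hv1 : ∀ s, s < T → ‖v (s + 1) - A s (v s)‖ ≤ e s * ‖v s‖ := fun s hs => by
    have : v (s + 1) - A s (v s) = (G s - A s) (v s) := by simp [hv, prod]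
    rw [this]
    exact (G s - A s).le_of_opNorm_le (hG s hs) _
  have h1 := (lp (H.dom.mono ht.le) hL (fun s hs => H.hA s (hs.trans ht)) H.hO H.he0
    (fun s hs => H.he s (hs.trans ht)) h6 (v := v) (fun s hs => hv1 s (hs.trans ht)) (a₀ := a)
    (q₀ := 0) (by simp [hv, prod]) hP).2 rfl
  set w := prod A 0 t (O (P (v t))) with hw
  have e1 : (prod A 0 (t + 1) ∘L O) ((P ∘L prod G 0 t ∘L O) a) = A t w := by simp [hw, hv, prod]
  have e2 : (prod A 0 (t + 1) ∘L O) ((P' ∘L prod G 0 (t + 1) ∘L O) a) -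
      (prod A 0 (t + 1) ∘L O) ((P ∘L prod G 0 t ∘L O) a) =
      (prod A 0 (t + 1) ∘L O) (P' (v (t + 1) - A t w)) := by
    rw [map_sub P', ← e1, hP'.left, map_sub]
    rfl
  rw [e2, e1]
  refine (hP'.norm_le _).trans ?_
  have h2 : 2 * t * L * ι ≤ 1 := by
    refine le_trans ?_ h6
    have t0 : (0 : ℝ) ≤ t := Nat.cast_nonneg t
    have : L ≤ L ^ 3 := le_self_pow₀ hL (by norm_num)
    gcongr <;> nlinarith
  have h3 : ‖v t‖ ≤ 2 * ‖w‖ := by
    have := norm_sub_norm_le (v t) w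
    nlinarith [norm_nonneg w]
  have h4 : ‖v (t + 1) - A t w‖ ≤ e t * ‖v t‖ + L * ‖v t - w‖ := by
    rw [show v (t + 1) - A t w = (v (t + 1) - A t (v t)) + A t (v t - w) by rw [map_sub]; abel]
    exact (norm_add_le _ _).trans (add_le_add (hv1 t ht) (H.hA t ht _).1)
  have hL2 : 1 ≤ L ^ 2 := one_le_pow₀ hL
  calc ‖v (t + 1) - A t w‖ ≤ ι * (2 * ‖w‖) + L * (2 * t * L * ι * ‖w‖) := by
        refine h4.trans ?_
        gcongr
    _ = 2 * (1 + t * L ^ 2) * ι * ‖w‖ := by ring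
    _ ≤ 2 * ((T + 1) * L ^ 2) * ι * (L * ‖A t w‖) := by
        gcongr
        · nlinarith
        · exact (H.hA t ht w).2
    _ = _ := by ring

/-- The chain rule gives strict derivatives `D t` of `orb F · t` at `x`, with `‖D (t + 1) z - A t (D t z)‖ ≤ e t ‖D t z‖`.  Let `P t` be projections for
`W t = prod A 0 t ∘ O` (`P T = P`, `P 0 O = id`), `M t = P t ∘ D t ∘ O`.  By `lp` on `[0, t]`, `‖D t O a - W t M t a‖ ≤ 2 T L ι ‖W t M t a‖`, hence
`‖W (t + 1) (M (t + 1) a - M t a)‖ ≤ η ‖W (t + 1) M t a‖` with `η = 4 (T + 1) L³ ι`; `vol_mono`, `vol_comp` give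
`(1 - η) ^ k ≤ |det M (t + 1)| / |det M t| ≤ (1 + η) ^ k`, and `k T η ≤ 1 / 25`. -/
theorem DiscH.der (H : DiscH F y A O T κ ρ r e L ι) {P : E d →L[ℝ] E k} (hP : IsProj (prod A 0 T ∘L O) P) {x : E d}
    (hx : Tube F y r T x) : ∃ D : E d →L[ℝ] E d, HasStrictFDerivAt (fun z => orb F z T) D x ∧
      1 / 2 ≤ |(P ∘L D ∘L O).det| ∧ |(P ∘L D ∘L O).det| ≤ 2 := by
  obtain ⟨G, hG, hD⟩ := disca_chain H.near H.hr hx
  refine ⟨_, hD, ?_⟩
  have hL := H.hL
  have hW : ∀ t, t ≤ T → Injective (prod A 0 t ∘L O) := fun t ht =>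
    (bilip_prod (A := A) (s := 0) (m := t) (by linarith : 0 ≤ L)
      fun s _ hs => H.hA s (by omega)).injective.comp H.hO
  have h0 : ∀ Q : E d →L[ℝ] E k, IsProj (prod A 0 0 ∘L O) Q → |(Q ∘L prod G 0 0 ∘L O).det| = 1 := by
    intro Q hQ
    have : Q ∘L prod G 0 0 ∘L O = ContinuousLinearMap.id ℝ (E k) := by
      ext1 a
      exact hQ.left a
    rw [this]
    simp [ContinuousLinearMap.det]
  rcases Nat.eq_zero_or_pos T with rfl | hT
  · rw [h0 P hP]
    norm_num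
  have hι0 : 0 ≤ ι := le_trans (mul_nonneg (sq_nonneg _) (H.he0 0)) (H.he 0 hT)
  set η : ℝ := 2 * (T + 1) * L ^ 3 * ι with hη
  have hη0 : 0 ≤ η := by positivity
  have hk : (k : ℝ) ≤ d := by exact_mod_cast le_of_injective H.hO
  have hη1 : (d + 1) * (T + 1) * η ≤ 1 / 50 := by
    have h1 : L ^ 3 ≤ L ^ 4 := pow_le_pow_right₀ hL (by norm_num)
    calc (d + 1) * (T + 1) * η = 2 * ((d + 1) * (T + 1) ^ 2 * L ^ 3 * ι) := by rw [hη]; ring
      _ ≤ 2 * ((d + 1) * (T + 1) ^ 2 * L ^ 4 * ι) := by gcongr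
      _ ≤ 1 / 50 := by linarith [H.hι]
  have d0 : (0 : ℝ) ≤ d := Nat.cast_nonneg d
  have T0 : (0 : ℝ) ≤ T := Nat.cast_nonneg T
  have hη2 : η ≤ 1 / 50 := by nlinarith [mul_nonneg d0 T0]
  have hη3 : ((k * T : ℕ) : ℝ) * η ≤ 1 / 50 := by
    refine le_trans ?_ hη1
    push_cast
    gcongr <;> linarith
  have h1 : ∀ t, t ≤ T → ∀ Q : E d →L[ℝ] E k, IsProj (prod A 0 t ∘L O) Q →
      (1 - η) ^ (k * t) ≤ |(Q ∘L prod G 0 t ∘L O).det| ∧
        |(Q ∘L prod G 0 t ∘L O).det| ≤ (1 + η) ^ (k * t) := by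
    intro t
    induction t with
    | zero =>
      intro _ Q hQ
      rw [h0 Q hQ]
      simp
    | succ t ih =>
      intro ht Q' hQ'
      obtain ⟨Q, hQ⟩ := exists_proj (hW t (Nat.le_of_succ_le ht))
      obtain ⟨a1, a2⟩ := ih (Nat.le_of_succ_le ht) Q hQ
      obtain ⟨b1, b2⟩ := disca_det (hW _ ht) hη0 (by linarith) (H.disca_step hG ht hQ hQ')
      have h2 : 0 ≤ 1 - η := by linarith
      rw [mul_add, mul_one, pow_add, pow_add, mul_comm, mul_comm ((1 + η) ^ (k * t))]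
      exact ⟨le_trans (by gcongr) b1, b2.trans (by gcongr)⟩
  obtain ⟨a1, a2⟩ := h1 T le_rfl P hP
  have h2 : 1 / 2 ≤ (1 - η) ^ (k * T) := by
    have := one_add_mul_le_pow (a := -η) (by linarith) (k * T)
    rw [← sub_eq_add_neg] at this
    linarith
  have h3 : (1 + η) ^ (k * T) * (1 - η) ^ (k * T) ≤ 1 := by
    rw [← mul_pow]
    exact pow_le_one₀ (by nlinarith) (by nlinarith)
  have h4 : 0 ≤ (1 + η) ^ (k * T) := by positivity
  exact ⟨h2.trans a1, a2.trans (by nlinarith)⟩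

end Crest.Agent.R133
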