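import Crest.Agent.R133.Vol2

/-! Row 133: the extended logarithmic volume growth functionals and their defects. -/

set_option autoImplicit false

namespace Crest.Agent.R133

open MeasureTheory Finset Metric Function

variable {d : ℕ} {g h : E d →L[ℝ] E d} {l lam lam' : ℝ}

theorem ea_zero : ea 0 lam g = -lam := if_pos rfl

theorem ea_succ {k : ℕ} (hk : k ≤ d) : ea (k + 1) lam g = Real.log (alpha k g) := by
  rw [ea, if_neg (by omega), if_pos (by omega), Nat.add_sub_cancel]

theorem ea_top {j : ℕ} (hj : d + 2 ≤ j) : ea j lam g = Real.log (alpha d g) - lam := by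
  rw [ea, if_neg (by omega), if_neg (by omega)]

theorem ea_cases (d j : ℕ) : j = 0 ∨ (∃ k, k ≤ d ∧ j = k + 1) ∨ d + 2 ≤ j := by
  rcases j with _ | k
  · exact Or.inl rfl
  · by_cases h : k ≤ d
    · exact Or.inr (Or.inl ⟨k, h, rfl⟩)
    · exact Or.inr (Or.inr (by omega))

theorem ea_log_comp {k : ℕ} (hk : k ≤ d) (hh : Injective h) (hg : Injective g) :
    Real.log (alpha k (h ∘L g)) ≤ Real.log (alpha k h) + Real.log (alpha k g) := by
  rw [← Real.log_mul (alpha_pos hh hk).ne' (alpha_pos hg hk).ne']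
  exact Real.log_le_log (alpha_pos (g := h ∘L g) (hh.comp hg) hk) (alpha_comp k h g)

theorem ea_abs_log (hg : BiLip (Real.exp l) g) (hl : 0 ≤ l) {k : ℕ} (hk : k ≤ d) :
    |Real.log (alpha k g)| ≤ d * l := by
  have h0 := alpha_pos hg.injective hk
  have h1 := Real.log_le_log h0 (hg.alpha_le (Real.exp_pos l).le k)
  have h2 := Real.log_nonneg (hg.le_alpha (Real.exp_pos l).le hk)
  rw [Real.log_mul (by positivity) h0.ne'] at h2
  rw [Real.log_pow, Real.log_exp] at h1 h2
  have h3 : (k : ℝ) * l ≤ d * l := mul_le_mul_of_nonneg_right (by exact_mod_cast hk) hl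
  exact abs_le.2 ⟨by linarith, by linarith⟩

theorem ea_comp (j : ℕ) (hh : Injective h) (hg : Injective g) :
    ea j (lam + lam') (h ∘L g) ≤ ea j lam' h + ea j lam g := by
  rcases ea_cases d j with rfl | ⟨k, hk, rfl⟩ | hj
  · simp only [ea_zero]
    linarith
  · simp only [ea_succ hk]
    exact ea_log_comp hk hh hg
  · simp only [ea_top hj]
    linarith [ea_log_comp le_rfl hh hg]

theorem ea_one : ea 1 lam g = 0 := by
  rw [ea_succ (Nat.zero_le d), alpha_zero, Real.log_one]

theorem ea_id (j : ℕ) : ea j 0 (ContinuousLinearMap.id ℝ (E d)) = 0 := by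
  rcases ea_cases d j with rfl | ⟨k, hk, rfl⟩ | hj
  · rw [ea_zero, neg_zero]
  · rw [ea_succ hk, alpha_id hk, Real.log_one]
  · rw [ea_top hj, alpha_id le_rfl, Real.log_one, sub_zero]

theorem abs_ea_le (hg : BiLip (Real.exp l) g) (hl : 0 ≤ l) (hlam : 2 * d * l ≤ lam) (j : ℕ) :
    |ea j lam g| ≤ 2 * lam := by
  have h0 : 0 ≤ d * l := by positivity
  rcases ea_cases d j with rfl | ⟨k, hk, rfl⟩ | hj
  · rw [ea_zero]
    exact abs_le.2 ⟨by linarith, by linarith⟩
  · rw [ea_succ hk]
    linarith [ea_abs_log hg hl hk]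
  · rw [ea_top hj]
    have := abs_le.1 (ea_abs_log hg hl le_rfl)
    exact abs_le.2 ⟨by linarith, by linarith⟩

theorem abs_ea_sub_le (hg : BiLip (Real.exp l) g) (hl : 0 ≤ l) (hlam : 2 * d * l ≤ lam) (j : ℕ) :
    |ea (j + 1) lam g - ea j lam g| ≤ lam := by
  have h0 : 0 ≤ d * l := by positivity
  rcases ea_cases d j with rfl | ⟨k, hk, rfl⟩ | hj
  · rw [ea_zero, ea_one]
    exact abs_le.2 ⟨by linarith, by linarith⟩
  · rcases hk.eq_or_lt with rfl | hk'
    · rw [ea_succ hk, ea_top le_rfl]
      exact abs_le.2 ⟨by linarith, by linarith⟩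
    · rw [ea_succ hk, ea_succ hk']
      have h1 := abs_le.1 (ea_abs_log hg hl hk)
      have h2 := abs_le.1 (ea_abs_log hg hl (k := k + 1) hk')
      exact abs_le.2 ⟨by linarith, by linarith⟩
  · rw [ea_top hj, ea_top (by omega), sub_self, abs_zero]
    linarith

theorem ea_concave (hg : BiLip (Real.exp l) g) (hl : 0 ≤ l) (hlam : 2 * d * l ≤ lam) {u : ℕ} (hu : u ≤ d) :
    ea (u + 2) lam g + ea u lam g ≤ 2 * ea (u + 1) lam g := by
  rcases u with _ | k
  · have := abs_le.1 (abs_ea_sub_le hg hl hlam 1)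
    rw [ea_zero]
    rw [ea_one] at this ⊢
    linarith
  · rcases hu.eq_or_lt with h | h
    · have := abs_le.1 (abs_ea_sub_le hg hl hlam (k + 1))
      have e : ea (k + 1 + 1) lam g = Real.log (alpha d g) := by rw [h, ea_succ le_rfl]
      rw [ea_top (by omega)]
      linarith
    · have h1 := alpha_pos hg.injective (k := k) (by omega)
      have h2 := alpha_pos hg.injective (k := k + 2) h
      have h3 := Real.log_le_log (mul_pos h2 h1) (alpha_concave hg.injective)
      rw [Real.log_mul h2.ne' h1.ne', Real.log_pow] at h3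
      rw [ea_succ (k := k + 2) h, ea_succ hu, ea_succ (by omega)]
      exact_mod_cast h3

theorem exp_ea (hg : Injective g) {u : ℕ} (hu : u ≤ d) : Real.exp (ea (u + 1) lam g) = alpha u g := by
  rw [ea_succ hu, Real.exp_log (alpha_pos hg hu)]

theorem ea_back (hg : Injective g) {u : ℕ} (hu : u ≤ d) (W : E u →L[ℝ] E d) (a : E u) :
    vol (g ∘L W) * ‖W a‖ ≤ Real.exp (ea u lam g) * ‖g (W a)‖ * vol W := by
  rcases u with _ | k
  · rw [Subsingleton.elim a 0, map_zero, map_zero, norm_zero, mul_zero, mul_zero, zero_mul]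
  · rw [exp_ea hg (by omega)]
    exact vol_back g W a

/-- for `u = d` an injective `W` is surjective -/
theorem ea_quot (hg : Injective g) {u : ℕ} (hu : u ≤ d) (W : E u →L[ℝ] E d) (x : E d) :
    ∃ a, vol (g ∘L W) * ‖g x - g (W a)‖ ≤ Real.exp (ea (u + 2) lam g) * ‖x‖ * vol W := by
  obtain ⟨a, ha⟩ := vol_quot g W x
  refine ⟨a, ha.trans (mul_le_mul_of_nonneg_right
    (mul_le_mul_of_nonneg_right ?_ (norm_nonneg _)) (vol_nonneg _))⟩
  rcases hu.eq_or_lt with h | h
  · exact alpha_le (Real.exp_pos _).le fun O hO => absurd (le_of_injective hO.injective) (by omega)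
  · exact (exp_ea hg (u := u + 1) h).ge

theorem measurable_ea (j : ℕ) (lam : ℝ) : Measurable (ea j lam : (E d →L[ℝ] E d) → ℝ) := by
  unfold ea
  split_ifs
  exacts [measurable_const, (measurable_alpha _).log, (measurable_alpha d).log.sub_const _]

theorem measurable_tot (lam : ℝ) : Measurable (tot lam : (E d →L[ℝ] E d) → ℝ) := by
  exact Finset.measurable_sum _ fun j _ =>
    (measurable_ea j lam).add ((measurable_ea j lam).max (measurable_ea (j + 1) lam))

theorem measurableSet_gap (u : ℕ) (X ζ lam : ℝ) : MeasurableSet {g : E d →L[ℝ] E d | Gap u X ζ lam g} := by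
  exact (measurableSet_le measurable_const ((measurable_ea _ lam).sub (measurable_ea _ lam))).inter
    (measurableSet_le ((measurable_ea _ lam).sub (measurable_ea _ lam)) measurable_const)

theorem abs_tot_le (hg : BiLip (Real.exp l) g) (hl : 0 ≤ l) (hlam : 2 * d * l ≤ lam) :
    |tot lam g| ≤ 4 * (d + 3) * lam := by
  refine (abs_sum_le_sum_abs _ _).trans ((sum_le_card_nsmul _ _ (4 * lam) fun j _ => ?_).trans ?_)
  · have h1 := abs_le.1 (abs_ea_le hg hl hlam j)
    have h2 := abs_le.1 (abs_ea_le hg hl hlam (j + 1))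
    have h3 := le_max_left (ea j lam g) (ea (j + 1) lam g)
    have h4 := max_le h1.2 h2.2
    exact abs_le.2 ⟨by linarith, by linarith⟩
  · rw [card_range, nsmul_eq_mul]
    push_cast
    linarith

/-- The slopes `s u = ea (u + 1) - ea u` decrease from `s 0 = lam` to `s (d + 1) = -lam`.  For each `b` let `u b` be the last index with
`X b * lam ≤ s u`.  If there is no gap then `s (u b + 1)` is in the open interval `(ζ b * lam, X b * lam)`, and `1 ≤ u b + 1 ≤ d`; the intervals
are disjoint, so `b ↦ u b` is injective from `d + 1` elements to `d` elements. -/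
theorem exists_gap (hg : BiLip (Real.exp l) g) (hl : 0 ≤ l) (hlam : 2 * d * l ≤ lam) (hpos : 0 < lam)
    {ζ X : ℕ → ℝ} (h0 : ∀ b, b ≤ d → 0 ≤ ζ b ∧ 0 < X b ∧ X b ≤ 1) (h1 : ∀ b b', b < b' → b' ≤ d → X b ≤ ζ b') :
    ∃ b, b ≤ d ∧ ∃ u, u ≤ d ∧ Gap u (X b) (ζ b) lam g := by
  classical
  by_contra hc
  push Not at hc
  let u : ℕ → ℕ := fun b => Nat.findGreatest (fun u => X b * lam ≤ ea (u + 1) lam g - ea u lam g) d
  have h2 : ∀ b, b ≤ d → ζ b * lam < ea (u b + 2) lam g - ea (u b + 1) lam g := fun b hb => by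
    refine not_le.1 fun h => hc b hb (u b) (Nat.findGreatest_le d) ⟨?_, h⟩
    refine Nat.findGreatest_spec (P := fun u => X b * lam ≤ ea (u + 1) lam g - ea u lam g)
      (Nat.zero_le d) ?_
    rw [ea_one, ea_zero]
    nlinarith [(h0 b hb).2.2]
  have h3 : ∀ b, b ≤ d → u b < d := fun b hb => by
    refine lt_of_le_of_ne (Nat.findGreatest_le d) fun h => ?_
    have := h2 b hb
    rw [h, ea_top le_rfl, ea_succ le_rfl] at this
    nlinarith [(h0 b hb).1]
  have h4 : ∀ b, b ≤ d → ea (u b + 2) lam g - ea (u b + 1) lam g < X b * lam := fun b hb =>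
    not_le.1 (Nat.findGreatest_is_greatest
      (P := fun u => X b * lam ≤ ea (u + 1) lam g - ea u lam g) (Nat.lt_succ_self (u b)) (h3 b hb))
  have h5 : ∀ b b', b < b' → b' ≤ d → u b ≠ u b' := fun b b' h hb' e => by
    have k1 := h4 b (by omega)
    have k2 := h2 b' hb'
    rw [e] at k1
    nlinarith [h1 b b' h hb']
  have h6 := card_le_card_of_injOn (s := range (d + 1)) (t := range d) u
    (fun b hb => by simpa using h3 b (by simpa [Nat.lt_succ_iff] using hb)) fun b hb b' hb' e => by
      simp only [coe_range, Set.mem_Iio] at hb hb'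
      rcases lt_trichotomy b b' with h | h | h
      · exact absurd e (h5 b b' h (by omega))
      · exact h
      · exact absurd e.symm (h5 b' b h (by omega))
  simp at h6

end Crest.Agent.R133
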