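import Crest.Agent.R133.Defs

/-! Row 133: a criterion for zero entropy, and standard probability spaces. -/

set_option autoImplicit false

namespace Crest.Agent.R133

open MeasureTheory Function Set Crest.AnalysisR Filter

variable {X : Type} [MeasurableSpace X] {μ : Measure X} [IsProbabilityMeasure μ]

lemma ent_gibbs_pt {p q : ℝ} (hp : 0 ≤ p) (hq : 0 ≤ q) (h : 0 < p → 0 < q) :
    Real.negMulLog p ≤ p * -Real.log q + q - p := by
  rcases hp.eq_or_lt with h0 | h0
  · subst h0; simpa using hq
  · have hq' := h h0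
    have h1 := Real.log_le_sub_one_of_pos (div_pos hq' h0)
    rw [Real.log_div hq'.ne' h0.ne'] at h1
    have h2 := mul_le_mul_of_nonneg_left h1 hp
    have h3 : p * (q / p - 1) = q - p := by field_simp
    rw [Real.negMulLog]
    linarith

omit [IsProbabilityMeasure μ] in
lemma ent_def {α : Type} [Fintype α] (P : X → α) :
    labelEntropy μ P = ∑ a, Real.negMulLog (μ.real (P ⁻¹' {a})) := rfl

lemma ent_sum {α : Type} [MeasurableSpace α] [DiscreteMeasurableSpace α] {P : X → α} (hP : Measurable P)
    (s : Finset α) : ∑ a ∈ s, μ.real (P ⁻¹' {a}) = μ.real (P ⁻¹' s) :=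
  sum_measureReal_preimage_singleton s (fun _ _ => hP MeasurableSet.of_discrete)

lemma ent_sum_univ {α : Type} [Fintype α] [MeasurableSpace α] [DiscreteMeasurableSpace α] {P : X → α}
    (hP : Measurable P) : ∑ a, μ.real (P ⁻¹' {a}) = 1 := by
  rw [ent_sum hP]; simp

/-- Gibbs' inequality against a sub-probability vector -/
lemma ent_gibbs {α : Type} [Fintype α] [MeasurableSpace α] [DiscreteMeasurableSpace α] {P : X → α}
    (hP : Measurable P) (q : α → ℝ) (hq : ∀ a, 0 ≤ q a) (h : ∀ a, 0 < μ.real (P ⁻¹' {a}) → 0 < q a)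
    (h1 : ∑ a, q a ≤ 1) : labelEntropy μ P ≤ ∑ a, μ.real (P ⁻¹' {a}) * -Real.log (q a) := by
  have h2 := Finset.sum_le_sum fun a (_ : a ∈ Finset.univ) =>
    ent_gibbs_pt (measureReal_nonneg (μ := μ) (s := P ⁻¹' {a})) (hq a) (h a)
  rw [Finset.sum_sub_distrib, Finset.sum_add_distrib, ent_sum_univ hP] at h2
  rw [ent_def]
  linarith

theorem labelEntropy_nonneg {α : Type} [Fintype α] (P : X → α) : 0 ≤ labelEntropy μ P := by
  exact Finset.sum_nonneg fun a _ =>
    Real.negMulLog_nonneg ENNReal.toReal_nonneg (measureReal_le_one (μ := μ))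

/-- concavity of `negMulLog` -/
theorem labelEntropy_le_log {α : Type} [Fintype α] [MeasurableSpace α] [DiscreteMeasurableSpace α] {P : X → α}
    (hP : Measurable P) (N : Finset α) (hN : ∀ᵐ x ∂μ, P x ∈ N) : labelEntropy μ P ≤ Real.log N.card := by
  classical
  have h0 : ∀ a, a ∉ N → μ.real (P ⁻¹' {a}) = 0 := fun a ha => by
    rw [measureReal_eq_zero_iff]
    refine measure_mono_null (fun x hx => ?_) hN
    have hx' : P x = a := hx
    simpa [hx'] using ha
  have h1 : ∑ a ∈ N, μ.real (P ⁻¹' {a}) = 1 := by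
    rw [← ent_sum_univ (μ := μ) hP]
    exact Finset.sum_subset (Finset.subset_univ _) fun a _ ha => h0 a ha
  have hne : N.Nonempty := by
    rw [Finset.nonempty_iff_ne_empty]
    rintro rfl
    simp at h1
  have hc : (0 : ℝ) < N.card := by exact_mod_cast hne.card_pos
  refine (ent_gibbs hP (fun a => if a ∈ N then (N.card : ℝ)⁻¹ else 0) (fun a => by positivity)
    (fun a ha => ?_) ?_).trans ?_
  · have : a ∈ N := by
      by_contra h
      rw [h0 a h] at ha
      exact lt_irrefl _ ha
    simp only [this, if_true]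
    positivity
  · rw [Finset.sum_ite_mem, Finset.univ_inter, Finset.sum_const, nsmul_eq_mul, mul_inv_cancel₀ hc.ne']
  · rw [← Finset.sum_subset (Finset.subset_univ N) fun a _ ha => by rw [h0 a ha, zero_mul],
      Finset.sum_congr rfl fun a ha => by rw [if_pos ha], ← Finset.sum_mul, h1]
    simp

/-- a function of a label has smaller entropy (`negMulLog` is subadditive) -/
theorem labelEntropy_comp_le {α β : Type} [Fintype α] [Fintype β] [MeasurableSpace α] [DiscreteMeasurableSpace α]
    {P : X → α} (hP : Measurable P) (f : α → β) : labelEntropy μ (fun x => f (P x)) ≤ labelEntropy μ P := by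
  classical
  rw [ent_def, ent_def, ← Finset.sum_fiberwise Finset.univ f]
  refine Finset.sum_le_sum fun b _ => ?_
  have h1 : ∑ a with f a = b, μ.real (P ⁻¹' {a}) = μ.real ((fun x => f (P x)) ⁻¹' {b}) := by
    rw [ent_sum hP]
    congr 1
    ext x
    simp
  rw [Real.negMulLog, neg_mul, ← mul_neg]
  nth_rewrite 1 [← h1]
  rw [Finset.sum_mul]
  refine Finset.sum_le_sum fun a ha => ?_
  rw [Real.negMulLog, neg_mul, ← mul_neg]
  rcases (measureReal_nonneg (μ := μ) (s := P ⁻¹' {a})).eq_or_lt with h0 | h0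
  · rw [← h0, zero_mul, zero_mul]
  · refine mul_le_mul_of_nonneg_left (neg_le_neg (Real.log_le_log h0 ?_)) h0.le
    rw [← h1]
    exact Finset.single_le_sum (f := fun a => μ.real (P ⁻¹' {a})) (fun _ _ => measureReal_nonneg) ha

/-- Gibbs' inequality -/
theorem labelEntropy_pair_le {α β : Type} [Fintype α] [Fintype β] [MeasurableSpace α] [DiscreteMeasurableSpace α]
    [MeasurableSpace β] [DiscreteMeasurableSpace β] {P : X → α} {Q : X → β} (hP : Measurable P) (hQ : Measurable Q) :
    labelEntropy μ (fun x => (P x, Q x)) ≤ labelEntropy μ P + labelEntropy μ Q := by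
  classical
  have hR : Measurable fun x => (P x, Q x) := hP.prodMk hQ
  have ha : ∀ a, ∑ b, μ.real ((fun x => (P x, Q x)) ⁻¹' {(a, b)}) = μ.real (P ⁻¹' {a}) := fun a => by
    rw [← Finset.sum_image (s := Finset.univ) (g := fun b : β => (a, b))
      (f := fun c => μ.real ((fun x => (P x, Q x)) ⁻¹' {c})) fun _ _ _ _ h => (Prod.mk.inj h).2, ent_sum hR]
    congr 1
    ext x
    simp [eq_comm]
  have hb : ∀ b, ∑ a, μ.real ((fun x => (P x, Q x)) ⁻¹' {(a, b)}) = μ.real (Q ⁻¹' {b}) := fun b => by
    rw [← Finset.sum_image (s := Finset.univ) (g := fun a : α => (a, b))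
      (f := fun c => μ.real ((fun x => (P x, Q x)) ⁻¹' {c})) fun _ _ _ _ h => (Prod.mk.inj h).1, ent_sum hR]
    congr 1
    ext x
    simp [eq_comm]
  have hpos : ∀ c : α × β, 0 < μ.real ((fun x => (P x, Q x)) ⁻¹' {c}) →
      0 < μ.real (P ⁻¹' {c.1}) ∧ 0 < μ.real (Q ⁻¹' {c.2}) := fun c hc =>
    ⟨hc.trans_le (measureReal_mono fun x hx => congrArg Prod.fst hx),
      hc.trans_le (measureReal_mono fun x hx => congrArg Prod.snd hx)⟩
  refine (ent_gibbs hR (fun c => μ.real (P ⁻¹' {c.1}) * μ.real (Q ⁻¹' {c.2}))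
    (fun c => mul_nonneg measureReal_nonneg measureReal_nonneg)
    (fun c hc => mul_pos (hpos c hc).1 (hpos c hc).2) ?_).trans (le_of_eq ?_)
  · rw [Fintype.sum_prod_type]
    simp only [← Finset.mul_sum, ent_sum_univ hQ, mul_one, ent_sum_univ hP, le_refl]
  · have h1 : ∀ c : α × β, μ.real ((fun x => (P x, Q x)) ⁻¹' {c}) *
        -Real.log (μ.real (P ⁻¹' {c.1}) * μ.real (Q ⁻¹' {c.2})) =
        μ.real ((fun x => (P x, Q x)) ⁻¹' {c}) * -Real.log (μ.real (P ⁻¹' {c.1})) +
        μ.real ((fun x => (P x, Q x)) ⁻¹' {c}) * -Real.log (μ.real (Q ⁻¹' {c.2})) := fun c => by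
      rcases (measureReal_nonneg (μ := μ) (s := (fun x => (P x, Q x)) ⁻¹' {c})).eq_or_lt with h0 | h0
      · rw [← h0]; ring
      · rw [Real.log_mul (hpos c h0).1.ne' (hpos c h0).2.ne']; ring
    simp only [h1]
    rw [Finset.sum_add_distrib, Fintype.sum_prod_type, Fintype.sum_prod_type_right, ent_def, ent_def]
    simp only [← Finset.sum_mul, ha, hb]
    simp only [Real.negMulLog, neg_mul, mul_neg]

theorem labelEntropy_pi_le {α : Type} [Fintype α] [MeasurableSpace α] [DiscreteMeasurableSpace α] {n : ℕ}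
    {P : Fin n → X → α} (hP : ∀ j, Measurable (P j)) :
    labelEntropy μ (fun x j => P j x) ≤ ∑ j, labelEntropy μ (P j) := by
  induction n with
  | zero =>
    have := labelEntropy_le_log (μ := μ) (P := fun x j => P j x) (measurable_pi_lambda _ hP) Finset.univ
      (Eventually.of_forall fun _ => Finset.mem_univ _)
    simpa using this
  | succ n ih =>
    have hQ : Measurable fun x (j : Fin n) => P j.succ x := measurable_pi_lambda _ fun j => hP _
    have h1 := labelEntropy_comp_le (μ := μ) ((hP 0).prodMk hQ)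
      fun c : α × (Fin n → α) => (Fin.cons c.1 c.2 : Fin (n + 1) → α)
    have h2 : (fun x => (Fin.cons (P 0 x) fun j : Fin n => P j.succ x : Fin (n + 1) → α)) = fun x j => P j x := by
      funext x j
      refine Fin.cases ?_ (fun j => ?_) j <;> simp
    rw [h2] at h1
    have h3 := labelEntropy_pair_le (μ := μ) (hP 0) hQ
    have h4 := ih (P := fun j => P j.succ) fun j => hP _
    rw [Fin.sum_univ_succ]
    linarith

/-- Let `D x = if P x = P' x then none else some (P x)`.  The `P`-name is a function of the `P'`-name and the `D`-name, so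
`H (P-name) ≤ log (C₀ exp (η n)) + n H(D)`, and `H(D) ≤ δ (η)` with `δ (η) → 0` (continuity of `negMulLog` at `0` and `1`). -/
theorem hasZeroEntropy_of_count {T : X → X} (hT : MeasurePreserving T μ μ)
    (h : ∀ (m : ℕ) (P : X → Fin m), Measurable P → ∀ η : ℝ, 0 < η → ∃ P' : X → Fin m, Measurable P' ∧
      μ.real {x | P x ≠ P' x} ≤ η ∧ ∃ C₀ : ℝ, ∀ n : ℕ, ∃ N : Finset (Fin n → Fin m),
        (N.card : ℝ) ≤ C₀ * Real.exp (η * n) ∧ ∀ᵐ x ∂μ, (fun j : Fin n => P' (T^[(j : ℕ)] x)) ∈ N) :
    HasZeroEntropy μ T := by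
  classical
  intro m P hP
  refine tendsto_order.2 ⟨fun a ha => Eventually.of_forall fun n =>
    ha.trans_le (div_nonneg (labelEntropy_nonneg _) (Nat.cast_nonneg _)), fun ε hε => ?_⟩
  set s : ℝ := 1 - Real.exp (-(ε / 4)) with hs
  have hs0 : 0 < s := sub_pos.2 (Real.exp_lt_one_iff.2 (by linarith))
  have hs1 : s ≤ 1 := by have := Real.exp_pos (-(ε / 4)); linarith
  set L : ℝ := -Real.log (s / (m + 1)) with hL
  have hL0 : 0 ≤ L := neg_nonneg.2 (Real.log_nonpos (by positivity)
    (div_le_one_of_le₀ (by have := Nat.cast_nonneg (α := ℝ) m; linarith) (by positivity)))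
  obtain ⟨P', hP', hη, C₀, hC⟩ := h m P hP (ε / 4 / (L + 1)) (by positivity)
  set η : ℝ := ε / 4 / (L + 1) with hηd
  have hη0 : 0 < η := by positivity
  have hηL : η * (L + 1) = ε / 4 := div_mul_cancel₀ _ (by positivity)
  let : MeasurableSpace (Option (Fin m)) := ⊤
  have : DiscreteMeasurableSpace (Option (Fin m)) := ⟨fun _ => trivial⟩
  let D : X → Option (Fin m) := fun x => if P x = P' x then none else some (P x)
  have hD : Measurable D :=
    (Measurable.of_discrete (f := fun c : Fin m × Fin m => if c.1 = c.2 then none else some c.1)).comp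
      (hP.prodMk hP')
  have hHD : labelEntropy μ D ≤ ε / 4 + η * L := by
    refine (ent_gibbs hD (fun o => o.elim (Real.exp (-(ε / 4))) fun _ => s / (m + 1)) (fun o => ?_)
      (fun o _ => ?_) ?_).trans ?_
    · cases o <;> simp only [Option.elim] <;> positivity
    · cases o <;> simp only [Option.elim] <;> positivity
    · rw [Fintype.sum_option]
      simp only [Option.elim, Finset.sum_const, Finset.card_univ, Fintype.card_fin, nsmul_eq_mul]
      have : (m : ℝ) * (s / (m + 1)) ≤ s := by
        rw [← mul_div_assoc, div_le_iff₀ (by positivity)]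
        nlinarith
      linarith
    · rw [Fintype.sum_option]
      simp only [Option.elim, Real.log_exp, neg_neg, ← hL, ← Finset.sum_mul]
      have h1 : μ.real (D ⁻¹' {none}) ≤ 1 := measureReal_le_one
      have h2 : ∑ a : Fin m, μ.real (D ⁻¹' {some a}) ≤ η := by
        rw [← Finset.sum_image (s := Finset.univ) (g := fun a : Fin m => some a)
          (f := fun c => μ.real (D ⁻¹' {c})) fun _ _ _ _ h => Option.some.inj h, ent_sum hD]
        refine (measureReal_mono fun x hx => ?_).trans hη
        intro hx'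
        simp [D, hx'] at hx
      have h3 := mul_le_mul_of_nonneg_right h1 (show 0 ≤ ε / 4 by positivity)
      have h4 := mul_le_mul_of_nonneg_right h2 hL0
      linarith
  have hK : 0 ≤ Real.log (max C₀ 1) := Real.log_nonneg (le_max_right _ _)
  have key : ∀ n : ℕ, labelEntropy μ (fun x : X => fun j : Fin n => P (T^[(j : ℕ)] x)) ≤
      Real.log (max C₀ 1) + n * (ε / 2) := fun n => by
    obtain ⟨N, hN, hae⟩ := hC n
    have hm : ∀ j : ℕ, Measurable T^[j] := fun j => hT.measurable.iterate j
    have hu : Measurable fun x (j : Fin n) => P' (T^[(j : ℕ)] x) :=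
      measurable_pi_lambda _ fun j => hP'.comp (hm j)
    have hw : Measurable fun x (j : Fin n) => D (T^[(j : ℕ)] x) :=
      measurable_pi_lambda _ fun j => hD.comp (hm j)
    have h1 := labelEntropy_comp_le (μ := μ) (hu.prodMk hw)
      fun (c : (Fin n → Fin m) × (Fin n → Option (Fin m))) (j : Fin n) => (c.2 j).getD (c.1 j)
    have h2 : (fun (x : X) (j : Fin n) => (D (T^[(j : ℕ)] x)).getD (P' (T^[(j : ℕ)] x))) =
        fun x (j : Fin n) => P (T^[(j : ℕ)] x) := by
      funext x j
      by_cases hx : P (T^[(j : ℕ)] x) = P' (T^[(j : ℕ)] x) <;> simp [D, hx]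
    rw [h2] at h1
    have h3 := labelEntropy_pair_le (μ := μ) hu hw
    have h4 := labelEntropy_le_log hu N hae
    have h5 := labelEntropy_pi_le (μ := μ) (P := fun (j : Fin n) x => D (T^[(j : ℕ)] x)) fun j => hD.comp (hm j)
    have h6 : ∀ j : Fin n, labelEntropy μ (fun x => D (T^[(j : ℕ)] x)) = labelEntropy μ D := fun j => by
      refine Finset.sum_congr rfl fun o _ => ?_
      rw [← (hT.iterate j).measure_preimage (hD (measurableSet_singleton o)).nullMeasurableSet]
      rfl
    simp only [h6, Finset.sum_const, Finset.card_univ, Fintype.card_fin, nsmul_eq_mul] at h5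
    have h7 : Real.log N.card ≤ Real.log (max C₀ 1) + η * n := by
      rcases Nat.eq_zero_or_pos N.card with h0 | h0
      · rw [h0, Nat.cast_zero, Real.log_zero]; positivity
      · have h8 : (0 : ℝ) < max C₀ 1 := lt_max_of_lt_right one_pos
        have h9 := Real.log_le_log (by exact_mod_cast h0)
          (hN.trans (mul_le_mul_of_nonneg_right (le_max_left C₀ 1) (Real.exp_pos _).le))
        rwa [Real.log_mul h8.ne' (Real.exp_pos _).ne', Real.log_exp] at h9
    have h8 := mul_le_mul_of_nonneg_left hHD (Nat.cast_nonneg (α := ℝ) n)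
    have h9 : (n : ℝ) * (η * (L + 1)) = n * (ε / 4) := by rw [hηL]
    linarith
  have hlim := (tendsto_const_div_atTop_nhds_zero_nat (Real.log (max C₀ 1))).eventually
    (gt_mem_nhds (show (0 : ℝ) < ε / 2 by positivity))
  filter_upwards [hlim, eventually_gt_atTop 0] with n hn hn0
  have hn' : (0 : ℝ) < n := by exact_mod_cast hn0
  rw [div_lt_iff₀ hn'] at hn ⊢
  have := key n
  linarith

end Crest.Agent.R133
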