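import Crest.Agent.R133.GoodB

/-! Row 133: the good points for one group of classes have small measure. -/

set_option autoImplicit false

namespace Crest.Agent.R133

open MeasureTheory Finset Metric Function



/-- the labels of the times of the last window are distinct -/
theorem good_injOn {n J R i y a lo w : ℕ} (hR : 0 < R) (hw : w ≤ R * per n J R i) :
    Set.InjOn (fun t => lab n J R (a + t)) (times n i y a lo (lo + w)) := by
  intro t ht t' ht' h
  simp only [times, coe_filter, mem_Ico, Set.mem_ofPred_eq] at ht ht'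
  have hmod : ∀ v, lab n J R v % n = v % n := fun v =>
    Nat.mod_mod_of_dvd v ⟨J * R ^ (v % n), by rw [per]; ring⟩
  have hc : (a + t) % n = (a + t') % n := by
    rw [← hmod, ← hmod (a + t')]
    exact congrArg (· % n) h
  have p2 : R * per n J R i ≤ per n J R ((a + t) % n) := by
    rw [per, per]
    calc R * (n * J * R ^ i) = n * J * R ^ (i + 1) := by ring
      _ ≤ n * J * R ^ ((a + t) % n) := Nat.mul_le_mul_left _ (Nat.pow_le_pow_right hR ht.2.1)
  simp only [lab] at h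
  rw [← hc] at h
  have h1 : t - lo ≡ t' - lo [MOD per n J R ((a + t) % n)] := by
    refine Nat.ModEq.add_left_cancel' (a + lo) ?_
    rw [show a + lo + (t - lo) = a + t by omega, show a + lo + (t' - lo) = a + t' by omega]
    exact h
  have h2 := Nat.ModEq.eq_of_lt_of_lt h1 (by omega) (by omega)
  omega

/-- the integer part of the logarithm of the volume -/
theorem good_floor {d u D : ℕ} {g : E d →L[ℝ] E d} {O : E u →L[ℝ] E d} (hO : Iso O) {L : ℝ}
    (hg : BiLip (Real.exp L) g) (hD : L * u ≤ D) : ∃ z ∈ Finset.Icc (-(D : ℤ)) D,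
    Real.exp z ≤ vol (g ∘L O) ∧ vol (g ∘L O) ≤ Real.exp (z + 1) := by
  have h0 : 0 < vol (g ∘L O) := vol_pos (W := g ∘L O) (hg.injective.comp hO.injective)
  have h1 := vol_mono (W := g ∘L O) (W' := O) (Real.exp_pos L).le fun a => (hg (O a)).1
  have h2 := vol_mono (W := O) (W' := g ∘L O) (Real.exp_pos L).le fun a => (hg (O a)).2
  rw [hO.vol_eq, ← Real.exp_nat_mul] at h1 h2
  rw [mul_one, ← Real.log_le_iff_le_exp h0] at h1
  rw [← Real.exp_log h0, ← Real.exp_add, Real.one_le_exp_iff] at h2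
  refine ⟨⌊Real.log (vol (g ∘L O))⌋, Finset.mem_Icc.2 ⟨Int.le_floor.2 ?_, ?_⟩, ?_, ?_⟩
  · push_cast; linarith
  · have h3 : (⌊Real.log (vol (g ∘L O))⌋ : ℝ) ≤ (D : ℤ) := by
      have := Int.floor_le (Real.log (vol (g ∘L O)))
      push_cast; linarith
    exact_mod_cast h3
  · exact (Real.le_log_iff_exp_le h0).1 (Int.floor_le _)
  · exact (Real.log_le_iff_le_exp h0).1 (Int.lt_floor_add_one _).le

section
variable {d C τ n J R V : ℕ} {M : Type} [MeasurableSpace M] {ν : Measure M} {S : M → M}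
  {K : Bool → Set M} {P : M → Bool}

theorem good_meas_chart (Mo : Model M ν S d C K) : Measurable fun x => Mo.φ (Mo.c x) x := by
  intro B hB
  have : (fun x => Mo.φ (Mo.c x) x) ⁻¹' B = ⋃ j, (Mo.c ⁻¹' {j} ∩ Mo.φ j ⁻¹' B) := by
    ext x
    simp
  rw [this]
  exact MeasurableSet.iUnion fun j => (Mo.meas_c (measurableSet_singleton j)).inter (Mo.meas_φ j hB)

theorem good_meas_prod (Mo : Model M ν S d C K) (hS : Measurable S) (m k : ℕ) :
    Measurable fun x => prod (blk Mo.A S m x) 0 k := by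
  simp only [prod_blk]
  exact (Mo.measurable_coc hS _).comp (hS.iterate _)

theorem good_meas_vol (Mo : Model M ν S d C K) (hS : Measurable S) (m k : ℕ) {u : ℕ}
    (O : E u →L[ℝ] E d) : Measurable fun x => vol (prod (blk Mo.A S m x) 0 k ∘L O) :=
  (continuous_vol.comp (continuous_id.clm_comp continuous_const)).measurable.comp
    (good_meas_prod Mo hS m k)

/-- the good points of one type -/
def goodType (Mo : Model M ν S d C K) (Lv : Level ν S P τ n J R V) (u i y Q K' : ℕ) (θ ζ X ε : ℝ)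
    (a : ℕ) (cs : ℕ → Fin Mo.k) (O : E u →L[ℝ] E d) (n₁ n₂ : ℝ) : Set M :=
  {x | Good Mo Lv u i y Q K' θ ζ X ε x ∧ Lv.v x = a ∧
      (∀ t, t ≤ 2 * R ^ y → Mo.c (S^[τ * per n J R i * t] x) = cs t) ∧
      alpha u (prod (blk Mo.A S (τ * per n J R i) x) 0 (2 * R ^ y)) ≤
        (d : ℝ) ^ u * vol (prod (blk Mo.A S (τ * per n J R i) x) 0 (2 * R ^ y) ∘L O) ∧
      (Real.exp n₁ ≤ vol (prod (blk Mo.A S (τ * per n J R i) x) 0 (2 * R ^ y - Q) ∘L O) ∧
        vol (prod (blk Mo.A S (τ * per n J R i) x) 0 (2 * R ^ y - Q) ∘L O) ≤ Real.exp (n₁ + 1)) ∧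
      (Real.exp n₂ ≤ vol (prod (blk Mo.A S (τ * per n J R i) x) 0 (2 * R ^ y) ∘L O) ∧
        vol (prod (blk Mo.A S (τ * per n J R i) x) 0 (2 * R ^ y) ∘L O) ≤ Real.exp (n₂ + 1))}

theorem good_meas_type (Mo : Model M ν S d C K) (Lv : Level ν S P τ n J R V) (hS : Measurable S)
    (hK : ∀ b, MeasurableSet (K b)) (u i y Q K' : ℕ) (θ ζ X ε : ℝ)
    (a : ℕ) (cs : ℕ → Fin Mo.k) (O : E u →L[ℝ] E d) (n₁ n₂ : ℝ) :
    MeasurableSet (goodType Mo Lv u i y Q K' θ ζ X ε a cs O n₁ n₂) := by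
  have h1 : MeasurableSet {x | ∀ t, t ≤ 2 * R ^ y → Mo.c (S^[τ * per n J R i * t] x) = cs t} := by
    simp only [Set.ofPred_forall]
    exact MeasurableSet.iInter fun t => MeasurableSet.iInter fun _ =>
      (Mo.meas_c.comp (hS.iterate _)) (measurableSet_singleton (cs t))
  exact (measurableSet_good Mo Lv hS hK u i y Q K' θ ζ X ε).inter
    ((Lv.meas_v (measurableSet_singleton a)).inter (h1.inter
      ((measurableSet_le ((measurable_alpha u).comp (good_meas_prod Mo hS _ _))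
        ((good_meas_vol Mo hS _ _ O).const_mul _)).inter
      (((measurableSet_le measurable_const (good_meas_vol Mo hS _ _ O)).inter
        (measurableSet_le (good_meas_vol Mo hS _ _ O) measurable_const)).inter
       ((measurableSet_le measurable_const (good_meas_vol Mo hS _ _ O)).inter
        (measurableSet_le (good_meas_vol Mo hS _ _ O) measurable_const))))))

theorem good_num {i y Q K' : ℕ} {θ θ' ζ X ε C₁ : ℝ} (H : Num d C τ n J R V i y Q K' θ θ' ζ X ε C₁) :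
    Real.exp (-(ζ * ((2 * d + 2) * (3 * C * (τ * per n J R i) : ℕ)) * Q)) +
      Real.exp (ζ * ((2 * d + 2) * (3 * C * (τ * per n J R i) : ℕ)) * Q) *
        (Real.exp (-(40 * ζ * ((2 * d + 2) * (3 * C * (τ * per n J R i) : ℕ)) * Q)))⁻¹ ^ (3 * d) *
        Real.exp (-(((Q * (J * R ^ i) * y : ℕ) : ℝ) / 4)) ≤
      2 * Real.exp (-((3 * C * (τ * per n J R i) : ℕ) : ℝ)) := by
  set l : ℝ := ((3 * C * (τ * per n J R i) : ℕ) : ℝ) with hl
  have hl0 : 0 ≤ l := Nat.cast_nonneg _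
  have hd0 : (0 : ℝ) ≤ d := Nat.cast_nonneg _
  set s : ℝ := ζ * ((2 * d + 2) * l) * Q with hs
  have h1 : l ≤ s := by
    have h2 : s = ζ * Q * ((2 * d + 2) * l) := by rw [hs]; ring
    have h3 : l ≤ (2 * d + 2) * l := by nlinarith
    have h4 := mul_le_mul_of_nonneg_right H.hζQ (hl0.trans h3)
    linarith
  have h2 : 4 * (120 * d + 2) * s ≤ ((Q * (J * R ^ i) * y : ℕ) : ℝ) := by
    have h3 := mul_le_mul_of_nonneg_left H.bits
      (Nat.cast_nonneg (α := ℝ) (Q * (J * R ^ i)))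
    rw [hs, hl, per]
    push_cast at h3 ⊢
    refine le_trans (le_of_eq ?_) h3
    ring
  have h3 : 40 * ζ * ((2 * d + 2) * l) * Q = 40 * s := by rw [hs]; ring
  rw [h3, ← Real.exp_neg, neg_neg, ← Real.exp_nat_mul, ← Real.exp_add, ← Real.exp_add, two_mul]
  refine add_le_add (Real.exp_le_exp.2 (by linarith)) (Real.exp_le_exp.2 ?_)
  push_cast at h2 ⊢
  linarith

end

/-- the measure of one type -/
theorem good_type_bound (d C : ℕ) : ∃ C₁ : ℝ, 0 < C₁ ∧ ∀ {τ n J R V : ℕ} {M : Type}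
    [MeasurableSpace M] {ν : Measure M} {S : M → M} {K : Bool → Set M} {P : M → Bool}
    (Mo : Model M ν S d C K) (Lv : Level ν S P τ n J R V) {i y Q K' : ℕ} {θ θ' ζ X ε : ℝ} {u : ℕ},
    Measurable S → Measurable P → (∀ b, MeasurableSet (K b)) → (∀ b, ∀ x ∈ K b, P x = b) →
    Num d C τ n J R V i y Q K' θ θ' ζ X ε C₁ → u ≤ d →
    ∀ (a : ℕ) (cs : ℕ → Fin Mo.k) (O : E u →L[ℝ] E d) (n₁ n₂ : ℝ), Iso O →
    ν (goodType Mo Lv u i y Q K' θ ζ X ε a cs O n₁ n₂) ≤
      ENNReal.ofReal (C₁ * (2 * Real.exp (-((3 * C * (τ * per n J R i) : ℕ) : ℝ)))) := by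
  obtain ⟨C₁, hC₁, hc⟩ := count d C
  refine ⟨C₁, hC₁, fun {τ n J R V M _ ν S K P} Mo Lv {i y Q K' θ θ' ζ X ε u} hS hP hK hPK H hu a cs
    O n₁ n₂ hO => ?_⟩
  rcases (goodType Mo Lv u i y Q K' θ ζ X ε a cs O n₁ n₂).eq_empty_or_nonempty with he | ⟨x₀, hx₀⟩
  · rw [he, measure_empty]
    exact zero_le
  have hR : 0 < R := by have := H.hR; omega
  have hQR : Q ≤ R := Nat.le_of_dvd hR H.hQR
  have hRy : R ≤ R ^ y := Nat.le_self_pow (by have := H.hy; omega) R
  have hQN : Q ≤ 2 * R ^ y := by omega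
  have e1 : 2 * R ^ y * per n J R i = (2 * R ^ y - Q) * per n J R i + Q * per n J R i := by
    rw [← Nat.add_mul, Nat.sub_add_cancel hQN]
  have hcard : (times n i y a ((2 * R ^ y - Q) * per n J R i) (2 * R ^ y * per n J R i)).card =
      Q * (J * R ^ i) * y := by
    have e2 : Q * per n J R i = n * (Q * (J * R ^ i)) := by rw [per]; ring
    rw [e1, e2, card_times H.hiy]
  have hcarry : a + 2 * R ^ y * per n J R i ≤ V := by
    rw [← hx₀.2.1]
    exact hx₀.1.carry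
  have key := hc ν (Mo.ψ (cs 0)) (ζ * ((2 * d + 2) * (3 * C * (τ * per n J R i) : ℕ)) * Q)
    (good_typ Mo Lv hPK H hu (Y := goodType Mo Lv u i y Q K' θ ζ X ε a cs O n₁ n₂) a cs hO n₁ n₂
      fun x hx => hx)
    (good_meas_type Mo Lv hS hK u i y Q K' θ ζ X ε a cs O n₁ n₂) (Mo.meas_ψ _)
    ((good_meas_chart Mo).comp (hS.iterate _))
    (measurable_pi_lambda _ fun t => hP.comp (hS.iterate _)) ?_ ?_ ?_
  · rw [Fintype.card_coe, hcard] at key
    exact key.trans (ENNReal.ofReal_le_ofReal (mul_le_mul_of_nonneg_left (good_num H) hC₁.le))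
  · intro x hx
    have h1 := hx.2.2.1 0 (Nat.zero_le _)
    simp only [Nat.mul_zero, iterate_zero, id_eq] at h1 ⊢
    rw [← h1, Mo.inv]
  · intro B hB
    refine le_trans (measure_mono fun x hx => ?_) (Mo.dens (cs 0) B hB)
    have h1 := hx.1.2.2.1 0 (Nat.zero_le _)
    have h2 := hx.2
    simp only [Nat.mul_zero, iterate_zero, id_eq] at h1 h2
    exact ⟨h1, h1 ▸ h2⟩
  · intro ω
    rw [Fintype.card_coe]
    refine le_trans (measure_mono fun x hx => ?_) (Lv.indep a _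
      (fun t => if h : t ∈ times n i y a ((2 * R ^ y - Q) * per n J R i) (2 * R ^ y * per n J R i)
        then ω ⟨t, h⟩ else false) (fun t ht => ?_) ?_)
    · refine ⟨hx.1.2.1, fun t ht => ?_⟩
      rw [dif_pos ht]
      exact congrFun hx.2 ⟨t, ht⟩
    · have := (Finset.mem_Ico.1 (Finset.mem_filter.1 ht).1).2
      omega
    · rw [e1]
      exact good_injOn hR (Nat.mul_le_mul_right _ hQR)

/-- The good set is covered by at most `V C ^ (N + 1) (d + 1) ^ d (2 d l N + 1)²` measurable types (`exists_frames`; `n₁, n₂` are integers in `[-d l N, d l N]`).  For each type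
`count` with `s = ζ Λ Q` gives the bound `2 C₁ exp (-ζ Λ Q) ≤ 2 C₁ exp (-l)` (`bits`: `(120 d + 2) ζ Λ Q ≤ #I / 4`).  The labels of the times in `I` are distinct (equal labels
have equal classes `c`, and `per c > Q u₀`), so `Level.indep` applies. -/
theorem good_bound (d C : ℕ) : ∃ C₁ : ℝ, 0 < C₁ ∧ ∀ {τ n J R V : ℕ} {M : Type} [MeasurableSpace M] {ν : Measure M}
    [IsProbabilityMeasure ν] {S : M → M} {K : Bool → Set M} {P : M → Bool} (Mo : Model M ν S d C K)
    (Lv : Level ν S P τ n J R V) {i y Q K' : ℕ} {θ θ' ζ X ε : ℝ} {u : ℕ}, Measurable S → Measurable P →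
    (∀ b, MeasurableSet (K b)) → (∀ b, ∀ x ∈ K b, P x = b) → Num d C τ n J R V i y Q K' θ θ' ζ X ε C₁ → u ≤ d →
    ν.real {x | Good Mo Lv u i y Q K' θ ζ X ε x} ≤ ε := by
  obtain ⟨C₁, hC₁, hc⟩ := good_type_bound d C
  refine ⟨C₁, hC₁, fun {τ n J R V M _ ν _ S K P} Mo Lv {i y Q K' θ θ' ζ X ε u} hS hP hK hPK H hu =>
    ?_⟩
  classical
  obtain ⟨fr, hfr, hfr'⟩ := exists_frames (k := u) hu
  obtain ⟨l, hl⟩ : ∃ l, l = 3 * C * (τ * per n J R i) := ⟨_, rfl⟩
  obtain ⟨N, hN⟩ : ∃ N, N = 2 * R ^ y := ⟨_, rfl⟩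
  let ext : (Fin (N + 1) → Fin Mo.k) → ℕ → Fin Mo.k := fun cs t =>
    cs ⟨min t N, Nat.lt_succ_of_le (min_le_right _ _)⟩
  let Z : Finset ℤ := Finset.Icc (-((d * l * N : ℕ) : ℤ)) (d * l * N : ℕ)
  let s : Finset (ℕ × (Fin (N + 1) → Fin Mo.k) × (Fin u → Fin d) × ℤ × ℤ) :=
    range V ×ˢ univ ×ˢ univ ×ˢ Z ×ˢ Z
  have hsub : {x | Good Mo Lv u i y Q K' θ ζ X ε x} ⊆ ⋃ p ∈ s,
      goodType Mo Lv u i y Q K' θ ζ X ε p.1 (ext p.2.1) (fr p.2.2.1) p.2.2.2.1 p.2.2.2.2 := by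
    intro x hx
    obtain ⟨T, hT⟩ := hfr' (prod (blk Mo.A S (τ * per n J R i) x) 0 (2 * R ^ y))
    have hb : ∀ k, k ≤ N → ∃ z ∈ Z, Real.exp z ≤
        vol (prod (blk Mo.A S (τ * per n J R i) x) 0 k ∘L fr T) ∧
        vol (prod (blk Mo.A S (τ * per n J R i) x) 0 k ∘L fr T) ≤ Real.exp (z + 1) := by
      intro k hk
      have h1 : BiLip (Real.exp (l : ℝ) ^ k) (prod (blk Mo.A S (τ * per n J R i) x) 0 k) :=
        bilip_prod (Real.exp_pos _).le fun t _ _ => by rw [hl]; exact Mo.bilip_coc_exp _ _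
      rw [← Real.exp_nat_mul] at h1
      refine good_floor (hfr T) h1 ?_
      have h2 : k * l * u ≤ d * l * N := by
        calc k * l * u ≤ N * l * d := Nat.mul_le_mul (Nat.mul_le_mul_right _ hk) hu
          _ = d * l * N := by ring
      exact_mod_cast h2
    obtain ⟨z₁, hz₁, h₁⟩ := hb (2 * R ^ y - Q) (by omega)
    obtain ⟨z₂, hz₂, h₂⟩ := hb (2 * R ^ y) hN.ge
    refine Set.mem_iUnion₂.2 ⟨(Lv.v x, fun t => Mo.c (S^[τ * per n J R i * t] x), T, z₁, z₂),
      ?_, hx, rfl, fun t ht => ?_, hT, h₁, h₂⟩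
    · exact mem_product.2 ⟨mem_range.2 (Lv.lt x), mem_product.2 ⟨mem_univ _,
        mem_product.2 ⟨mem_univ _, mem_product.2 ⟨hz₁, hz₂⟩⟩⟩⟩
    · simp only [ext, min_eq_left (hN ▸ ht : t ≤ N)]
  have hcard : (s.card : ℝ) ≤ (V : ℝ) * C ^ (N + 1) * (d + 1) ^ d * (2 * d * l * N + 1) ^ 2 := by
    have h1 : Z.card = 2 * d * l * N + 1 := by
      rw [Int.card_Icc, show 2 * d * l * N = 2 * (d * l * N) by ring]
      omega
    have h2 : s.card ≤ V * C ^ (N + 1) * (d + 1) ^ d * (2 * d * l * N + 1) ^ 2 := by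
      simp only [s, card_product, card_range, card_univ, Fintype.card_fun, Fintype.card_fin, h1]
      have h3 : Mo.k ^ (N + 1) ≤ C ^ (N + 1) := Nat.pow_le_pow_left Mo.k_le _
      have h4 : d ^ u ≤ (d + 1) ^ d :=
        (Nat.pow_le_pow_left (Nat.le_succ d) u).trans (Nat.pow_le_pow_right (Nat.succ_pos d) hu)
      calc V * (Mo.k ^ (N + 1) * (d ^ u * ((2 * d * l * N + 1) * (2 * d * l * N + 1))))
          ≤ V * (C ^ (N + 1) * ((d + 1) ^ d * ((2 * d * l * N + 1) * (2 * d * l * N + 1)))) :=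
            Nat.mul_le_mul_left _ (Nat.mul_le_mul h3 (Nat.mul_le_mul_right _ h4))
        _ = _ := by ring
    exact_mod_cast h2
  have hb0 : 0 ≤ C₁ * (2 * Real.exp (-(l : ℝ))) := by positivity
  have h1 : ν {x | Good Mo Lv u i y Q K' θ ζ X ε x} ≤
      ENNReal.ofReal (s.card * (C₁ * (2 * Real.exp (-(l : ℝ))))) := by
    refine (measure_mono hsub).trans ((measure_biUnion_finset_le _ _).trans ?_)
    refine (sum_le_card_nsmul _ _ _ fun p _ => hc Mo Lv hS hP hK hPK H hu _ _ _ _ _ (hfr _)).trans ?_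
    rw [← hl, nsmul_eq_mul, ENNReal.ofReal_mul (Nat.cast_nonneg _), ENNReal.ofReal_natCast]
  refine (ENNReal.toReal_le_of_le_ofReal (by positivity) h1).trans ?_
  have h2 := H.types
  rw [← hl, ← hN] at h2
  have h3 := mul_le_mul_of_nonneg_right h2 (Real.exp_pos (-(l : ℝ))).le
  rw [mul_assoc ε, ← Real.exp_add, add_neg_cancel, Real.exp_zero, mul_one] at h3
  refine (mul_le_mul_of_nonneg_right hcard hb0).trans (le_trans (le_of_eq ?_) h3)
  ring

end Crest.Agent.R133
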