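import Crest.Agent.R133.Loss
import Crest.Agent.R133.Count
import Crest.Agent.R133.Block

/-! Row 133: the good points for one group of classes have small measure. -/

set_option autoImplicit false

namespace Crest.Agent.R133

open MeasureTheory Finset Metric Function

/-- The numerical hypotheses for the base class `i` and the group `[i + 1, i + y]`.  Blocks have `u₀ = per n J R i` units of `τ` steps. -/
structure Num (d C τ n J R V i y Q K : ℕ) (θ θ' ζ X ε C₁ : ℝ) : Prop where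
  hτ : 1 ≤ τ
  hJ : 1 ≤ J
  hy : 1 ≤ y
  hiy : i + y < n
  hQ : 0 < Q
  hQR : Q ∣ R
  hR : 4 ≤ R
  hKR : 2 * (K ^ 2 * Q) ≤ R
  hε : 0 < ε
  hε1 : ε ≤ 1 / 80
  hX : 0 < X
  hX1 : X ≤ 1
  hζ : 0 < ζ
  hζX : 2 * ζ ≤ X
  hζQ : 10 ≤ ζ * Q
  hK : 16 ≤ ε * X / 4 * K
  hθ : 0 < θ
  hθK : 48 * θ * K ≤ ε * X / 4
  hθ' : 0 < θ'
  hθ'K : θ' * K ^ 2 ≤ ζ
  bits : ζ * (4 * (120 * d + 2) * ((2 * d + 2) * (3 * C)) * τ) * n ≤ y
  hl : (d : ℝ) ^ 2 + d + 1 ≤ (3 * C * (τ * per n J R i) : ℕ)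
  small : 800 * ((d : ℝ) + 1) * ((2 * R ^ y : ℕ) + 1) ^ 2 ≤ Real.exp (3 * C * (τ * per n J R i) : ℕ)
  types : (V : ℝ) * C ^ (2 * R ^ y + 1) * (d + 1) ^ d * (2 * d * (3 * C * (τ * per n J R i) : ℕ) * (2 * R ^ y : ℕ) + 1) ^ 2 *
    (2 * C₁) ≤ ε * Real.exp (3 * C * (τ * per n J R i) : ℕ)
  safe : ((τ * per n J R i * (2 * R ^ y) : ℕ) : ℝ) * C ≤ ε * Real.exp (3 * C * (τ * per n J R i) : ℕ)
  carry : ((2 * R ^ y * per n J R i : ℕ) : ℝ) ≤ ε * V

variable {d C τ n J R V : ℕ} {M : Type} [MeasurableSpace M] {ν : Measure M} {S : M → M} {K : Bool → Set M}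
  {P : M → Bool}

open Classical in
/-- good points; `m = τ * per n J R i`, `l = 3 C m`, `Λ = (2 d + 2) l`, `N = 2 R ^ y` -/
structure Good (Mo : Model M ν S d C K) (Lv : Level ν S P τ n J R V) (u i y Q K' : ℕ) (θ ζ X ε : ℝ) (x : M) : Prop where
  safe : ∀ s, s < τ * per n J R i * (2 * R ^ y) → S^[s] x ∉ Mo.U (Real.exp (-((3 * C * (τ * per n J R i) : ℕ) : ℝ)))
  good : x ∈ Lv.good
  carry : Lv.v x + 2 * R ^ y * per n J R i ≤ V
  fut : (#{t ∈ times n i y (Lv.v x) ((2 * R ^ y - Q) * per n J R i) (2 * R ^ y * per n J R i) |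
      S^[τ * t] x ∉ K true ∪ K false} : ℝ) ≤ ε * (Q * (J * R ^ i) * y : ℕ)
  pst : (#{t ∈ times n i y (Lv.v x) ((2 * R ^ y - Q) * per n J R i) (2 * R ^ y * per n J R i) |
      S^[τ * (t - per n J R ((Lv.v x + t) % n))] x ∉ K true ∪ K false} : ℝ) ≤ ε * (Q * (J * R ^ i) * y : ℕ)
  dfc1 : ∀ k, 1 ≤ k → k ≤ 2 * R ^ y →
    dfc ((2 * d + 2) * (3 * C * (τ * per n J R i) : ℕ)) (blk Mo.A S (τ * per n J R i) x) (2 * R ^ y - k) k ≤
      θ * ((2 * d + 2) * (3 * C * (τ * per n J R i) : ℕ)) * k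
  dfc2 : dfc ((2 * d + 2) * (3 * C * (τ * per n J R i) : ℕ)) (blk Mo.A S (τ * per n J R i) x) (2 * R ^ y - K' ^ 2 * Q)
      (K' ^ 2 * Q) ≤ ζ * ((2 * d + 2) * (3 * C * (τ * per n J R i) : ℕ)) * Q
  freq : ∀ q, 1 ≤ q → q * Q ≤ 2 * R ^ y → ε * q ≤ #{q' ∈ range q |
    Gap u X ζ ((2 * d + 2) * (3 * C * (τ * per n J R i) : ℕ) * Q)
      (prod (blk Mo.A S (τ * per n J R i) x) (2 * R ^ y - (q' + 1) * Q) Q)}

/-- every block of `n` consecutive times contains `y` times with a class in `[i + 1, i + y]` -/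
theorem card_times {i y : ℕ} (hiy : i + y < n) (a lo w : ℕ) : (times n i y a lo (lo + n * w)).card = w * y := by
  have block : ∀ b, (times n i y a b (b + n)).card = y := by
    intro b
    have e : Ico (a + b) (a + b + n) = (Ico b (b + n)).map (addLeftEmbedding a) := by
      rw [Finset.map_add_left_Ico]
      congr 1 <;> ring
    have h1 := Nat.filter_Ico_card_eq_of_periodic (a + b) n
      (fun s => i + 1 ≤ s % n ∧ s % n ≤ i + y) (fun s => by simp)
    rw [e, Finset.filter_map, Finset.card_map, Nat.count_eq_card_filter_range] at h1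
    have h2 : (range n).filter (fun s => i + 1 ≤ s % n ∧ s % n ≤ i + y) = Icc (i + 1) (i + y) := by
      ext s
      simp only [Finset.mem_filter, Finset.mem_range, Finset.mem_Icc]
      constructor
      · rintro ⟨h, h'⟩
        rwa [Nat.mod_eq_of_lt h] at h'
      · intro h
        have hs : s < n := by omega
        rw [Nat.mod_eq_of_lt hs]
        exact ⟨hs, h⟩
    rw [h2, Nat.card_Icc] at h1
    exact h1.trans (by omega)
  induction w with
  | zero => simp [times]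
  | succ w ih =>
    have e : times n i y a lo (lo + n * (w + 1)) =
        times n i y a lo (lo + n * w) ∪ times n i y a (lo + n * w) (lo + n * w + n) := by
      unfold times
      rw [← Finset.filter_union, Finset.Ico_union_Ico_eq_Ico (by omega) (by omega), mul_add, mul_one,
        add_assoc]
    rw [e, Finset.card_union_of_disjoint, ih, block, add_mul, one_mul]
    unfold times
    exact Finset.disjoint_filter_filter (Finset.Ico_disjoint_Ico_consecutive _ _ _)

theorem gooda_measurableSet_dep {M : Type} [MeasurableSpace M] {v : M → ℕ} (hv : Measurable v)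
    {p : ℕ → M → Prop} (hp : ∀ a, MeasurableSet {x | p a x}) : MeasurableSet {x | p (v x) x} := by
  have e : {x | p (v x) x} = ⋃ a, v ⁻¹' {a} ∩ {x | p a x} := by
    ext x
    simp
  rw [e]
  exact MeasurableSet.iUnion fun a => (hv (measurableSet_singleton a)).inter (hp a)

theorem gooda_measurable_card {M : Type} [MeasurableSpace M] (I : Finset ℕ) {p : ℕ → M → Prop}
    [∀ x, DecidablePred fun t => p t x] (hp : ∀ t, MeasurableSet {x | p t x}) :
    Measurable fun x => (#{t ∈ I | p t x} : ℝ) := by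
  have e : (fun x => (#{t ∈ I | p t x} : ℝ)) = fun x => ∑ t ∈ I, if p t x then (1 : ℝ) else 0 := by
    funext x
    rw [Finset.card_filter]
    push_cast
    rfl
  rw [e]
  exact Finset.measurable_sum _ fun t _ => Measurable.ite (hp t) measurable_const measurable_const

theorem gooda_measurableSet_forall {M : Type} [MeasurableSpace M] {q : ℕ → Prop} {p : ℕ → M → Prop}
    (hp : ∀ t, MeasurableSet {x | p t x}) : MeasurableSet {x | ∀ t, q t → p t x} := by
  have e : {x | ∀ t, q t → p t x} = ⋂ t, ⋂ _ : q t, {x | p t x} := by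
    ext x
    simp
  rw [e]
  exact MeasurableSet.iInter fun t => MeasurableSet.iInter fun _ => hp t

/-- finite intersections and unions over the values of `Lv.v` -/
theorem measurableSet_good (Mo : Model M ν S d C K) (Lv : Level ν S P τ n J R V) (hS : Measurable S)
    (hK : ∀ b, MeasurableSet (K b)) (u i y Q K' : ℕ) (θ ζ X ε : ℝ) :
    MeasurableSet {x | Good Mo Lv u i y Q K' θ ζ X ε x} := by
  classical
  have hKK : ∀ s, MeasurableSet {x | S^[s] x ∉ K true ∪ K false} := fun s =>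
    hS.iterate s ((hK true).union (hK false)).compl
  have h1 : MeasurableSet {x | ∀ s, s < τ * per n J R i * (2 * R ^ y) →
      S^[s] x ∉ Mo.U (Real.exp (-((3 * C * (τ * per n J R i) : ℕ) : ℝ)))} :=
    gooda_measurableSet_forall fun s => hS.iterate s (Mo.meas_U _).compl
  have h3 : MeasurableSet {x | Lv.v x + 2 * R ^ y * per n J R i ≤ V} :=
    Lv.meas_v (t := {a | a + 2 * R ^ y * per n J R i ≤ V}) trivial
  have h4 : MeasurableSet {x | (#{t ∈ times n i y (Lv.v x) ((2 * R ^ y - Q) * per n J R i)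
      (2 * R ^ y * per n J R i) | S^[τ * t] x ∉ K true ∪ K false} : ℝ) ≤
        ε * (Q * (J * R ^ i) * y : ℕ)} :=
    gooda_measurableSet_dep Lv.meas_v
      (p := fun a x => (#{t ∈ times n i y a ((2 * R ^ y - Q) * per n J R i)
        (2 * R ^ y * per n J R i) | S^[τ * t] x ∉ K true ∪ K false} : ℝ) ≤
          ε * (Q * (J * R ^ i) * y : ℕ))
      fun a => measurableSet_le (gooda_measurable_card _ fun t => hKK _) measurable_const
  have h5 : MeasurableSet {x | (#{t ∈ times n i y (Lv.v x) ((2 * R ^ y - Q) * per n J R i)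
      (2 * R ^ y * per n J R i) |
        S^[τ * (t - per n J R ((Lv.v x + t) % n))] x ∉ K true ∪ K false} : ℝ) ≤
        ε * (Q * (J * R ^ i) * y : ℕ)} :=
    gooda_measurableSet_dep Lv.meas_v
      (p := fun a x => (#{t ∈ times n i y a ((2 * R ^ y - Q) * per n J R i)
        (2 * R ^ y * per n J R i) |
          S^[τ * (t - per n J R ((a + t) % n))] x ∉ K true ∪ K false} : ℝ) ≤
          ε * (Q * (J * R ^ i) * y : ℕ))
      fun a => measurableSet_le (gooda_measurable_card _ fun t => hKK _) measurable_const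
  have h6 : MeasurableSet {x | ∀ k, (1 ≤ k ∧ k ≤ 2 * R ^ y) →
      dfc ((2 * d + 2) * (3 * C * (τ * per n J R i) : ℕ)) (blk Mo.A S (τ * per n J R i) x)
        (2 * R ^ y - k) k ≤ θ * ((2 * d + 2) * (3 * C * (τ * per n J R i) : ℕ)) * k} :=
    gooda_measurableSet_forall fun k =>
      measurableSet_le (Mo.measurable_dfc hS _ _ _ _) measurable_const
  have h7 : MeasurableSet {x | dfc ((2 * d + 2) * (3 * C * (τ * per n J R i) : ℕ))
      (blk Mo.A S (τ * per n J R i) x) (2 * R ^ y - K' ^ 2 * Q) (K' ^ 2 * Q) ≤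
        ζ * ((2 * d + 2) * (3 * C * (τ * per n J R i) : ℕ)) * Q} :=
    measurableSet_le (Mo.measurable_dfc hS _ _ _ _) measurable_const
  have hG : ∀ q', MeasurableSet {x | Gap u X ζ ((2 * d + 2) * (3 * C * (τ * per n J R i) : ℕ) * Q)
      (prod (blk Mo.A S (τ * per n J R i) x) (2 * R ^ y - (q' + 1) * Q) Q)} := by
    intro q'
    simp only [prod_blk]
    exact ((Mo.measurable_coc hS _).comp (hS.iterate _)) (measurableSet_gap u X ζ _)
  have h8 : MeasurableSet {x | ∀ q, (1 ≤ q ∧ q * Q ≤ 2 * R ^ y) → ε * q ≤ #{q' ∈ range q |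
      Gap u X ζ ((2 * d + 2) * (3 * C * (τ * per n J R i) : ℕ) * Q)
        (prod (blk Mo.A S (τ * per n J R i) x) (2 * R ^ y - (q' + 1) * Q) Q)}} :=
    gooda_measurableSet_forall fun q =>
      measurableSet_le measurable_const (gooda_measurable_card _ hG)
  convert ((((((h1.inter Lv.meas_good).inter h3).inter h4).inter h5).inter h6).inter h7).inter h8
    using 1
  ext x
  simp only [Set.mem_inter_iff, Set.mem_setOf_eq]
  constructor
  · intro h
    exact ⟨⟨⟨⟨⟨⟨⟨h.safe, h.good⟩, h.carry⟩, by convert h.fut⟩, by convert h.pst⟩,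
      fun k hk => h.dfc1 k hk.1 hk.2⟩, h.dfc2⟩, fun q hq => by convert h.freq q hq.1 hq.2⟩
  · rintro ⟨⟨⟨⟨⟨⟨⟨a1, a2⟩, a3⟩, a4⟩, a5⟩, a6⟩, a7⟩, a8⟩
    exact ⟨a1, a2, a3, by convert a4, by convert a5, fun k k1 k2 => a6 k ⟨k1, k2⟩, a7,
      fun q q1 q2 => by convert a8 q ⟨q1, q2⟩⟩

variable {i y Q K' : ℕ} {θ θ' ζ X ε C₁ : ℝ}

/-- Decoding.  Let `x, x'` have the same chart at the block time `t`, with coordinates at distance `< r / C ^ m`; then `S^[m t] x' = ψ (φ (S^[m t] x'))` and `Model.block`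
shows that for `s < m`, if both `S^[m t + s] x` and `S^[m t + s] x'` are in `K true ∪ K false` then they have the same `P`. -/
theorem Model.same_bit (Mo : Model M ν S d C K) (hP : ∀ b, ∀ x ∈ K b, P x = b) {m : ℕ} (hm : 1 ≤ m) {r : ℝ} (hr : 0 < r)
    (hrC : r * C ≤ 1) {x x' : M} (hx : ∀ s, s < m → S^[s] x ∉ Mo.U r) (hc : Mo.c x' = Mo.c x)
    (hd : ‖Mo.φ (Mo.c x) x - Mo.φ (Mo.c x) x'‖ < r / (C : ℝ) ^ m) {s : ℕ} (hs : s < m)
    (h1 : S^[s] x ∈ K true ∪ K false) (h2 : S^[s] x' ∈ K true ∪ K false) : P (S^[s] x) = P (S^[s] x') := by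
  obtain ⟨F', hF⟩ := Mo.block hm hr hrC hx
  have hv : Mo.φ (Mo.c x) x' ∈ ball (Mo.φ (Mo.c x) x) (r / (C : ℝ) ^ m) := by
    rw [mem_ball, dist_comm, dist_eq_norm]
    exact hd
  have e : Mo.ψ (Mo.c x) (Mo.φ (Mo.c x) x') = x' := by
    rw [← hc]
    exact Mo.inv x'
  have key := (hF _ hv).2.2 s hs
  rw [e] at key
  rcases h1 with h1 | h1 <;> rcases h2 with h2 | h2
  · rw [hP _ _ h1, hP _ _ h2]
  · exact absurd h2 (key true h1)
  · exact absurd h2 (key false h1)
  · rw [hP _ _ h1, hP _ _ h2]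

end Crest.Agent.R133
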