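import Crest.Agent.R133.GoodA

/-! Row 133: the good points for one group of classes have small measure. -/

set_option autoImplicit false

namespace Crest.Agent.R133

open MeasureTheory Finset Metric Function

variable {d C τ n J R V : ℕ} {M : Type} [MeasurableSpace M] {ν : Measure M} {S : M → M} {K : Bool → Set M}
  {P : M → Bool} {i y Q K' : ℕ} {θ θ' ζ X ε C₁ : ℝ}

theorem goodb_hamming (I : Finset ℕ) (f g : ℕ → Bool) (p p' : ℕ → Prop) [DecidablePred p] [DecidablePred p']
    (h : ∀ t ∈ I, ¬ p t → ¬ p' t → f t = g t) :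
    hammingDist (fun t : ↥I => f t) (fun t : ↥I => g t) ≤ #{t ∈ I | p t} + #{t ∈ I | p' t} := by
  classical
  unfold hammingDist
  refine le_trans ?_ (Finset.card_union_le _ _)
  refine Finset.card_le_card_of_injOn (fun t : ↥I => (t : ℕ)) ?_ (fun a _ b _ hab => Subtype.ext hab)
  intro t ht
  simp only [Finset.coe_filter, mem_univ, true_and, Set.mem_ofPred_eq] at ht
  simp only [Finset.coe_union, Finset.coe_filter, Set.mem_union, Set.mem_ofPred_eq]
  by_contra hc
  push Not at hc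
  exact ht (h t t.2 (hc.1 t.2) (hc.2 t.2))

theorem goodb_prof_le {Λ ζ θ : ℝ} (hΛ : 0 ≤ Λ) (hθ : 0 ≤ θ) (N Q K s : ℕ) :
    prof Λ ζ θ N Q K s ≤ Real.exp (-(20 * ζ * Λ * Q)) := by
  unfold prof
  apply Real.exp_le_exp.2
  split_ifs
  · simp
  · have : 0 ≤ 16 * θ * K * Λ * ((N - s : ℕ) : ℝ) := by positivity
    linarith

theorem goodb_pow_le (C m : ℕ) : (C : ℝ) ^ m ≤ Real.exp (C * m) := by
  rw [mul_comm, Real.exp_nat_mul]
  exact pow_le_pow_left₀ (Nat.cast_nonneg _) (by linarith [Real.add_one_le_exp (C : ℝ)]) m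

/-- The good points of a given type (value `a` of `v`, charts `cs t` at the block times, frame `O`, volumes `n₁, n₂`).  `L = exp l`, `r = prof …`, `h = 2 ε #I`.
`near`: `Model.block` with the radius `exp (-l)`, `8 r t ≤ exp (-2 l) ≤ exp (-l) / C ^ m`, `m C ^ (2 m) ≤ exp l`.  `reg`: `Win.reg`.  `future`: `same_bit` for the block containing `t`.
`past`: for `t ∈ I` of class `c`, `u₀ Q < per c ≤ R ^ y u₀ ≤ (N - Q) u₀`, `n ∣ per c`, so `t - per c` is a time before `(N - Q) u₀` with the same label, and `Level.same` applies. -/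
theorem good_typ (Mo : Model M ν S d C K) (Lv : Level ν S P τ n J R V) (hP : ∀ b, ∀ x ∈ K b, P x = b)
    (H : Num d C τ n J R V i y Q K' θ θ' ζ X ε C₁) {u : ℕ} (hu : u ≤ d) {Y : Set M} (a : ℕ) (cs : ℕ → Fin Mo.k)
    {O : E u →L[ℝ] E d} (hO : Iso O) (n₁ n₂ : ℝ)
    (hY : ∀ x ∈ Y, Good Mo Lv u i y Q K' θ ζ X ε x ∧ Lv.v x = a ∧
      (∀ t, t ≤ 2 * R ^ y → Mo.c (S^[τ * per n J R i * t] x) = cs t) ∧
      alpha u (prod (blk Mo.A S (τ * per n J R i) x) 0 (2 * R ^ y)) ≤
        (d : ℝ) ^ u * vol (prod (blk Mo.A S (τ * per n J R i) x) 0 (2 * R ^ y) ∘L O) ∧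
      (Real.exp n₁ ≤ vol (prod (blk Mo.A S (τ * per n J R i) x) 0 (2 * R ^ y - Q) ∘L O) ∧
        vol (prod (blk Mo.A S (τ * per n J R i) x) 0 (2 * R ^ y - Q) ∘L O) ≤ Real.exp (n₁ + 1)) ∧
      (Real.exp n₂ ≤ vol (prod (blk Mo.A S (τ * per n J R i) x) 0 (2 * R ^ y) ∘L O) ∧
        vol (prod (blk Mo.A S (τ * per n J R i) x) 0 (2 * R ^ y) ∘L O) ≤ Real.exp (n₂ + 1))) :
    Typ C Y O (2 * R ^ y) (2 * R ^ y - Q)
      (fun t w => Mo.φ (cs (t + 1)) (S^[τ * per n J R i] (Mo.ψ (cs t) w)))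
      (fun x t => Mo.φ (Mo.c (S^[τ * per n J R i * t] x)) (S^[τ * per n J R i * t] x))
      (blk Mo.A S (τ * per n J R i))
      (prof ((2 * d + 2) * (3 * C * (τ * per n J R i) : ℕ)) ζ θ (2 * R ^ y) Q K')
      (Real.exp (-(40 * ζ * ((2 * d + 2) * (3 * C * (τ * per n J R i) : ℕ)) * Q)))
      (Real.exp (-(8 * ζ * ((2 * d + 2) * (3 * C * (τ * per n J R i) : ℕ)) * Q)))
      (Real.exp (3 * C * (τ * per n J R i) : ℕ)) n₁ n₂ (2 * ε * (Q * (J * R ^ i) * y : ℕ))
      (fun x (t : ↥(times n i y a ((2 * R ^ y - Q) * per n J R i) (2 * R ^ y * per n J R i))) => P (S^[τ * t] x)) := by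
  classical
  have hC := Mo.one_le
  have hn : 0 < n := by have := H.hiy; omega
  have hR : 0 < R := by have := H.hR; omega
  have hJ : 0 < J := H.hJ
  have hu₀ : 0 < per n J R i := by unfold per; positivity
  have hτ : 0 < τ := H.hτ
  set u₀ := per n J R i with hu₀def
  set m := τ * u₀ with hmdef
  have hm : 1 ≤ m := Nat.mul_pos hτ hu₀
  set l : ℝ := ((3 * C * m : ℕ) : ℝ) with hldef
  set Λ : ℝ := (2 * d + 2) * l with hΛdef
  set N := 2 * R ^ y with hNdef
  have hC' : (1 : ℝ) ≤ C := by exact_mod_cast hC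
  have hm' : (1 : ℝ) ≤ m := by exact_mod_cast hm
  have hl : l = 3 * C * m := by rw [hldef]; push_cast; ring
  have hCm : (1 : ℝ) ≤ C * m := by nlinarith
  have hl1 : 3 ≤ l := by rw [hl]; nlinarith
  have hd0 : (0 : ℝ) ≤ d := Nat.cast_nonneg _
  have hΛl : 2 * l ≤ Λ := by rw [hΛdef]; nlinarith
  have hΛ0 : 0 ≤ Λ := by linarith
  have hζΛQ : 20 * l ≤ ζ * Λ * Q := by
    have := H.hζQ
    nlinarith
  have hRy : R ≤ R ^ y := Nat.le_self_pow (by have := H.hy; omega) R
  have hK1 : 1 ≤ K' := by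
    rcases Nat.eq_zero_or_pos K' with h | h
    · have := H.hK; rw [h] at this; norm_num at this
    · exact h
  have hQR : Q ≤ R := Nat.le_of_dvd hR H.hQR
  have hQN : Q ≤ N := by omega
  have hr : ∀ t, prof Λ ζ θ N Q K' t ≤ Real.exp (-(400 * l)) := fun t =>
    (goodb_prof_le hΛ0 H.hθ.le N Q K' t).trans (Real.exp_le_exp.2 (by nlinarith))
  have hrpos : ∀ t, 0 < prof Λ ζ θ N Q K' t := fun t => Real.exp_pos _
  have hrad : ∀ t, 8 * prof Λ ζ θ N Q K' t < Real.exp (-l) / (C : ℝ) ^ m := fun t => by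
    rw [lt_div_iff₀ (by positivity)]
    have h1 : (C : ℝ) ^ m ≤ Real.exp l := (goodb_pow_le C m).trans (Real.exp_le_exp.2 (by rw [hl]; nlinarith))
    have h2 : (8 : ℝ) < Real.exp (398 * l) := by linarith [Real.add_one_le_exp (398 * l)]
    calc 8 * prof Λ ζ θ N Q K' t * (C : ℝ) ^ m ≤ 8 * Real.exp (-(400 * l)) * Real.exp l := by
          gcongr
          exact hr t
      _ < Real.exp (398 * l) * Real.exp (-(400 * l)) * Real.exp l := by gcongr
      _ = Real.exp (-l) := by rw [← Real.exp_add, ← Real.exp_add]; congr 1; ring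
  have hrC : Real.exp (-l) * C ≤ 1 := by
    have h1 : (C : ℝ) ≤ Real.exp l := by
      have := Real.add_one_le_exp l
      have : (C : ℝ) ≤ l := by rw [hl]; nlinarith
      linarith
    calc Real.exp (-l) * C ≤ Real.exp (-l) * Real.exp l := by gcongr
      _ = 1 := by rw [← Real.exp_add]; simp
  have hsafe : ∀ x ∈ Y, ∀ t, t < N → ∀ s, s < m → S^[s] (S^[m * t] x) ∉ Mo.U (Real.exp (-l)) := by
    intro x hx t ht s hs
    rw [← Function.iterate_add_apply]
    refine (hY x hx).1.safe _ ?_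
    calc s + m * t < m + m * t := by omega
      _ = m * (t + 1) := by ring
      _ ≤ m * N := Nat.mul_le_mul_left _ ht
  have hbit : ∀ x ∈ Y, ∀ x' ∈ Y, ∀ w, w < N * u₀ →
      ‖Mo.φ (Mo.c (S^[m * (w / u₀)] x)) (S^[m * (w / u₀)] x) -
        Mo.φ (Mo.c (S^[m * (w / u₀)] x')) (S^[m * (w / u₀)] x')‖ ≤ 2 * prof Λ ζ θ N Q K' (w / u₀) →
      S^[τ * w] x ∈ K true ∪ K false → S^[τ * w] x' ∈ K true ∪ K false → P (S^[τ * w] x) = P (S^[τ * w] x') := by
    intro x hx x' hx' w hw hd h1 h2
    have ht : w / u₀ < N := (Nat.div_lt_iff_lt_mul hu₀).2 hw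
    have e : τ * w = τ * (w % u₀) + m * (w / u₀) := by
      conv_lhs => rw [← Nat.mod_add_div w u₀]
      rw [hmdef]; ring
    have hs : τ * (w % u₀) < m := Nat.mul_lt_mul_of_pos_left (Nat.mod_lt _ hu₀) hτ
    rw [e, Function.iterate_add_apply] at h1 h2
    rw [e, Function.iterate_add_apply, Function.iterate_add_apply]
    have hc : Mo.c (S^[m * (w / u₀)] x') = Mo.c (S^[m * (w / u₀)] x) := by
      rw [(hY x hx).2.2.1 _ ht.le, (hY x' hx').2.2.1 _ ht.le]
    refine Mo.same_bit hP hm (Real.exp_pos _) hrC (hsafe x hx _ ht) hc ?_ hs h1 h2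
    rw [hc] at hd
    have := hrad (w / u₀)
    have := hrpos (w / u₀)
    linarith
  have hcard : (times n i y a ((N - Q) * u₀) (N * u₀)).card = Q * (J * R ^ i) * y := by
    have e : N * u₀ = (N - Q) * u₀ + n * (Q * (J * R ^ i)) := by
      have : n * (Q * (J * R ^ i)) = Q * u₀ := by rw [hu₀def, per]; ring
      rw [this, ← Nat.add_mul, Nat.sub_add_cancel hQN]
    rw [e, card_times H.hiy]
  refine
    { hO := hO
      hT := Nat.sub_le _ _
      hr := fun t => ⟨hrpos t, (hr t).trans (Real.exp_le_one_iff.2 (by linarith))⟩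
      hϱ := ⟨Real.exp_pos _, Real.exp_le_one_iff.2 (by nlinarith)⟩
      hL := Real.one_le_exp (by linarith)
      hι := ?_
      hh := ?_
      bdd := fun x _ t => Mo.bdd _
      bilip := fun x _ t => Mo.bilip_coc_exp _ _
      near := ?_
      reg := ?_
      vol1 := fun x hx => (hY x hx).2.2.2.2.1
      vol2 := fun x hx => (hY x hx).2.2.2.2.2
      past := ?_
      future := ?_ }
  · have h1 := H.small
    calc 800 * ((d : ℝ) + 1) * ((N : ℝ) + 1) ^ 2 * Real.exp l ^ 5 * Real.exp (-(8 * ζ * Λ * Q))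
        ≤ Real.exp l * Real.exp l ^ 5 * Real.exp (-(8 * ζ * Λ * Q)) := by gcongr
      _ = Real.exp (6 * l - 8 * ζ * Λ * Q) := by
          rw [← Real.exp_nat_mul, ← Real.exp_add, ← Real.exp_add]; congr 1; push_cast; ring
      _ ≤ 1 := Real.exp_le_one_iff.2 (by nlinarith)
  · rw [Fintype.card_coe, hcard]
    have h1 := H.hε1
    have h2 : (0 : ℝ) ≤ (Q * (J * R ^ i) * y : ℕ) := Nat.cast_nonneg _
    nlinarith
  · intro x hx
    have hit : ∀ t, S^[m] (S^[m * t] x) = S^[m * (t + 1)] x := fun t => by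
      rw [← Function.iterate_add_apply]; congr 1; ring
    refine ⟨fun t ht => ?_, fun t ht => ?_⟩
    · show Mo.φ (cs (t + 1)) (S^[m] (Mo.ψ (cs t) (Mo.φ (Mo.c (S^[m * t] x)) (S^[m * t] x)))) =
        Mo.φ (Mo.c (S^[m * (t + 1)] x)) (S^[m * (t + 1)] x)
      rw [← (hY x hx).2.2.1 t ht.le, ← (hY x hx).2.2.1 (t + 1) ht, Mo.inv, hit]
    · obtain ⟨F', hF'⟩ := Mo.block hm (Real.exp_pos _) hrC (hsafe x hx t ht)
      refine ⟨F', fun v hv => ?_⟩
      have hv' : v ∈ ball (Mo.φ (Mo.c (S^[m * t] x)) (S^[m * t] x)) (Real.exp (-l) / (C : ℝ) ^ m) :=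
        ball_subset_ball (hrad t).le hv
      obtain ⟨h1, h2, -⟩ := hF' v hv'
      rw [hit, (hY x hx).2.2.1 t ht.le, (hY x hx).2.2.1 (t + 1) ht] at h1
      refine ⟨h1, h2.trans ?_⟩
      have h3 : (m : ℝ) * (C : ℝ) ^ (2 * m) ≤ Real.exp l := by
        have h4 : (m : ℝ) ≤ Real.exp (C * m) := by
          have := Real.add_one_le_exp ((C : ℝ) * m)
          nlinarith
        have h5 := goodb_pow_le C (2 * m)
        calc (m : ℝ) * (C : ℝ) ^ (2 * m) ≤ Real.exp (C * m) * Real.exp (C * (2 * m : ℕ)) := by gcongr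
          _ = Real.exp l := by rw [← Real.exp_add, hl]; congr 1; push_cast; ring
      have h6 : ‖v - Mo.φ (Mo.c (S^[m * t] x)) (S^[m * t] x)‖ ≤ 8 * prof Λ ζ θ N Q K' t := by
        rw [← dist_eq_norm]; exact (mem_ball.1 hv).le
      calc (m : ℝ) * (C : ℝ) ^ (2 * m) * ‖v - Mo.φ (Mo.c (S^[m * t] x)) (S^[m * t] x)‖
          ≤ Real.exp l * (8 * prof Λ ζ θ N Q K' t) := by gcongr
        _ = 8 * Real.exp l * prof Λ ζ θ N Q K' t := by ring
  · intro x hx
    have hG := (hY x hx).1
    have hW : Win u (blk Mo.A S m x) O l Λ θ ζ X ε N Q K' :=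
      { hu := hu
        hA := fun t => Mo.bilip_coc_exp _ _
        hl := H.hl
        hΛ := rfl
        hQ := H.hQ
        hQN := Dvd.dvd.mul_left (H.hQR.trans (dvd_pow_self R (by have := H.hy; omega))) 2
        hKN := by have := H.hKR; omega
        hε := H.hε
        hε1 := by linarith [H.hε1]
        hX := H.hX
        hX1 := H.hX1
        hζ := H.hζ
        hζX := H.hζX
        hζQ := H.hζQ
        hK := H.hK
        hθ := H.hθ.le
        hθK := H.hθK
        h1 := hG.dfc1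
        h2 := hG.dfc2
        h3 := fun q h1 h2 => by convert hG.freq q h1 h2
        hO := hO
        h5 := (hY x hx).2.2.2.1 }
    exact hW.reg
  · intro x hx x' hx' hd
    have hG := (hY x hx).1
    have hG' := (hY x' hx').1
    have ha := (hY x hx).2.1
    have ha' := (hY x' hx').2.1
    have key := goodb_hamming (times n i y a ((N - Q) * u₀) (N * u₀)) (fun t => P (S^[τ * t] x))
      (fun t => P (S^[τ * t] x')) (fun t => S^[τ * (t - per n J R ((a + t) % n))] x ∉ K true ∪ K false)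
      (fun t => S^[τ * (t - per n J R ((a + t) % n))] x' ∉ K true ∪ K false) (by
        intro t ht h1 h2
        rw [not_not] at h1 h2
        simp only [times, Finset.mem_filter, Finset.mem_Ico] at ht
        obtain ⟨⟨t1, t2⟩, c1, c2⟩ := ht
        set c := (a + t) % n with hc
        have p1 : per n J R c ≤ R ^ y * u₀ := by
          rw [hu₀def, per, per]
          calc n * J * R ^ c ≤ n * J * R ^ (i + y) := Nat.mul_le_mul_left _ (Nat.pow_le_pow_right hR c2)
            _ = R ^ y * (n * J * R ^ i) := by ring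
        have p2 : R * u₀ ≤ per n J R c := by
          rw [hu₀def, per, per]
          calc R * (n * J * R ^ i) = n * J * R ^ (i + 1) := by ring
            _ ≤ n * J * R ^ c := Nat.mul_le_mul_left _ (Nat.pow_le_pow_right hR c1)
        have p3 : R ^ y * u₀ ≤ (N - Q) * u₀ := Nat.mul_le_mul_right _ (by omega)
        have p4 : per n J R c ≤ t := by omega
        have p5 : t - per n J R c < (N - Q) * u₀ := by
          have : Q * u₀ ≤ R * u₀ := Nat.mul_le_mul_right _ hQR
          have e : N * u₀ = (N - Q) * u₀ + Q * u₀ := by rw [← Nat.add_mul, Nat.sub_add_cancel hQN]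
          omega
        have p6 : (N - Q) * u₀ ≤ N * u₀ := Nat.mul_le_mul_right _ (Nat.sub_le _ _)
        have hlab : lab n J R (a + t) = lab n J R (a + (t - per n J R c)) := by
          have e : a + t = a + (t - per n J R c) + per n J R c := by omega
          have hc' : (a + (t - per n J R c)) % n = c := by
            have h3 : per n J R c = n * (J * R ^ c) := by rw [per]; ring
            have h4 : (a + (t - per n J R c) + n * (J * R ^ c)) % n = (a + (t - per n J R c)) % n :=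
              Nat.add_mul_mod_self_left _ _ _
            rw [← h4, ← h3, ← e]
          unfold lab
          rw [hc', ← hc]
          conv_lhs => rw [e]
          rw [Nat.add_mod_right]
        have k1 : Lv.v x + N * u₀ ≤ V := hG.carry
        have k2 : Lv.v x' + N * u₀ ≤ V := hG'.carry
        have s1 : P (S^[τ * t] x) = P (S^[τ * (t - per n J R c)] x) :=
          Lv.same x hG.good _ _ (by omega) (by omega) (by rw [ha]; exact hlab)
        have s2 : P (S^[τ * t] x') = P (S^[τ * (t - per n J R c)] x') :=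
          Lv.same x' hG'.good _ _ (by omega) (by omega) (by rw [ha']; exact hlab)
        show P (S^[τ * t] x) = P (S^[τ * t] x')
        rw [s1, s2]
        refine hbit x hx x' hx' _ (by omega) (hd _ ?_) h1 h2
        exact ((Nat.div_lt_iff_lt_mul hu₀).2 p5).le)
    have b1 := hG.pst
    have b2 := hG'.pst
    rw [ha] at b1
    rw [ha'] at b2
    have key' : (hammingDist (fun t : ↥(times n i y a ((N - Q) * u₀) (N * u₀)) => P (S^[τ * t] x))
        (fun t : ↥(times n i y a ((N - Q) * u₀) (N * u₀)) => P (S^[τ * t] x')) : ℝ) ≤ _ := Nat.cast_le.2 key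
    push_cast at key' b1 b2 ⊢
    linarith
  · intro x hx x' hx' hd
    have hG := (hY x hx).1
    have hG' := (hY x' hx').1
    have ha := (hY x hx).2.1
    have ha' := (hY x' hx').2.1
    have key := goodb_hamming (times n i y a ((N - Q) * u₀) (N * u₀)) (fun t => P (S^[τ * t] x))
      (fun t => P (S^[τ * t] x')) (fun t => S^[τ * t] x ∉ K true ∪ K false)
      (fun t => S^[τ * t] x' ∉ K true ∪ K false) (by
        intro t ht h1 h2
        rw [not_not] at h1 h2
        simp only [times, Finset.mem_filter, Finset.mem_Ico] at ht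
        obtain ⟨⟨t1, t2⟩, -⟩ := ht
        refine hbit x hx x' hx' _ t2 (hd _ ?_ ?_) h1 h2
        · exact (Nat.le_div_iff_mul_le hu₀).2 t1
        · exact ((Nat.div_lt_iff_lt_mul hu₀).2 t2).le)
    have b1 := hG.fut
    have b2 := hG'.fut
    rw [ha] at b1
    rw [ha'] at b2
    have key' : (hammingDist (fun t : ↥(times n i y a ((N - Q) * u₀) (N * u₀)) => P (S^[τ * t] x))
        (fun t : ↥(times n i y a ((N - Q) * u₀) (N * u₀)) => P (S^[τ * t] x')) : ℝ) ≤ _ := Nat.cast_le.2 key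
    push_cast at key' b1 b2 ⊢
    linarith

end Crest.Agent.R133
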