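import Crest.Agent.R133.GroupA

/-! Row 133: a gap in the interval of a group has small probability. -/

set_option autoImplicit false

namespace Crest.Agent.R133

open MeasureTheory Finset Metric Function

variable {d C τ n J R V : ℕ} {M : Type} [MeasurableSpace M] {ν : Measure M} {S : M → M} {K : Bool → Set M}
  {P : M → Bool} [IsProbabilityMeasure ν] {i y Q K' : ℕ} {θ θ' ζ X ε C₁ : ℝ}

lemma group_union {s0 s1 s2 s3 s4 s5 s6 s7 s8 : Set M} {a1 a2 a3 a4 a5 a6 a7 a8 : ℝ} (h1 : ν.real s1 ≤ a1)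
    (h2 : ν.real s2 ≤ a2) (h3 : ν.real s3 ≤ a3) (h4 : ν.real s4 ≤ a4) (h5 : ν.real s5 ≤ a5) (h6 : ν.real s6 ≤ a6)
    (h7 : ν.real s7 ≤ a7) (h8 : ν.real s8 ≤ a8)
    (h : ∀ x ∈ s0, x ∉ s2 → x ∉ s3 → x ∉ s4 → x ∉ s5 → x ∉ s6 → x ∉ s7 → x ∉ s8 → x ∈ s1) :
    ν.real s0 ≤ a1 + a2 + a3 + a4 + a5 + a6 + a7 + a8 := by
  have hsub : s0 ⊆ s1 ∪ s2 ∪ s3 ∪ s4 ∪ s5 ∪ s6 ∪ s7 ∪ s8 := by
    intro x hx
    by_contra hc
    simp only [Set.mem_union, not_or] at hc
    obtain ⟨⟨⟨⟨⟨⟨⟨c1, c2⟩, c3⟩, c4⟩, c5⟩, c6⟩, c7⟩, c8⟩ := hc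
    exact c1 (h x hx c2 c3 c4 c5 c6 c7 c8)
  refine (measureReal_mono hsub (measure_ne_top _ _)).trans ?_
  have u1 := measureReal_union_le (μ := ν) (s1 ∪ s2 ∪ s3 ∪ s4 ∪ s5 ∪ s6 ∪ s7) s8
  have u2 := measureReal_union_le (μ := ν) (s1 ∪ s2 ∪ s3 ∪ s4 ∪ s5 ∪ s6) s7
  have u3 := measureReal_union_le (μ := ν) (s1 ∪ s2 ∪ s3 ∪ s4 ∪ s5) s6
  have u4 := measureReal_union_le (μ := ν) (s1 ∪ s2 ∪ s3 ∪ s4) s5
  have u5 := measureReal_union_le (μ := ν) (s1 ∪ s2 ∪ s3) s4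
  have u6 := measureReal_union_le (μ := ν) (s1 ∪ s2) s3
  have u7 := measureReal_union_le (μ := ν) s1 s2
  linarith

omit [IsProbabilityMeasure ν] in
lemma group_safe (Mo : Model M ν S d C K) (hS : MeasurePreserving S ν ν) {L : ℕ} {r : ℝ} (hr : 0 < r)
    (hrC : r * C ≤ 1) : ν.real {x | ∃ s, s < L ∧ S^[s] x ∈ Mo.U r} ≤ L * (C * r) := by
  have h1 : {x | ∃ s, s < L ∧ S^[s] x ∈ Mo.U r} = ⋃ s ∈ range L, S^[s] ⁻¹' Mo.U r := by
    ext x; simp
  rw [h1]
  refine (measureReal_biUnion_finset_le _ _).trans ?_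
  have h2 : ∀ s ∈ range L, ν.real (S^[s] ⁻¹' Mo.U r) ≤ C * r := fun s _ => by
    rw [(hS.iterate s).measureReal_preimage (Mo.meas_U r).nullMeasurableSet]
    exact ENNReal.toReal_le_of_le_ofReal (by positivity) (Mo.unsafe_le r hr hrC)
  simpa using Finset.sum_le_card_nsmul _ _ _ h2

lemma group_carry (Lv : Level ν S P τ n J R V) (L : ℕ) :
    ν.real {x | V < Lv.v x + L} ≤ L / V := by
  have h1 : {x | V < Lv.v x + L} ⊆ ⋃ a ∈ Ico (V - L) V, {x | Lv.v x = a} := by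
    intro x hx
    simp only [Set.mem_iUnion, mem_Ico, exists_prop]
    have h1 := Lv.lt x
    have h2 : V < Lv.v x + L := hx
    exact ⟨Lv.v x, ⟨by omega, h1⟩, rfl⟩
  refine (measureReal_mono h1 (measure_ne_top _ _)).trans ((measureReal_biUnion_finset_le _ _).trans ?_)
  have h2 : ∀ a ∈ Ico (V - L) V, ν.real {x | Lv.v x = a} ≤ (V : ℝ)⁻¹ := fun a ha => by
    have hV : V ≠ 0 := by have := (mem_Ico.1 ha).2; omega
    have := ENNReal.toReal_mono (by simpa using hV) (Lv.unif a)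
    simpa [Measure.real] using this
  refine (Finset.sum_le_card_nsmul _ _ _ h2).trans ?_
  rw [nsmul_eq_mul, div_eq_mul_inv, Nat.card_Ico]
  refine mul_le_mul_of_nonneg_right ?_ (by positivity)
  exact_mod_cast (by omega : V - (V - L) ≤ L)

lemma group_dfc (Mo : Model M ν S d C K) (hS : MeasurePreserving S ν ν) {m : ℕ} (hm : 1 ≤ m) {θ : ℝ} (hθ : 0 < θ)
    {N₁ N k' : ℕ} (h1 : N₁ ≤ N) (h2 : 2 * N₁ ≤ k') (h3 : 0 < k') :
    ν.real {x | ∃ k, 1 ≤ k ∧ k ≤ N₁ ∧ θ * ((2 * d + 2) * (3 * C * m : ℕ)) * k <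
      dfc ((2 * d + 2) * (3 * C * m : ℕ)) (blk Mo.A S m x) (N - k) k} ≤
      2 * (Phi Mo m - Phi Mo (m * k')) / θ := by
  have hC := Mo.one_le
  have hΛ : (0 : ℝ) < (2 * d + 2) * (3 * C * m : ℕ) := by
    have : 0 < 3 * C * m := by positivity
    positivity
  have hinj : ∀ x t, Injective (blk Mo.A S m x t) := fun x t => (Mo.bilip_coc _ _).injective
  have key := maximal_superadd (hS.iterate m)
    (Z := fun k x => dfc ((2 * d + 2) * (3 * C * m : ℕ)) (blk Mo.A S m x) 0 k)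
    (fun k => Mo.measurable_dfc hS.measurable m _ 0 k) (fun k => integrable_dfc Mo hS.measurable m 0 k)
    (fun k x => dfc_nonneg (hinj x) 0 k)
    (fun k l x => by
      have := dfc_superadd (Λ := (2 * d + 2) * (3 * C * m : ℕ)) (hinj x) 0 k l
      rwa [zero_add, dfc_blk _ _ _ _ _ k l, iterate_mul] at this)
    (mul_pos hθ hΛ) h1 h2 h3
  rw [integral_dfc Mo hS hm h3] at key
  have e : 2 * ((k' : ℝ) * ((2 * d + 2) * (3 * C * m : ℕ)) * (Phi Mo m - Phi Mo (m * k'))) /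
      (θ * ((2 * d + 2) * (3 * C * m : ℕ)) * k') = 2 * (Phi Mo m - Phi Mo (m * k')) / θ := by
    have : (k' : ℝ) ≠ 0 := by positivity
    field_simp
  rw [e] at key
  refine le_trans (le_of_eq ?_) key
  congr 1
  ext x
  simp only [Set.mem_ofPred_eq]
  refine exists_congr fun k => ?_
  rw [dfc_blk _ _ _ _ _ (N - k) k, iterate_mul]

open Classical in
lemma group_freq (A : M → E d →L[ℝ] E d) (hS : MeasurePreserving S ν ν) {G : Set (E d →L[ℝ] E d)} {m Q N : ℕ}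
    (hB : MeasurableSet {x | coc A S x (m * Q) ∈ G}) (hQ : 0 < Q) (hQN : Q ∣ N) (hN : 0 < N) {ε : ℝ} (hε : 0 ≤ ε) :
    ν.real {x | coc A S (S^[m * (N - Q)] x) (m * Q) ∈ G ∧ ∃ q, 1 ≤ q ∧ q * Q ≤ N ∧
      (#{q' ∈ range q | prod (blk A S m x) (N - (q' + 1) * Q) Q ∈ G} : ℝ) < ε * q} ≤ 2 * ε := by
  obtain ⟨n', rfl⟩ := hQN
  have hn' : 1 ≤ n' := Nat.pos_of_mul_pos_left hN
  refine le_trans (measureReal_mono ?_) (maximal_freq (hS.iterate (m * Q)) hB hε hn')
  rintro x ⟨hx, q, hq1, hq2, hq3⟩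
  have e : ∀ q', (S^[m * Q])^[n' - 1 - q'] x = S^[m * (Q * n' - (q' + 1) * Q)] x := fun q' => by
    rw [← iterate_mul, mul_assoc, Nat.sub_sub, Nat.mul_sub, mul_comm (q' + 1) Q, add_comm 1 q']
  refine ⟨?_, q, hq1, ?_, ?_⟩
  · have := e 0
    simp only [Nat.sub_zero, zero_add, one_mul] at this
    rw [this]
    exact hx
  · rw [mul_comm q Q] at hq2
    exact Nat.le_of_mul_le_mul_left hq2 hQ
  · refine lt_of_eq_of_lt ?_ hq3
    congr 2
    ext q'
    simp only [mem_filter, Set.mem_ofPred_eq, e, prod_blk]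

/-- Let `B` be the set on the left, `m = τ u₀`, `N = 2 R ^ y`.  Its preimage under `S^[m (N - Q)]` is covered by the good set (`ε`), the failure of `safe` (`ε`), `good` (null), `carry` (`ε`),
`fut`, `pst` (`bits_bound`), `dfc1` (`maximal_superadd` for `S^[m]`, `N₁ = N`, `k' = R ^ (y + 1)`), `dfc2` (`maximal_superadd` with `θ'`, `N₁ = K'² Q`, `k' = R`), and `freq`
(`maximal_freq` for `S^[m Q]` and `N / Q`). -/
theorem group_bound (Mo : Model M ν S d C K) (Lv : Level ν S P τ n J R V) (hS : MeasurePreserving S ν ν)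
    (hK : ∀ b, MeasurableSet (K b)) (H : Num d C τ n J R V i y Q K' θ θ' ζ X ε C₁) {u : ℕ}
    (hG : ν.real {x | Good Mo Lv u i y Q K' θ ζ X ε x} ≤ ε) :
    ν.real {x | Gap u X ζ ((2 * d + 2) * (3 * C * (τ * per n J R i) : ℕ) * Q) (coc Mo.A S x (τ * per n J R i * Q))} ≤
      5 * ε + 2 * (Phi Mo (τ * per n J R i) - Phi Mo (τ * per n J R (i + (y + 1)))) / θ +
        2 * (Phi Mo (τ * per n J R i) - Phi Mo (τ * per n J R (i + 1))) / θ' +
        2 * n / (ε * y) * ∑ c ∈ Icc (i + 1) (i + y), err Lv K c := by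
  classical
  have hC := Mo.one_le
  have hτ := H.hτ
  have hJ := H.hJ
  have hy := H.hy
  have hiy := H.hiy
  have hR := H.hR
  have hQ := H.hQ
  have hε := H.hε
  have hn : 0 < n := by omega
  have hR0 : 0 < R := by omega
  have hu₀ : 0 < per n J R i := by unfold per; positivity
  have hm : 1 ≤ τ * per n J R i := Nat.mul_pos hτ hu₀
  have hRy : R ≤ R ^ y := Nat.le_self_pow (by omega) R
  have hK' : 0 < K' := by
    rcases Nat.eq_zero_or_pos K' with h | h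
    · have := H.hK
      rw [h] at this
      norm_num at this
    · exact h
  have e1 : τ * per n J R (i + (y + 1)) = τ * per n J R i * R ^ (y + 1) := by unfold per; ring
  have e2 : τ * per n J R (i + 1) = τ * per n J R i * R := by unfold per; ring
  rw [e1, e2]
  have hbits := bits_bound Lv hS hK H
  have hcarry := group_carry Lv (2 * R ^ y * per n J R i)
  have hH := H.safe
  have hHc := H.carry
  have hθ'K := H.hθ'K
  set m := τ * per n J R i with hmdef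
  set N := 2 * R ^ y with hN
  set l : ℝ := ((3 * C * m : ℕ) : ℝ) with hl
  have hlC : (C : ℝ) ≤ l := by
    rw [hl]
    exact_mod_cast (by nlinarith : C ≤ 3 * C * m)
  have hl0 : 0 < l := lt_of_lt_of_le (by exact_mod_cast hC) hlC
  have hrC : Real.exp (-l) * C ≤ 1 := by
    rw [Real.exp_neg, inv_mul_le_iff₀ (Real.exp_pos l), mul_one]
    linarith [Real.add_one_le_exp l]
  have hsafe := group_safe Mo hS (L := m * N) (Real.exp_pos (-l)) hrC
  have hsafe' : ((m * N : ℕ) : ℝ) * (C * Real.exp (-l)) ≤ ε := by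
    rw [← mul_assoc, Real.exp_neg, mul_inv_le_iff₀ (Real.exp_pos l)]
    exact hH
  have hcarry' : ((N * per n J R i : ℕ) : ℝ) / V ≤ ε :=
    div_le_of_le_mul₀ (Nat.cast_nonneg _) hε.le hHc
  have hd1 := group_dfc Mo hS hm H.hθ (N₁ := N) (N := N) (k' := R ^ (y + 1)) le_rfl
    (by rw [hN, pow_succ]; nlinarith [Nat.zero_le (R ^ y)]) (by positivity)
  have hd2 := group_dfc Mo hS hm H.hθ' (N₁ := K' ^ 2 * Q) (N := N) (k' := R)
    (by have := H.hKR; omega) H.hKR hR0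
  set G : Set (E d →L[ℝ] E d) := {g | Gap u X ζ ((2 * d + 2) * l * Q) g} with hGdef
  have hB : MeasurableSet {x | coc Mo.A S x (m * Q) ∈ G} :=
    Mo.measurable_coc hS.measurable (m * Q) (measurableSet_gap u X ζ _)
  have hf := group_freq Mo.A hS hB hQ (N := N) (Dvd.dvd.mul_left (H.hQR.trans (dvd_pow_self R (by omega))) 2)
    (by positivity) hε.le
  have hnull : ν.real Lv.goodᶜ = 0 := by simp [Measure.real, Lv.null]
  have hpre := (hS.iterate (m * (N - Q))).measureReal_preimage hB.nullMeasurableSet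
  change ν.real {x | coc Mo.A S x (m * Q) ∈ G} ≤ _
  rw [← hpre]
  rw [← hl] at hd1 hd2
  refine (group_union hG (hsafe.trans hsafe') hnull.le (hcarry.trans hcarry') hbits hd1 hd2 hf ?_).trans
    (le_of_eq (by ring))
  intro x hx c2 c3 c4 c5 c6 c7 c8
  simp only [Set.mem_ofPred_eq, Set.mem_compl_iff, not_not, not_lt, not_exists, not_and, not_or] at c2 c3 c4 c5 c6 c7 c8
  refine ⟨c2, c3, c4, (c5 c3 c4).1, (c5 c3 c4).2, c6, ?_, ?_⟩
  · refine (c7 (K' ^ 2 * Q) (Nat.mul_pos (by positivity) hQ) le_rfl).trans ?_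
    have h0 : (0 : ℝ) ≤ (2 * d + 2) * l * Q := by positivity
    have := mul_le_mul_of_nonneg_right hθ'K h0
    rw [← hmdef, ← hl]
    push_cast
    nlinarith
  · intro q hq1 hq2
    exact c8 hx q hq1 hq2

end Crest.Agent.R133
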