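import Mathlib

/-! Row 133: two maximal inequalities and a Markov inequality for a measure preserving map. -/

set_option autoImplicit false

namespace Crest.Agent.R133

open MeasureTheory Finset Function

variable {M : Type} [MeasurableSpace M] {ν : Measure M} [IsProbabilityMeasure ν] {S : M → M}

omit [MeasurableSpace M] in
open Classical in
theorem maximal_count_eq {ι : Type} (I : Finset ι) (f : ι → ℕ) (B : ι → Set M) :
    (fun x => (#{i ∈ I | S^[f i] x ∈ B i} : ℝ)) =
      fun x => ∑ i ∈ I, (S^[f i] ⁻¹' B i).indicator (fun _ => (1 : ℝ)) x := by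
  funext x
  rw [Finset.card_filter]
  push_cast
  refine Finset.sum_congr rfl fun i _ => ?_
  simp [Set.indicator_apply]

open Classical in
theorem maximal_count_integrable (hS : MeasurePreserving S ν ν) {ι : Type} (I : Finset ι) (f : ι → ℕ)
    {B : ι → Set M} (hB : ∀ i, MeasurableSet (B i)) :
    Integrable (fun x => (#{i ∈ I | S^[f i] x ∈ B i} : ℝ)) ν := by
  rw [maximal_count_eq]
  exact integrable_finsetSum _ fun i _ =>
    (integrable_const (1 : ℝ)).indicator ((hS.iterate (f i)).measurable (hB i))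

open Classical in
theorem maximal_count_integral (hS : MeasurePreserving S ν ν) {ι : Type} (I : Finset ι) (f : ι → ℕ)
    {B : ι → Set M} (hB : ∀ i, MeasurableSet (B i)) :
    ∫ x, (#{i ∈ I | S^[f i] x ∈ B i} : ℝ) ∂ν = ∑ i ∈ I, ν.real (B i) := by
  rw [maximal_count_eq, integral_finsetSum _ fun i _ =>
    (integrable_const (1 : ℝ)).indicator ((hS.iterate (f i)).measurable (hB i))]
  refine Finset.sum_congr rfl fun i _ => ?_
  rw [integral_indicator_const _ ((hS.iterate (f i)).measurable (hB i)), smul_eq_mul, mul_one,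
    (hS.iterate (f i)).measureReal_preimage (hB i).nullMeasurableSet]

theorem maximal_comb1 (bad : ℕ → Prop) [DecidablePred bad] (z : ℕ → ℝ) {θ : ℝ} (hθ : 0 ≤ θ)
    (h0 : 0 ≤ z 0) (hmono : ∀ m, z m ≤ z (m + 1))
    (hbad : ∀ m, bad m → ∃ k, 1 ≤ k ∧ k ≤ m ∧ z (m - k) + θ * k ≤ z m) (m : ℕ) :
    θ * (#{e ∈ range (m + 1) | bad e} : ℝ) ≤ z m := by
  induction m using Nat.strong_induction_on with
  | _ m ih =>
    by_cases hm : bad m
    · obtain ⟨k, hk1, hkm, hk⟩ := hbad m hm
      have h1 := ih (m - k) (by omega)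
      have h2 : #{e ∈ range (m + 1) | bad e} ≤ #{e ∈ range (m - k + 1) | bad e} + k := by
        calc #{e ∈ range (m + 1) | bad e}
            ≤ #({e ∈ range (m - k + 1) | bad e} ∪ Ico (m - k + 1) (m + 1)) := by
              refine card_le_card fun e he => ?_
              simp only [mem_filter, mem_range, mem_union, mem_Ico] at he ⊢
              by_cases h : e < m - k + 1
              · exact Or.inl ⟨h, he.2⟩
              · exact Or.inr ⟨by omega, he.1⟩
          _ ≤ _ := (card_union_le _ _).trans (by rw [Nat.card_Ico]; omega)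
      have h3 : (#{e ∈ range (m + 1) | bad e} : ℝ) ≤ #{e ∈ range (m - k + 1) | bad e} + k := by
        exact_mod_cast h2
      nlinarith [mul_le_mul_of_nonneg_left h3 hθ]
    · rw [range_add_one, filter_insert, if_neg hm]
      cases m with
      | zero => simpa using h0
      | succ m => exact (ih m (Nat.lt_succ_self m)).trans (hmono m)

theorem maximal_comb2 (bad b : ℕ → Prop) [DecidablePred bad] [DecidablePred b] {ε : ℝ} (hε : 0 ≤ ε)
    (hb : ∀ e, bad e → b e)
    (hbad : ∀ e, bad e → ∃ q, 1 ≤ q ∧ q ≤ e + 1 ∧ (#{q' ∈ range q | b (e - q')} : ℝ) ≤ ε * q) (m : ℕ) :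
    (#{e ∈ range m | bad e} : ℝ) ≤ ε * m := by
  induction m using Nat.strong_induction_on with
  | _ m ih =>
    cases m with
    | zero => simp
    | succ m =>
      by_cases hm : bad m
      · obtain ⟨q, hq1, hqm, hq⟩ := hbad m hm
        have h1 := ih (m + 1 - q) (by omega)
        have h2 : #{e ∈ range (m + 1) | bad e} ≤
            #{e ∈ range (m + 1 - q) | bad e} + #{q' ∈ range q | b (m - q')} := by
          calc #{e ∈ range (m + 1) | bad e}
              ≤ #({e ∈ range (m + 1 - q) | bad e} ∪ {q' ∈ range q | b (m - q')}.image (m - ·)) := by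
                refine card_le_card fun e he => ?_
                simp only [mem_filter, mem_range, mem_union, mem_image] at he ⊢
                by_cases h : e < m + 1 - q
                · exact Or.inl ⟨h, he.2⟩
                · refine Or.inr ⟨m - e, ⟨by omega, ?_⟩, by omega⟩
                  rw [show m - (m - e) = e by omega]
                  exact hb e he.2
            _ ≤ _ := (card_union_le _ _).trans (Nat.add_le_add_left card_image_le _)
        have h3 : (#{e ∈ range (m + 1) | bad e} : ℝ) ≤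
            #{e ∈ range (m + 1 - q) | bad e} + #{q' ∈ range q | b (m - q')} := by exact_mod_cast h2
        rw [Nat.cast_sub hqm] at h1
        linarith
      · rw [range_add_one, filter_insert, if_neg hm]
        refine (ih m (Nat.lt_succ_self m)).trans (mul_le_mul_of_nonneg_left ?_ hε)
        push_cast; linarith

/-- Call `e ≥ N₁` bad for `x` if `θ k < Z k (S^[e - k] x)` for some `1 ≤ k ≤ N₁`.  Strong induction on `m`: `θ * #{bad e ≤ m} ≤ Z m x` (if `m` is bad with `k`, pass to
`m - k`).  Integrate for `m = k'`; all `e ∈ [N₁, k']` are bad with the same probability. -/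
theorem maximal_superadd (hS : MeasurePreserving S ν ν) {Z : ℕ → M → ℝ} (hm : ∀ k, Measurable (Z k))
    (hi : ∀ k, Integrable (Z k) ν) (h0 : ∀ k x, 0 ≤ Z k x) (hZ : ∀ k l x, Z k x + Z l (S^[k] x) ≤ Z (k + l) x)
    {θ : ℝ} (hθ : 0 < θ) {N₁ N k' : ℕ} (h1 : N₁ ≤ N) (h2 : 2 * N₁ ≤ k') (h3 : 0 < k') :
    ν.real {x | ∃ k, 1 ≤ k ∧ k ≤ N₁ ∧ θ * k < Z k (S^[N - k] x)} ≤ 2 * (∫ x, Z k' x ∂ν) / (θ * k') := by
  classical
  obtain ⟨A, hA⟩ : ∃ A : Set M, A = {x | ∃ k, 1 ≤ k ∧ k ≤ N₁ ∧ θ * k < Z k (S^[N₁ - k] x)} := ⟨_, rfl⟩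
  have hAm : MeasurableSet A := by
    rw [hA, Set.ofPred_exists]
    refine MeasurableSet.iUnion fun k => ?_
    exact (MeasurableSet.const _).inter ((MeasurableSet.const _).inter
      (measurableSet_lt measurable_const ((hm k).comp (hS.iterate _).measurable)))
  have hpre : ∀ e, N₁ ≤ e → ∀ x, S^[e - N₁] x ∈ A ↔
      ∃ k, 1 ≤ k ∧ k ≤ N₁ ∧ θ * k < Z k (S^[e - k] x) := by
    intro e he x
    rw [hA, Set.mem_ofPred_eq]
    refine exists_congr fun k => and_congr_right fun _ => and_congr_right fun hk => ?_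
    rw [← iterate_add_apply, show N₁ - k + (e - N₁) = e - k by omega]
  have e1 : {x | ∃ k, 1 ≤ k ∧ k ≤ N₁ ∧ θ * k < Z k (S^[N - k] x)} = S^[N - N₁] ⁻¹' A := by
    ext x; exact (hpre N h1 x).symm
  rw [e1, (hS.iterate _).measureReal_preimage hAm.nullMeasurableSet]
  have hpt : ∀ x, θ * (#{e ∈ Icc N₁ k' | S^[e - N₁] x ∈ A} : ℝ) ≤ Z k' x := by
    intro x
    have := maximal_comb1 (fun e => N₁ ≤ e ∧ S^[e - N₁] x ∈ A) (fun m => Z m x) hθ.le (h0 0 x)
      (fun m => by linarith [hZ m 1 x, h0 1 (S^[m] x)])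
      (fun m hm => by
        obtain ⟨k, hk1, hk2, hk⟩ := (hpre m hm.1 x).1 hm.2
        refine ⟨k, hk1, by omega, ?_⟩
        have := hZ (m - k) k x
        rw [show m - k + k = m by omega] at this
        linarith) k'
    refine le_trans (le_of_eq ?_) this
    congr 3
    ext e
    simp only [mem_filter, mem_Icc, mem_range]
    constructor
    · rintro ⟨⟨a, b⟩, c⟩; exact ⟨by omega, a, c⟩
    · rintro ⟨a, b, c⟩; exact ⟨⟨b, by omega⟩, c⟩
  have hI := integral_mono ((maximal_count_integrable hS (Icc N₁ k') (fun e => e - N₁)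
    (B := fun _ => A) fun _ => hAm).const_mul θ) (hi k') (fun x => by convert hpt x)
  rw [integral_const_mul, maximal_count_integral hS _ _ fun _ => hAm, sum_const, Nat.card_Icc,
    nsmul_eq_mul] at hI
  have hk : (0 : ℝ) < k' := by exact_mod_cast h3
  have hc : (k' : ℝ) ≤ 2 * ((k' + 1 - N₁ : ℕ) : ℝ) := by exact_mod_cast (by omega)
  rw [le_div_iff₀ (by positivity)]
  have hA0 : 0 ≤ θ * ν.real A := mul_nonneg hθ.le measureReal_nonneg
  nlinarith [mul_le_mul_of_nonneg_left hc hA0]

open Classical in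
/-- Call `e ≥ n - 1` bad for `x` if `S^[e] x ∈ B` and the frequency of `B` at the times `e, e - 1, …, e - q + 1` is less than `ε` for some `1 ≤ q ≤ n`.  Strong induction on
`m`: `#{bad e < m} ≤ ε m`.  Integrate for `m = 2 n - 1`. -/
theorem maximal_freq (hS : MeasurePreserving S ν ν) {B : Set M} (hB : MeasurableSet B) {ε : ℝ} (hε : 0 ≤ ε) {n : ℕ}
    (hn : 1 ≤ n) :
    ν.real {x | S^[n - 1] x ∈ B ∧ ∃ q, 1 ≤ q ∧ q ≤ n ∧ (#{q' ∈ range q | S^[n - 1 - q'] x ∈ B} : ℝ) < ε * q} ≤
      2 * ε := by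
  obtain ⟨A, hA⟩ : ∃ A : Set M, A = {x | S^[n - 1 - (n - 1)] (S^[n - 1] x) ∈ B ∧ ∃ q, 1 ≤ q ∧ q ≤ n ∧
    (#{q' ∈ range q | S^[n - 1 - q'] x ∈ B} : ℝ) < ε * q} := ⟨_, rfl⟩
  have hAm : MeasurableSet A := by
    rw [hA]
    refine (((hS.iterate _).measurable.comp (hS.iterate _).measurable) hB).inter ?_
    change MeasurableSet {x | ∃ q, 1 ≤ q ∧ q ≤ n ∧ (#{q' ∈ range q | S^[n - 1 - q'] x ∈ B} : ℝ) < ε * q}
    rw [Set.ofPred_exists]
    refine MeasurableSet.iUnion fun q => ?_
    refine (MeasurableSet.const _).inter ((MeasurableSet.const _).inter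
      (measurableSet_lt (f := fun x => (#{q' ∈ range q | S^[n - 1 - q'] x ∈ B} : ℝ))
        (g := fun _ => ε * q) ?_ measurable_const))
    have := maximal_count_eq (S := S) (range q) (fun q' => n - 1 - q') (fun _ => B)
    rw [this]
    exact Finset.measurable_sum _ fun i _ => measurable_const.indicator ((hS.iterate _).measurable hB)
  have e1 : {x | S^[n - 1] x ∈ B ∧ ∃ q, 1 ≤ q ∧ q ≤ n ∧
      (#{q' ∈ range q | S^[n - 1 - q'] x ∈ B} : ℝ) < ε * q} = A := by
    rw [hA]; simp
  rw [e1]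
  have hpt : ∀ x, (#{e ∈ Ico (n - 1) (2 * n - 1) | S^[e - (n - 1)] x ∈ A} : ℝ) ≤ ε * (2 * n - 1 : ℕ) := by
    intro x
    have := maximal_comb2 (fun e => n - 1 ≤ e ∧ S^[e - (n - 1)] x ∈ A) (fun e => S^[e] x ∈ B) hε
      (fun e he => by
        have h := (e1 ▸ he.2 : S^[e - (n - 1)] x ∈ {x | S^[n - 1] x ∈ B ∧ ∃ q, 1 ≤ q ∧ q ≤ n ∧
          (#{q' ∈ range q | S^[n - 1 - q'] x ∈ B} : ℝ) < ε * q}).1
        rwa [← iterate_add_apply, show n - 1 + (e - (n - 1)) = e by omega] at h)
      (fun e he => by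
        obtain ⟨q, hq1, hq2, hq⟩ := (e1 ▸ he.2 : S^[e - (n - 1)] x ∈ {x | S^[n - 1] x ∈ B ∧
          ∃ q, 1 ≤ q ∧ q ≤ n ∧ (#{q' ∈ range q | S^[n - 1 - q'] x ∈ B} : ℝ) < ε * q}).2
        refine ⟨q, hq1, by omega, le_trans (le_of_eq ?_) hq.le⟩
        congr 2
        refine filter_congr fun q' hq' => ?_
        have := mem_range.1 hq'
        rw [← iterate_add_apply, show n - 1 - q' + (e - (n - 1)) = e - q' by omega]) (2 * n - 1)
    refine le_trans (le_of_eq ?_) this
    congr 2
    ext e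
    simp only [mem_filter, mem_Ico, mem_range]
    tauto
  have hI := integral_mono (maximal_count_integrable hS (Ico (n - 1) (2 * n - 1)) (fun e => e - (n - 1))
    (B := fun _ => A) fun _ => hAm) (integrable_const (ε * (2 * n - 1 : ℕ))) (fun x => hpt x)
  rw [maximal_count_integral hS _ _ fun _ => hAm, sum_const, Nat.card_Ico,
    nsmul_eq_mul, show 2 * n - 1 - (n - 1) = n by omega, integral_const, probReal_univ, one_smul] at hI
  have hk : (0 : ℝ) < n := by exact_mod_cast hn
  have hc : ((2 * n - 1 : ℕ) : ℝ) ≤ 2 * n := by exact_mod_cast (by omega)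
  refine le_of_mul_le_mul_left (hI.trans ?_) hk
  nlinarith [mul_le_mul_of_nonneg_left hc hε]

open Classical in
/-- Markov's inequality for the number of the events `S^[f i] x ∈ B i` -/
theorem markov_count (hS : MeasurePreserving S ν ν) {ι : Type} (I : Finset ι) (f : ι → ℕ) {B : ι → Set M}
    (hB : ∀ i, MeasurableSet (B i)) {c : ℝ} (hc : 0 < c) :
    ν.real {x | c < (#{i ∈ I | S^[f i] x ∈ B i} : ℝ)} ≤ (∑ i ∈ I, ν.real (B i)) / c := by
  rw [le_div_iff₀ hc, ← maximal_count_integral hS I f hB, mul_comm]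
  refine le_trans (mul_le_mul_of_nonneg_left (measureReal_mono (fun x hx => ?_)) hc.le)
    (mul_meas_ge_le_integral_of_nonneg (Filter.Eventually.of_forall fun x => by positivity)
      (maximal_count_integrable hS I f hB) c)
  exact le_of_lt (show c < _ from hx)

/-- telescoping -/
theorem sum_sub_shift_le {φ : ℕ → ℝ} {B : ℝ} (h : ∀ i, |φ i| ≤ B) (I s : ℕ) :
    ∑ i ∈ range I, (φ i - φ (i + s)) ≤ 2 * B * s := by
  have h1 := Finset.sum_range_add φ I s
  have h2 := Finset.sum_range_add φ s I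
  rw [add_comm s I] at h2
  have h3 : ∑ i ∈ range s, (φ i - φ (I + i)) ≤ 2 * B * s := by
    refine (Finset.sum_le_card_nsmul _ _ (2 * B) fun i _ => ?_).trans (by simp [mul_comm])
    linarith [(abs_le.1 (h i)).2, (abs_le.1 (h (I + i))).1]
  simp only [Finset.sum_sub_distrib, add_comm _ s] at h3 ⊢
  linarith

end Crest.Agent.R133
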