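import Crest.Agent.R133.GoodA
import Crest.Agent.R133.Maximal

/-! Row 133: a gap in the interval of a group has small probability. -/

set_option autoImplicit false

namespace Crest.Agent.R133

open MeasureTheory Finset Metric Function

variable {d C τ n J R V : ℕ} {M : Type} [MeasurableSpace M] {ν : Measure M} {S : M → M} {K : Bool → Set M}
  {P : M → Bool}

/-- the normalised mean of `tot` at the time scale `m` -/
noncomputable def Phi (Mo : Model M ν S d C K) (m : ℕ) : ℝ :=
  (∫ x, tot ((2 * d + 2) * (3 * C * m : ℕ)) (coc Mo.A S x m) ∂ν) / ((2 * d + 2) * (3 * C * m : ℕ))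

/-- the approximation error on the class `c` -/
noncomputable def err (Lv : Level ν S P τ n J R V) (K : Bool → Set M) (c : ℕ) : ℝ :=
  ν.real ((K true ∪ K false)ᶜ ∩ {x | Lv.v x % n = c})

variable [IsProbabilityMeasure ν]

omit [IsProbabilityMeasure ν] in
theorem groupa_abs_tot (Mo : Model M ν S d C K) (m : ℕ) (x : M) :
    |tot ((2 * d + 2) * (3 * C * m : ℕ)) (coc Mo.A S x m)| ≤
      4 * (d + 3) * ((2 * d + 2) * (3 * C * m : ℕ)) := by
  have h0 : (0 : ℝ) ≤ ((3 * C * m : ℕ) : ℝ) := Nat.cast_nonneg _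
  exact abs_tot_le (Mo.bilip_coc_exp x m) h0 (by nlinarith)

theorem groupa_int (Mo : Model M ν S d C K) (hS : Measurable S) (m e : ℕ) :
    Integrable (fun x => tot ((2 * d + 2) * (3 * C * m : ℕ)) (coc Mo.A S (S^[e] x) m)) ν := by
  refine Integrable.of_bound ?_ (4 * (d + 3) * ((2 * d + 2) * (3 * C * m : ℕ)))
    (Filter.Eventually.of_forall fun x => groupa_abs_tot Mo m _)
  exact (((measurable_tot _).comp (Mo.measurable_coc hS m)).comp (hS.iterate e)).aestronglyMeasurable

omit [IsProbabilityMeasure ν] in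
theorem groupa_dfc (Mo : Model M ν S d C K) (m s k : ℕ) (x : M) :
    dfc ((2 * d + 2) * (3 * C * m : ℕ)) (blk Mo.A S m x) s k =
      ∑ r ∈ range k, tot ((2 * d + 2) * (3 * C * m : ℕ)) (coc Mo.A S (S^[m * (s + r)] x) m) -
        tot ((2 * d + 2) * (3 * C * (m * k) : ℕ)) (coc Mo.A S (S^[m * s] x) (m * k)) := by
  unfold dfc
  rw [prod_blk]
  congr 2
  push_cast; ring

omit [IsProbabilityMeasure ν] in
theorem groupa_inv (Mo : Model M ν S d C K) (hS : MeasurePreserving S ν ν) (m e : ℕ) (Λ : ℝ) :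
    ∫ x, tot Λ (coc Mo.A S (S^[e] x) m) ∂ν = ∫ x, tot Λ (coc Mo.A S x m) ∂ν := by
  have h := (hS.iterate e)
  have hm : Measurable fun x => tot Λ (coc Mo.A S x m) :=
    (measurable_tot _).comp (Mo.measurable_coc hS.measurable m)
  have := integral_map (μ := ν) h.measurable.aemeasurable hm.aestronglyMeasurable
  rw [h.map_eq] at this
  exact this.symm

theorem abs_Phi_le (Mo : Model M ν S d C K) (m : ℕ) : |Phi Mo m| ≤ 4 * (d + 3) := by
  unfold Phi
  have h0 : (0 : ℝ) ≤ (2 * d + 2) * (3 * C * m : ℕ) := by positivity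
  rw [abs_div, abs_of_nonneg h0]
  refine div_le_of_le_mul₀ h0 (by positivity) ?_
  have := norm_integral_le_of_norm_le_const (μ := ν)
    (f := fun x => tot ((2 * d + 2) * (3 * C * m : ℕ)) (coc Mo.A S x m))
    (Filter.Eventually.of_forall fun x => groupa_abs_tot Mo m x)
  simpa using this

theorem integrable_dfc (Mo : Model M ν S d C K) (hS : Measurable S) (m s k : ℕ) :
    Integrable (fun x => dfc ((2 * d + 2) * (3 * C * m : ℕ)) (blk Mo.A S m x) s k) ν := by
  simp only [groupa_dfc]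
  exact (integrable_finsetSum _ fun r _ => groupa_int Mo hS m _).sub (groupa_int Mo hS _ _)

theorem integral_dfc (Mo : Model M ν S d C K) (hS : MeasurePreserving S ν ν) {m : ℕ} (hm : 1 ≤ m) {k : ℕ} (hk : 1 ≤ k) :
    ∫ x, dfc ((2 * d + 2) * (3 * C * m : ℕ)) (blk Mo.A S m x) 0 k ∂ν =
      k * ((2 * d + 2) * (3 * C * m : ℕ)) * (Phi Mo m - Phi Mo (m * k)) := by
  simp only [groupa_dfc]
  rw [integral_sub (integrable_finsetSum _ fun r _ => groupa_int Mo hS.measurable m _)
    (groupa_int Mo hS.measurable _ _),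
    integral_finsetSum _ fun r _ => groupa_int Mo hS.measurable m _]
  simp only [groupa_inv Mo hS, Finset.sum_const, Finset.card_range, nsmul_eq_mul]
  unfold Phi
  have hC : (0 : ℝ) < C := by exact_mod_cast Mo.one_le
  have hm' : (0 : ℝ) < m := by exact_mod_cast hm
  have hk' : (0 : ℝ) < k := by exact_mod_cast hk
  generalize (∫ x, tot ((2 * d + 2) * (3 * C * m : ℕ)) (coc Mo.A S x m) ∂ν) = a
  generalize (∫ x, tot ((2 * d + 2) * (3 * C * (m * k) : ℕ)) (coc Mo.A S x (m * k)) ∂ν) = b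
  push_cast
  field_simp

omit [IsProbabilityMeasure ν] in
theorem groupa_meas (Lv : Level ν S P τ n J R V) (hK : ∀ b, MeasurableSet (K b)) (c : ℕ) :
    MeasurableSet ((K true ∪ K false)ᶜ ∩ {x | Lv.v x % n = c}) :=
  ((hK true).union (hK false)).compl.inter
    (Lv.meas_v (MeasurableSet.of_discrete (s := {a : ℕ | a % n = c})))

theorem sum_err_le (Lv : Level ν S P τ n J R V) (hK : ∀ b, MeasurableSet (K b)) (I : Finset ℕ) :
    ∑ c ∈ I, err Lv K c ≤ ν.real (K true ∪ K false)ᶜ := by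
  unfold err
  rw [← measureReal_biUnion_finset (fun c _ c' _ hcc => ?_) (fun c _ => groupa_meas Lv hK c)]
  · exact measureReal_mono (Set.iUnion₂_subset fun c _ => Set.inter_subset_left)
  · refine Set.disjoint_left.2 fun x hx hx' => hcc ?_
    exact hx.2.symm.trans hx'.2

variable {i y Q K' : ℕ} {θ θ' ζ X ε C₁ : ℝ}

open Classical in
/-- If `x` is in `Lv.good` without carry then the class of the time `t` is `v (S^[τ t] x) % n`.  So the first count is at most the number of the
`t ∈ [(N - Q) u₀, N u₀)` with `S^[τ t] x ∈ Kᶜ ∩ {v % n ∈ [i + 1, i + y]}`, the second one at most the number of the pairs `(t, c)` with `S^[τ (t - per c)] x ∈ Kᶜ ∩ {v % n = c}`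
(`n ∣ per c ≤ t`).  Use `markov_count`; `Q u₀ / (ε Q J R ^ i y) = n / (ε y)`. -/
theorem bits_bound (Lv : Level ν S P τ n J R V) (hS : MeasurePreserving S ν ν) (hK : ∀ b, MeasurableSet (K b))
    (H : Num d C τ n J R V i y Q K' θ θ' ζ X ε C₁) :
    ν.real {x | x ∈ Lv.good ∧ Lv.v x + 2 * R ^ y * per n J R i ≤ V ∧
      (ε * (Q * (J * R ^ i) * y : ℕ) < (#{t ∈ times n i y (Lv.v x) ((2 * R ^ y - Q) * per n J R i) (2 * R ^ y * per n J R i) |
          S^[τ * t] x ∉ K true ∪ K false} : ℝ) ∨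
        ε * (Q * (J * R ^ i) * y : ℕ) < (#{t ∈ times n i y (Lv.v x) ((2 * R ^ y - Q) * per n J R i) (2 * R ^ y * per n J R i) |
          S^[τ * (t - per n J R ((Lv.v x + t) % n))] x ∉ K true ∪ K false} : ℝ))} ≤
      2 * n / (ε * y) * ∑ c ∈ Icc (i + 1) (i + y), err Lv K c := by
  set lo := (2 * R ^ y - Q) * per n J R i with hlo
  set hi := 2 * R ^ y * per n J R i with hhi
  set c₀ : ℝ := ε * (Q * (J * R ^ i) * y : ℕ) with hc₀
  have hR0 : 0 < R := by have := H.hR; omega
  have hQR : Q ≤ R ^ y := le_trans (Nat.le_of_dvd hR0 H.hQR) (Nat.le_self_pow (by have := H.hy; omega) R)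
  have hQ : (0 : ℝ) < Q := by exact_mod_cast H.hQ
  have hJ : (0 : ℝ) < J := by exact_mod_cast H.hJ
  have hy : (0 : ℝ) < y := by exact_mod_cast H.hy
  have hR : (0 : ℝ) < R := by exact_mod_cast hR0
  have hε := H.hε
  have hc0 : 0 < c₀ := by rw [hc₀]; push_cast; positivity
  set I : Finset (ℕ × ℕ) := Ico lo hi ×ˢ Icc (i + 1) (i + y) with hI
  set B : ℕ × ℕ → Set M := fun p => (K true ∪ K false)ᶜ ∩ {x | Lv.v x % n = p.2} with hB
  have hBm : ∀ p, MeasurableSet (B p) := fun p => groupa_meas Lv hK p.2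
  have hsum : (∑ p ∈ I, ν.real (B p)) / c₀ = n / (ε * y) * ∑ c ∈ Icc (i + 1) (i + y), err Lv K c := by
    have h1 : ∑ p ∈ I, ν.real (B p) =
        (Q * per n J R i : ℕ) * ∑ c ∈ Icc (i + 1) (i + y), err Lv K c := by
      rw [hI, Finset.sum_product]
      simp only [hB]
      rw [Finset.sum_const, Nat.card_Ico, nsmul_eq_mul]
      congr 2
      rw [hhi, hlo, ← Nat.sub_mul]
      congr 1
      omega
    rw [h1, hc₀]
    unfold per
    push_cast
    field_simp
  have m1 : ν.real {x | c₀ < (#{p ∈ I | S^[τ * p.1] x ∈ B p} : ℝ)} ≤ (∑ p ∈ I, ν.real (B p)) / c₀ := by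
    convert markov_count hS I (fun p => τ * p.1) hBm hc0
  have m2 : ν.real {x | c₀ < (#{p ∈ I | S^[τ * (p.1 - per n J R p.2)] x ∈ B p} : ℝ)} ≤
      (∑ p ∈ I, ν.real (B p)) / c₀ := by
    convert markov_count hS I (fun p => τ * (p.1 - per n J R p.2)) hBm hc0
  rw [hsum] at m1 m2
  refine le_trans (measureReal_mono (s₂ := {x | c₀ < (#{p ∈ I | S^[τ * p.1] x ∈ B p} : ℝ)} ∪
    {x | c₀ < (#{p ∈ I | S^[τ * (p.1 - per n J R p.2)] x ∈ B p} : ℝ)}) ?_)
    (le_trans (measureReal_union_le _ _) ?_)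
  · rintro x ⟨hg, hcar, hx⟩
    have hinj : ∀ T : Finset ℕ, Set.InjOn (fun t => (t, (Lv.v x + t) % n)) T :=
      fun T a _ b _ hab => (Prod.mk.inj hab).1
    rcases hx with hx | hx
    · left
      refine lt_of_lt_of_le hx ?_
      refine Nat.cast_le.2 (Finset.card_le_card_of_injOn (fun t => (t, (Lv.v x + t) % n))
        (fun t ht => ?_) (hinj _))
      simp only [times, Finset.coe_filter, Finset.mem_filter, Finset.mem_Ico,
        Set.mem_ofPred_eq] at ht
      obtain ⟨⟨⟨h1, h2⟩, h3, h4⟩, h5⟩ := ht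
      simp only [Finset.coe_filter, Set.mem_ofPred_eq, hI, Finset.mem_product, Finset.mem_Ico,
        Finset.mem_Icc]
      refine ⟨⟨⟨h1, h2⟩, h3, h4⟩, h5, ?_⟩
      show Lv.v (S^[τ * t] x) % n = (Lv.v x + t) % n
      rw [Lv.step x hg t (by omega)]
    · right
      refine lt_of_lt_of_le hx ?_
      refine Nat.cast_le.2 (Finset.card_le_card_of_injOn (fun t => (t, (Lv.v x + t) % n))
        (fun t ht => ?_) (hinj _))
      simp only [times, Finset.coe_filter, Finset.mem_filter, Finset.mem_Ico,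
        Set.mem_ofPred_eq] at ht
      obtain ⟨⟨⟨h1, h2⟩, h3, h4⟩, h5⟩ := ht
      simp only [Finset.coe_filter, Set.mem_ofPred_eq, hI, Finset.mem_product, Finset.mem_Ico,
        Finset.mem_Icc]
      refine ⟨⟨⟨h1, h2⟩, h3, h4⟩, h5, ?_⟩
      show Lv.v (S^[τ * (t - per n J R ((Lv.v x + t) % n))] x) % n = (Lv.v x + t) % n
      rw [Lv.step x hg _ (by omega)]
      set c := (Lv.v x + t) % n with hc
      have hper : per n J R c ≤ t := by
        refine le_trans ?_ h1
        calc per n J R c = n * J * R ^ c := rfl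
          _ ≤ n * J * R ^ (i + y) := Nat.mul_le_mul_left _ (Nat.pow_le_pow_right hR0 h4)
          _ = R ^ y * per n J R i := by unfold per; ring
          _ ≤ lo := Nat.mul_le_mul_right _ (by omega)
      have : Lv.v x + t = Lv.v x + (t - per n J R c) + n * (J * R ^ c) := by
        have : per n J R c = n * (J * R ^ c) := by unfold per; ring
        omega
      calc (Lv.v x + (t - per n J R c)) % n
          = (Lv.v x + (t - per n J R c) + n * (J * R ^ c)) % n := (Nat.add_mul_mod_self_left _ _ _).symm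
        _ = c := by rw [← this]
  · calc _ ≤ n / (ε * y) * ∑ c ∈ Icc (i + 1) (i + y), err Lv K c +
          n / (ε * y) * ∑ c ∈ Icc (i + 1) (i + y), err Lv K c := add_le_add m1 m2
      _ = _ := by ring

end Crest.Agent.R133
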