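import Crest.Agent.R133.Vol

/-! Row 133: perturbations of a dominated linear cocycle. -/

set_option autoImplicit false

namespace Crest.Agent.R133

open MeasureTheory Finset Metric Function

variable {d k : ℕ} {A : ℕ → E d →L[ℝ] E d} {O : E k →L[ℝ] E d} {T : ℕ} {κ ρ : ℕ → ℝ}

theorem Dom.mono (H : Dom A O T κ ρ) {T' : ℕ} (h : T' ≤ T) : Dom A O T' κ ρ :=
  ⟨H.pos, H.one, fun s t h1 h2 => H.back s t h1 (h2.trans h), fun s t h1 h2 => H.quot s t h1 (h2.trans h)⟩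

theorem lp_succ (A : ℕ → E d →L[ℝ] E d) (t : ℕ) (x : E d) :
    prod A 0 (t + 1) x = A t (prod A 0 t x) := by
  simp [prod]

/-- distance of the pseudo-orbit to the images of the plane -/
theorem lp_dist (H : Dom A O T κ ρ) {L ι m : ℝ} (hL : 1 ≤ L) (hA : ∀ t, t < T → BiLip L (A t))
    (hι0 : 0 ≤ ι) (hm0 : 0 ≤ m) {v : ℕ → E d}
    (hn : ∀ t, t < T → κ t * ‖v (t + 1) - A t (v t)‖ ≤ ι * ρ t * m) {a₀ : E k} {q₀ : E d}
    (h0 : v 0 = O a₀ + q₀) {t : ℕ} (ht : t ≤ T) :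
    ∃ a, ‖v t - prod A 0 t (O a)‖ ≤ ρ t * (κ 0 * ‖q₀‖ / ρ 0 + T * L * ι * m) := by
  have hx : ∀ s, ∃ x, s < T → prod A 0 (s + 1) x = v (s + 1) - A s (v s) := by
    intro s
    by_cases hs : s < T
    · have h1 : Injective (prod A 0 (s + 1)) :=
        (bilip_prod (L := L) (by linarith) fun r _ hr => hA r (by omega)).injective
      obtain ⟨x, hx⟩ := (LinearMap.injective_iff_surjective
        (f := (prod A 0 (s + 1) : E d →ₗ[ℝ] E d))).1 h1 (v (s + 1) - A s (v s))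
      exact ⟨x, fun _ => hx⟩
    · exact ⟨0, fun h => absurd h hs⟩
  choose x hx using hx
  have hv : ∀ r, r ≤ T → v r = prod A 0 r (O a₀ + q₀ + ∑ s ∈ range r, x s) := by
    intro r hr
    induction r with
    | zero => simp [prod, h0]
    | succ r ih =>
      rw [sum_range_succ, ← add_assoc, map_add, hx r hr, lp_succ, ← ih (by omega)]
      abel
  have hρ := H.pos
  obtain ⟨b, hb⟩ := H.quot 0 t (Nat.zero_le _) ht q₀
  have hc : ∀ s, ∃ c, s < t → ‖prod A 0 t (x s) - prod A 0 t (O c)‖ ≤ ρ t * (L * ι * m) := by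
    intro s
    by_cases hs : s < t
    · obtain ⟨c, hc⟩ := H.quot s t hs.le ht (x s)
      refine ⟨c, fun _ => le_of_mul_le_mul_right (hc.trans ?_) (hρ s)⟩
      have h1 := (hA s (by omega) (prod A 0 s (x s))).2
      rw [← lp_succ, hx s (by omega)] at h1
      have h2 := hn s (by omega)
      have h3 : 0 ≤ κ s := by linarith [H.one s]
      calc κ s * ρ t * ‖prod A 0 s (x s)‖ ≤ κ s * ρ t * (L * ‖v (s + 1) - A s (v s)‖) :=
            mul_le_mul_of_nonneg_left h1 (mul_nonneg h3 (hρ t).le)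
        _ = ρ t * L * (κ s * ‖v (s + 1) - A s (v s)‖) := by ring
        _ ≤ ρ t * L * (ι * ρ s * m) :=
            mul_le_mul_of_nonneg_left h2 (mul_nonneg (hρ t).le (by linarith))
        _ = _ := by ring
    · exact ⟨0, fun h => absurd h hs⟩
  choose c hc using hc
  refine ⟨a₀ + b + ∑ s ∈ range t, c s, ?_⟩
  have e1 : v t - prod A 0 t (O (a₀ + b + ∑ s ∈ range t, c s)) =
      (prod A 0 t q₀ - prod A 0 t (O b)) +
        ∑ s ∈ range t, (prod A 0 t (x s) - prod A 0 t (O (c s))) := by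
    rw [hv t ht]
    simp only [map_add, map_sum, sum_sub_distrib]
    abel
  have e2 : ‖prod A 0 t q₀ - prod A 0 t (O b)‖ ≤ ρ t * (κ 0 * ‖q₀‖ / ρ 0) := by
    rw [← mul_div_assoc, le_div_iff₀ (hρ 0)]
    refine hb.trans_eq ?_
    simp only [prod, ContinuousLinearMap.id_apply]
    ring
  have e3 : ‖∑ s ∈ range t, (prod A 0 t (x s) - prod A 0 t (O (c s)))‖ ≤
      ρ t * (T * L * ι * m) := by
    refine (norm_sum_le_of_le _ fun s hs => hc s (mem_range.1 hs)).trans ?_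
    rw [sum_const, card_range, nsmul_eq_mul]
    have h1 : (t : ℝ) ≤ T := by exact_mod_cast ht
    have h2 : 0 ≤ ρ t * (L * ι * m) := mul_nonneg (hρ t).le (by positivity)
    calc (t : ℝ) * (ρ t * (L * ι * m)) ≤ T * (ρ t * (L * ι * m)) :=
          mul_le_mul_of_nonneg_right h1 h2
      _ = _ := by ring
  rw [e1, mul_add]
  exact norm_add_le_of_le e2 e3

theorem lp_aux (H : Dom A O T κ ρ) {L ι : ℝ} (hL : 1 ≤ L) (hA : ∀ t, t < T → BiLip L (A t))
    (hO : Injective O) {e : ℕ → ℝ} (he0 : ∀ s, 0 ≤ e s) (he : ∀ s, s < T → κ s ^ 2 * e s ≤ ι)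
    (hι0 : 0 ≤ ι) (hι : 6 * ((T : ℝ) + 1) ^ 2 * L ^ 3 * ι ≤ 1) {v : ℕ → E d}
    (hv : ∀ t, t < T → ‖v (t + 1) - A t (v t)‖ ≤ e t * ‖v t‖) {a₀ : E k} {q₀ : E d}
    (h0 : v 0 = O a₀ + q₀) {P : E d →L[ℝ] E k} (hP : IsProj (prod A 0 T ∘L O) P) :
    (∀ s, s ≤ T → ‖v s‖ ≤ κ s * ρ s *
      (2 * ‖prod A 0 T (O (P (v T)))‖ / ρ T + 2 * (T * L ^ 2 + 1) * (κ 0 * ‖q₀‖ / ρ 0))) ∧
    (q₀ = 0 → ‖v T - prod A 0 T (O (P (v T)))‖ ≤ 2 * T * L * ι * ‖prod A 0 T (O (P (v T)))‖) := by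
  have hρ := H.pos
  have hκ := H.one
  have hκρ : ∀ s, 0 < κ s * ρ s := fun s => mul_pos (by linarith [hκ s]) (hρ s)
  obtain ⟨s₀, hs₀, hmax⟩ := exists_max_image (range (T + 1)) (fun s => ‖v s‖ / (κ s * ρ s))
    ⟨0, by simp⟩
  set m := ‖v s₀‖ / (κ s₀ * ρ s₀) with hm
  have hm0 : 0 ≤ m := div_nonneg (norm_nonneg _) (hκρ _).le
  have hvm : ∀ s, s ≤ T → ‖v s‖ ≤ κ s * ρ s * m := fun s hs => by
    have := hmax s (mem_range.2 (by omega))
    rwa [div_le_iff₀ (hκρ s), mul_comm] at this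
  have hn : ∀ t, t < T → κ t * ‖v (t + 1) - A t (v t)‖ ≤ ι * ρ t * m := by
    intro t ht
    have h1 := (hv t ht).trans (mul_le_mul_of_nonneg_left (hvm t ht.le) (he0 t))
    calc κ t * ‖v (t + 1) - A t (v t)‖ ≤ κ t * (e t * (κ t * ρ t * m)) :=
          mul_le_mul_of_nonneg_left h1 (by linarith [hκ t])
      _ = κ t ^ 2 * e t * (ρ t * m) := by ring
      _ ≤ ι * (ρ t * m) := mul_le_mul_of_nonneg_right (he t ht) (mul_nonneg (hρ t).le hm0)
      _ = _ := by ring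
  have hn' : ∀ t, t < T → ‖v (t + 1) - A t (v t)‖ ≤ ι * ρ t * m := fun t ht =>
    (le_mul_of_one_le_left (norm_nonneg _) (hκ t)).trans (hn t ht)
  have hPt : ∀ t, ∃ Q : E d →L[ℝ] E k, (t ≤ T → IsProj (prod A 0 t ∘L O) Q) ∧ (t = T → Q = P) := by
    intro t
    rcases lt_trichotomy t T with h | rfl | h
    · have h1 : Injective (prod A 0 t) :=
        (bilip_prod (L := L) (by linarith) fun r _ hr => hA r (by omega)).injective
      obtain ⟨Q, hQ⟩ := exists_proj (W := prod A 0 t ∘L O) (h1.comp hO)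
      exact ⟨Q, fun _ => hQ, fun h' => absurd h' h.ne⟩
    · exact ⟨P, fun _ => hP, fun _ => rfl⟩
    · exact ⟨P, fun h' => absurd h' (not_le.2 h), fun _ => rfl⟩
  choose Q hQ hQT using hPt
  set ω := κ 0 * ‖q₀‖ / ρ 0 with hω
  have hω0 : 0 ≤ ω := div_nonneg (mul_nonneg (by linarith [hκ 0]) (norm_nonneg _)) (hρ 0).le
  set δ := ω + T * L * ι * m with hδ
  have hδ0 : 0 ≤ δ := by positivity
  have hq : ∀ t, t ≤ T → ‖v t - prod A 0 t (O (Q t (v t)))‖ ≤ ρ t * δ := fun t ht => by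
    obtain ⟨a, ha⟩ := lp_dist H hL hA hι0 hm0 hn h0 ht
    exact ((hQ t ht).best (v t) a).trans ha
  set c := L * (L * δ + ι * m) with hc
  have hc0 : 0 ≤ c := by positivity
  have hstep : ∀ s t, s ≤ t → t < T →
      ‖prod A 0 s (O (Q (t + 1) (v (t + 1)) - Q t (v t)))‖ ≤ κ s * ρ s * c := by
    intro s t hst ht
    have e1 : Q (t + 1) (v (t + 1)) - Q t (v t) = Q (t + 1)
        (A t (v t - prod A 0 t (O (Q t (v t)))) + (v (t + 1) - A t (v t))) := by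
      have := (hQ (t + 1) ht).left (Q t (v t))
      rw [ContinuousLinearMap.comp_apply, lp_succ] at this
      simp only [map_add, map_sub, this]
      abel
    have e2 := (hQ (t + 1) ht).norm_le
      (A t (v t - prod A 0 t (O (Q t (v t)))) + (v (t + 1) - A t (v t)))
    rw [← e1, ContinuousLinearMap.comp_apply, lp_succ] at e2
    have e3 := e2.trans (norm_add_le_of_le (((hA t ht _).1).trans
      (mul_le_mul_of_nonneg_left (hq t ht.le) (by linarith))) (hn' t ht))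
    have e4 := ((hA t ht _).2).trans (mul_le_mul_of_nonneg_left e3 (by linarith))
    refine le_of_mul_le_mul_right ((H.back s t hst ht.le _).trans ?_) (hρ t)
    refine (mul_le_mul_of_nonneg_left e4 (hκρ s).le).trans_eq ?_
    rw [hc]; ring
  have htel : ∀ s j, s + j ≤ T →
      ‖prod A 0 s (O (Q (s + j) (v (s + j)) - Q s (v s)))‖ ≤ j * (κ s * ρ s * c) := by
    intro s j
    induction j with
    | zero => intro _; simp
    | succ j ih =>
      intro hj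
      have e1 : prod A 0 s (O (Q (s + (j + 1)) (v (s + (j + 1))) - Q s (v s))) =
          prod A 0 s (O (Q (s + j) (v (s + j)) - Q s (v s))) +
            prod A 0 s (O (Q (s + j + 1) (v (s + j + 1)) - Q (s + j) (v (s + j)))) := by
        rw [← map_add, ← map_add, ← add_assoc]
        congr 2
        abel
      rw [e1]
      push_cast
      rw [add_mul, one_mul]
      exact norm_add_le_of_le (ih (by omega)) (hstep s (s + j) (by omega) (by omega))
  set p := ‖prod A 0 T (O (P (v T)))‖ with hp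
  have hall : ∀ s, s ≤ T → ‖v s‖ ≤ κ s * ρ s * (p / ρ T + T * c + δ) := by
    intro s hs
    have e1 := htel s (T - s) (by omega)
    rw [Nat.add_sub_cancel' hs, hQT T rfl] at e1
    have e2 : ((T - s : ℕ) : ℝ) * (κ s * ρ s * c) ≤ T * (κ s * ρ s * c) :=
      mul_le_mul_of_nonneg_right (by exact_mod_cast Nat.sub_le T s) (mul_nonneg (hκρ s).le hc0)
    have e3 : ‖prod A 0 s (O (P (v T)))‖ ≤ κ s * ρ s * (p / ρ T) := by
      rw [← mul_div_assoc, le_div_iff₀ (hρ T)]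
      exact H.back s T hs le_rfl _
    have e4 : ρ s * δ ≤ κ s * ρ s * δ :=
      mul_le_mul_of_nonneg_right (le_mul_of_one_le_left (hρ s).le (hκ s)) hδ0
    have e5 : v s = prod A 0 s (O (P (v T))) - prod A 0 s (O (P (v T) - Q s (v s))) +
        (v s - prod A 0 s (O (Q s (v s)))) := by
      simp only [map_sub]; abel
    have e6 := norm_add_le_of_le (norm_sub_le_of_le e3 (e1.trans e2)) ((hq s hs).trans e4)
    rw [← e5] at e6
    refine e6.trans_eq ?_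
    ring
  have hm1 : m ≤ p / ρ T + T * c + δ := by
    rw [hm, div_le_iff₀ (hκρ s₀), mul_comm]
    exact hall s₀ (by have := mem_range.1 hs₀; omega)
  have hco : ((T : ℝ) ^ 2 * L ^ 3 + 2 * T * L) * ι ≤ 1 / 2 := by
    have h1 : L ≤ L ^ 3 := le_self_pow₀ hL (by norm_num)
    have h2 : (T : ℝ) ^ 2 * L ^ 3 + 2 * T * L ≤ (T + 1) ^ 2 * L ^ 3 := by
      have : (0 : ℝ) ≤ T := Nat.cast_nonneg T
      nlinarith
    have h3 := mul_le_mul_of_nonneg_right h2 hι0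
    have h4 : 0 ≤ ((T : ℝ) + 1) ^ 2 * L ^ 3 * ι := by positivity
    linarith
  have hm2 : m ≤ 2 * p / ρ T + 2 * (T * L ^ 2 + 1) * ω := by
    have h1 := mul_le_mul_of_nonneg_right hco hm0
    have h2 : p / ρ T + T * c + δ =
        p / ρ T + (T * L ^ 2 + 1) * ω + ((T : ℝ) ^ 2 * L ^ 3 + 2 * T * L) * ι * m := by
      rw [hc, hδ]; ring
    rw [mul_div_assoc]
    linarith
  refine ⟨fun s hs => (hvm s hs).trans (mul_le_mul_of_nonneg_left hm2 (hκρ s).le), fun hq0 => ?_⟩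
  have h1 := hq T le_rfl
  have h2 : ω = 0 := by rw [hω, hq0]; simp
  rw [hQT T rfl, hδ, h2, zero_add] at h1
  rw [h2, mul_zero, add_zero] at hm2
  refine h1.trans ((mul_le_mul_of_nonneg_left
    (mul_le_mul_of_nonneg_left hm2 (by positivity)) (hρ T).le).trans_eq ?_)
  have := (hρ T).ne'
  field_simp

/-- Let `G t = prod A 0 t`, `W t = G t ∘ O`, `n s = v (s + 1) - A s (v s)`, `m = max_{s ≤ T} ‖v s‖ / (κ s ρ s)`, `ω = κ 0 ‖q₀‖ / ρ 0`.
Write `n s = G (s + 1) (x s)` (the maps are bijective), `‖G s (x s)‖ ≤ L ‖n s‖ ≤ L e s κ s ρ s m`; `v t = W t a₀ + G t q₀ + ∑_{s < t} G t (x s)`, so `quot` gives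
`dist (v t, range (W t)) ≤ ρ t (ω + T L ι m)`.  Let `P t` be projections for `W t` (`P T = P`), `a t = P t (v t)`, `q t = v t - W t (a t)`.  Then
`W (t + 1) (a (t + 1) - a t) = W (t + 1) P (t + 1) (A t (q t) + n t)` has norm `≤ L ‖q t‖ + ι ρ t m`, so by `back`
`‖W s (a (t + 1) - a t)‖ ≤ κ s ρ s L (L (ω + T L ι m) + ι m)` for `s ≤ t < T`.  Summing,
`m ≤ π / ρ T + (T L² + 1) ω + (T² L³ + 2 T L) ι m` with `π = ‖W T (a T)‖`. -/
theorem lp (H : Dom A O T κ ρ) {L ι : ℝ} (hL : 1 ≤ L) (hA : ∀ t, t < T → BiLip L (A t)) (hO : Injective O)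
    {e : ℕ → ℝ} (he0 : ∀ s, 0 ≤ e s) (he : ∀ s, s < T → κ s ^ 2 * e s ≤ ι)
    (hι : 6 * ((T : ℝ) + 1) ^ 2 * L ^ 3 * ι ≤ 1) {v : ℕ → E d}
    (hv : ∀ t, t < T → ‖v (t + 1) - A t (v t)‖ ≤ e t * ‖v t‖) {a₀ : E k} {q₀ : E d} (h0 : v 0 = O a₀ + q₀)
    {P : E d →L[ℝ] E k} (hP : IsProj (prod A 0 T ∘L O) P) :
    (∀ s, s ≤ T → ‖v s‖ ≤ κ s * ρ s *
      (2 * ‖prod A 0 T (O (P (v T)))‖ / ρ T + 2 * (T * L ^ 2 + 1) * (κ 0 * ‖q₀‖ / ρ 0))) ∧
    (q₀ = 0 → ‖v T - prod A 0 T (O (P (v T)))‖ ≤ 2 * T * L * ι * ‖prod A 0 T (O (P (v T)))‖) := by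
  rcases Nat.eq_zero_or_pos T with rfl | hT
  · simpa using lp_aux (ι := 0) H hL hA hO he0 (fun s hs => absurd hs (Nat.not_lt_zero s)) le_rfl
      (by simp) hv h0 hP
  · exact lp_aux H hL hA hO he0 he
      ((mul_nonneg (sq_nonneg _) (he0 0)).trans (he 0 hT)) hι hv h0 hP

end Crest.Agent.R133
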