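import Crest.Agent.R133.LossA

/-! Row 133: small defects and frequent gaps give a regular window (finite time Oseledets theory).

Notation: `[k, k']` (for `k ≥ k'`) is the window of times `[N - k, N - k']`, `a⁻, a, a⁺` are `wa u, wa (u + 1), wa (u + 2)`,
`λ = a - a⁻`, `λ⁺ = a⁺ - a`, `γ = λ - λ⁺ ≥ 0` (`ea_concave`), `|λ|, |λ⁺| ≤ Λ · length`, `Δ k = dfc Λ A (N - k) k` (monotone),
`G t = prod A 0 t`, `b [k, k'] = log vol (G (N - k') O) - log vol (G (N - k) O) ≤ a [k, k']` (additive), `σ = ε X / 4`. -/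

set_option autoImplicit false

namespace Crest.Agent.R133

open MeasureTheory Finset Metric Function

variable {d : ℕ} {u : ℕ} {A : ℕ → E d →L[ℝ] E d} {O : E u →L[ℝ] E d} {l Λ θ ζ X ε : ℝ} {N Q K : ℕ}

theorem loss_wa_self (j s : ℕ) : wa Λ A j s s = 0 := by
  unfold wa
  simp only [Nat.sub_self, Nat.cast_zero, mul_zero, prod]
  exact ea_id j

theorem loss_two_le (hA : ∀ t, Injective (A t)) {j : ℕ} (hj : j < d + 3) {s a t : ℕ} (h1 : s ≤ a) (h2 : a ≤ t) :
    wa Λ A j s a + wa Λ A j a t ≤ wa Λ A j s t + dfc Λ A s (t - s) := by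
  have := three_wa_le (Λ := Λ) hA hj h1 (le_refl a) h2
  rw [loss_wa_self] at this
  linarith

theorem loss_prod_comp (A : ℕ → E d →L[ℝ] E d) {s t : ℕ} (h : s ≤ t) :
    prod A s (t - s) ∘L prod A 0 s = prod A 0 t := by
  have := prod_add A 0 s (t - s)
  rw [Nat.zero_add, Nat.add_sub_cancel' h] at this
  exact this.symm

theorem loss_prod_inj (hA : ∀ t, Injective (A t)) (s m : ℕ) : Injective (prod A s m) := by
  induction m with
  | zero => exact injective_id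
  | succ m ih => exact (hA _).comp ih

theorem loss_vol_pos (hA : ∀ t, Injective (A t)) (hO : Injective O) (s : ℕ) : 0 < vol (prod A 0 s ∘L O) :=
  vol_pos ((loss_prod_inj hA 0 s).comp hO)

theorem loss_comp_eq (A : ℕ → E d →L[ℝ] E d) (O : E u →L[ℝ] E d) {s t : ℕ} (h : s ≤ t) :
    prod A s (t - s) ∘L (prod A 0 s ∘L O) = prod A 0 t ∘L O := by
  rw [← ContinuousLinearMap.comp_assoc, loss_prod_comp A h]

theorem loss_nonneg' (hu : u ≤ d) (hA : ∀ t, Injective (A t)) (hO : Injective O) {s t : ℕ} (h : s ≤ t) :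
    0 ≤ loss Λ A O s t := by
  have h1 := vol_le_alpha (prod A s (t - s)) (prod A 0 s ∘L O)
  rw [loss_comp_eq A O h, ← exp_ea (lam := Λ * ((t - s : ℕ) : ℝ)) (loss_prod_inj hA s (t - s)) hu] at h1
  have h2 := Real.log_le_log (loss_vol_pos hA hO t) h1
  rw [Real.log_mul (Real.exp_pos _).ne' (loss_vol_pos hA hO s).ne', Real.log_exp] at h2
  unfold loss wa
  linarith

theorem loss_back (hu : u ≤ d) (hA : ∀ t, Injective (A t)) (hO : Injective O) {s t : ℕ} (h : s ≤ t) (a : E u) :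
    ‖prod A 0 s (O a)‖ ≤
      Real.exp (-(wa Λ A (u + 1) s t - wa Λ A u s t) + loss Λ A O s t) * ‖prod A 0 t (O a)‖ := by
  have h1 := ea_back (lam := Λ * ((t - s : ℕ) : ℝ)) (loss_prod_inj hA s (t - s)) hu (prod A 0 s ∘L O) a
  rw [loss_comp_eq A O h] at h1
  have e1 : prod A s (t - s) ((prod A 0 s ∘L O) a) = prod A 0 t (O a) := by
    rw [← loss_prod_comp A h]; rfl
  rw [e1] at h1
  have p1 := loss_vol_pos hA hO s
  have p2 := loss_vol_pos hA hO t
  have e2 : Real.exp (-(wa Λ A (u + 1) s t - wa Λ A u s t) + loss Λ A O s t) =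
      Real.exp (wa Λ A u s t) * vol (prod A 0 s ∘L O) / vol (prod A 0 t ∘L O) := by
    have : -(wa Λ A (u + 1) s t - wa Λ A u s t) + loss Λ A O s t =
        wa Λ A u s t + Real.log (vol (prod A 0 s ∘L O)) - Real.log (vol (prod A 0 t ∘L O)) := by
      unfold loss; ring
    rw [this, Real.exp_sub, Real.exp_add, Real.exp_log p1, Real.exp_log p2]
  rw [e2, div_mul_eq_mul_div, le_div_iff₀ p2]
  have e3 : (prod A 0 s ∘L O) a = prod A 0 s (O a) := rfl
  rw [e3] at h1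
  unfold wa
  linarith

theorem loss_quot (hu : u ≤ d) (hA : ∀ t, Injective (A t)) (hO : Injective O) {s t : ℕ} (h : s ≤ t) (z : E d) :
    ∃ a, ‖prod A s (t - s) z - prod A 0 t (O a)‖ ≤
      Real.exp ((wa Λ A (u + 2) s t - wa Λ A (u + 1) s t) + loss Λ A O s t) * ‖z‖ := by
  obtain ⟨a, h1⟩ := ea_quot (lam := Λ * ((t - s : ℕ) : ℝ)) (loss_prod_inj hA s (t - s)) hu (prod A 0 s ∘L O) z
  refine ⟨a, ?_⟩
  rw [loss_comp_eq A O h] at h1
  have e1 : prod A s (t - s) ((prod A 0 s ∘L O) a) = prod A 0 t (O a) := by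
    rw [← loss_prod_comp A h]; rfl
  rw [e1] at h1
  have p1 := loss_vol_pos hA hO s
  have p2 := loss_vol_pos hA hO t
  have e2 : Real.exp ((wa Λ A (u + 2) s t - wa Λ A (u + 1) s t) + loss Λ A O s t) =
      Real.exp (wa Λ A (u + 2) s t) * vol (prod A 0 s ∘L O) / vol (prod A 0 t ∘L O) := by
    have : (wa Λ A (u + 2) s t - wa Λ A (u + 1) s t) + loss Λ A O s t =
        wa Λ A (u + 2) s t + Real.log (vol (prod A 0 s ∘L O)) - Real.log (vol (prod A 0 t ∘L O)) := by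
      unfold loss; ring
    rw [this, Real.exp_sub, Real.exp_add, Real.exp_log p1, Real.exp_log p2]
  rw [e2, div_mul_eq_mul_div, le_div_iff₀ p2]
  unfold wa
  linarith

theorem loss_sub (hu : u ≤ d) (hA : ∀ t, Injective (A t)) (hO : Injective O) {s' s t w : ℕ} (h1 : s' ≤ s) (h2 : s ≤ t)
    (h3 : t ≤ w) : loss Λ A O s t ≤ dfc Λ A s' (w - s') + loss Λ A O s' w := by
  have a1 := loss_nonneg' (Λ := Λ) hu hA hO h1
  have a2 := loss_nonneg' (Λ := Λ) hu hA hO h3
  have a3 := three_wa_le (Λ := Λ) hA (j := u + 1) (by omega) h1 h2 h3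
  unfold loss at *
  linarith

theorem loss_lam_add (hu : u ≤ d) (hA : ∀ t, Injective (A t)) {s t w : ℕ} (h1 : s ≤ t) (h2 : t ≤ w) :
    |(wa Λ A (u + 1) s w - wa Λ A u s w) - (wa Λ A (u + 1) s t - wa Λ A u s t) -
      (wa Λ A (u + 1) t w - wa Λ A u t w)| ≤ dfc Λ A s (w - s) := by
  have a1 := loss_two_le (Λ := Λ) hA (j := u + 1) (by omega) h1 h2
  have a2 := loss_two_le (Λ := Λ) hA (j := u) (by omega) h1 h2
  have a3 := wa_sub (Λ := Λ) hA (u + 1) h1 h2
  have a4 := wa_sub (Λ := Λ) hA u h1 h2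
  rw [abs_le]
  constructor <;> linarith

theorem loss_sign (hu : u ≤ d) (hA : ∀ t, Injective (A t)) {s' s t w : ℕ} (h1 : s' ≤ s) (h2 : s ≤ t) (h3 : t ≤ w)
    (h : wa Λ A u s' w ≤ wa Λ A (u + 1) s' w) :
    -(wa Λ A (u + 1) s t - wa Λ A u s t) ≤ dfc Λ A s' (w - s') := by
  have a1 := three_max_wa_le (Λ := Λ) hA (j := u) (by omega) h1 h2 h3
  rw [max_eq_right h] at a1
  have a2 := wa_sub (Λ := Λ) hA (u + 1) h1 (h2.trans h3)
  have a3 := wa_sub (Λ := Λ) hA (u + 1) h2 h3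
  have a4 := le_max_right (wa Λ A u s' s) (wa Λ A (u + 1) s' s)
  have a5 := le_max_left (wa Λ A u s t) (wa Λ A (u + 1) s t)
  have a6 := le_max_right (wa Λ A u t w) (wa Λ A (u + 1) t w)
  linarith

theorem loss_slow (hu : u ≤ d) (hA : ∀ t, Injective (A t)) {s' s t w : ℕ} (h1 : s' ≤ s) (h2 : s ≤ t) (h3 : t ≤ w)
    {c : ℝ} (hc : 0 ≤ c) (h : wa Λ A (u + 2) s' w - wa Λ A (u + 1) s' w ≤ c) :
    wa Λ A (u + 2) s t - wa Λ A (u + 1) s t ≤ c + dfc Λ A s' (w - s') := by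
  have a1 := three_max_wa_le (Λ := Λ) hA (j := u + 1) (by omega) h1 h2 h3
  have a0 : max (wa Λ A (u + 1) s' w) (wa Λ A (u + 1 + 1) s' w) ≤ wa Λ A (u + 1) s' w + c :=
    max_le (by linarith) (by linarith)
  have a2 := wa_sub (Λ := Λ) hA (u + 1) h1 (h2.trans h3)
  have a3 := wa_sub (Λ := Λ) hA (u + 1) h2 h3
  have a4 := le_max_left (wa Λ A (u + 1) s' s) (wa Λ A (u + 1 + 1) s' s)
  have a5 := le_max_right (wa Λ A (u + 1) s t) (wa Λ A (u + 1 + 1) s t)
  have a6 := le_max_left (wa Λ A (u + 1) t w) (wa Λ A (u + 1 + 1) t w)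
  linarith

theorem Win.inj (H : Win u A O l Λ θ ζ X ε N Q K) (t : ℕ) : Injective (A t) := (H.hA t).injective

theorem Win.one_le_l (H : Win u A O l Λ θ ζ X ε N Q K) : 1 ≤ l := by
  have := H.hl
  have : (0 : ℝ) ≤ (d : ℝ) ^ 2 + d := by positivity
  linarith

theorem Win.two_le (H : Win u A O l Λ θ ζ X ε N Q K) : 2 ≤ Λ := by
  have := H.one_le_l
  have : (0 : ℝ) ≤ d := Nat.cast_nonneg _
  rw [H.hΛ]; nlinarith

theorem Win.bil (H : Win u A O l Λ θ ζ X ε N Q K) (s m : ℕ) :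
    BiLip (Real.exp (l * m)) (prod A s m) ∧ 0 ≤ l * m ∧ 2 * d * (l * m) ≤ Λ * m := by
  have := H.one_le_l
  refine ⟨?_, by positivity, ?_⟩
  · rw [mul_comm, Real.exp_nat_mul]
    exact bilip_prod (Real.exp_pos _).le fun t _ _ => H.hA t
  · rw [H.hΛ]
    have : (0 : ℝ) ≤ l * m := by positivity
    nlinarith

theorem Win.abs_lam (H : Win u A O l Λ θ ζ X ε N Q K) (j s t : ℕ) :
    |wa Λ A (j + 1) s t - wa Λ A j s t| ≤ Λ * ((t - s : ℕ) : ℝ) :=
  abs_ea_sub_le (H.bil s (t - s)).1 (H.bil s (t - s)).2.1 (H.bil s (t - s)).2.2 j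

theorem Win.conc (H : Win u A O l Λ θ ζ X ε N Q K) (s t : ℕ) :
    wa Λ A (u + 2) s t + wa Λ A u s t ≤ 2 * wa Λ A (u + 1) s t :=
  ea_concave (H.bil s (t - s)).1 (H.bil s (t - s)).2.1 (H.bil s (t - s)).2.2 H.hu

theorem Win.K_ge (H : Win u A O l Λ θ ζ X ε N Q K) : 64 ≤ K := by
  have h1 := H.hK
  have h2 : ε * X ≤ 1 := mul_le_one₀ H.hε1 H.hX.le H.hX1
  have h3 : (0 : ℝ) ≤ K := Nat.cast_nonneg _
  have : (64 : ℝ) ≤ K := by nlinarith
  exact_mod_cast this

theorem Win.KQ_le (H : Win u A O l Λ θ ζ X ε N Q K) : Q ≤ K * Q ∧ K * Q ≤ K ^ 2 * Q ∧ K ^ 2 * Q ≤ N := by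
  have := H.K_ge
  refine ⟨Nat.le_mul_of_pos_left _ (by omega), Nat.mul_le_mul_right _ (Nat.le_self_pow (by norm_num) _), H.hKN⟩

theorem Win.dfc_row (H : Win u A O l Λ θ ζ X ε N Q K) {k : ℕ} (hk : k ≤ K ^ 2 * Q) :
    dfc Λ A (N - k) k ≤ ζ * Λ * Q :=
  (dfc_mono H.inj hk H.hKN).trans H.h2

theorem Win.dfc_lin (H : Win u A O l Λ θ ζ X ε N Q K) {k : ℕ} (hk : k ≤ N) : dfc Λ A (N - k) k ≤ θ * Λ * k := by
  rcases Nat.eq_zero_or_pos k with h | h
  · subst h; rw [dfc_zero]; simp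
  · exact H.h1 k h hk

theorem Win.gap (H : Win u A O l Λ θ ζ X ε N Q K) :
    wa Λ A (u + 2) (N - Q) N - wa Λ A (u + 1) (N - Q) N ≤ ζ * Λ * Q := by
  classical
  have hQN : Q ≤ N := H.KQ_le.1.trans (H.KQ_le.2.1.trans H.KQ_le.2.2)
  have h := H.h3 1 le_rfl (by omega)
  have hε := H.hε
  have hpos : 0 < #{q' ∈ range 1 | Gap u X ζ (Λ * Q) (prod A (N - (q' + 1) * Q) Q)} := by
    have : (0 : ℝ) < #{q' ∈ range 1 | Gap u X ζ (Λ * Q) (prod A (N - (q' + 1) * Q) Q)} := by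
      push_cast at h
      refine lt_of_lt_of_le (by linarith) (h.trans (le_of_eq ?_))
      congr
    exact_mod_cast this
  obtain ⟨q', hq'⟩ := Finset.card_pos.1 hpos
  rw [Finset.mem_filter, Finset.mem_range] at hq'
  obtain ⟨h0, hg⟩ := hq'
  have : q' = 0 := by omega
  subst this
  have e : N - (N - Q) = Q := by omega
  unfold wa
  rw [e]
  have := hg.2
  simp only [Nat.zero_add, Nat.one_mul] at this
  linarith

/-- For `k⁺` the least positive multiple of `Q` with `k ≤ k⁺`: `loss [k, k''] ≤ Δ k⁺ + loss [k⁺, 0]`.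
Take `ρ s = exp (-λ [N - s, 0])`, `κ s = exp (3 Δ (min N (K k⁺)) + Λ)` for `k = N - s`; `|λ [k, 0] - λ [k, k''] - λ [k'', 0]| ≤ Δ k`;
`back` from `ea_back`, `quot` from `ea_quot` and `λ⁺ ≤ λ`.  If `k ≤ K Q` then `log κ ≤ 3 ζ Λ Q + Λ`; otherwise `log κ ≤ 6 θ K Λ k + Λ`.
Sign consistency: if `λ I ≥ 0` then `λ J ≥ -Δ` on subwindows `J` (`three_max_wa_le` with `j = u`), so for `Q ≤ k ≤ K Q`,
`log (ρ s / ρ T₁) ≤ -λ [k, Q] + Δ k ≤ 2 ζ Λ Q`.  For `k > K Q`: `λ [k, 0] ≥ σ Λ (k - Q) - Λ Q - θ Λ k`, so `log (ρ s / ρ T₁) ≤ -σ Λ k / 2`. -/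
theorem Win.past (H : Win u A O l Λ θ ζ X ε N Q K) :
    ∃ κ ρ : ℕ → ℝ, Dom A O N κ ρ ∧
      (∀ s, s ≤ N → κ s ^ 2 * prof Λ ζ θ N Q K s ≤ Real.exp (-(8 * ζ * Λ * Q))) ∧
      ∀ s, s ≤ N - Q → 4 * Real.exp (-(40 * ζ * Λ * Q)) * κ s * ρ s ≤ prof Λ ζ θ N Q K s * ρ (N - Q) := by
  have hinj := H.inj
  have hO := H.hO.injective
  have hu := H.hu
  have hΛ := H.two_le
  have hQ := H.hQ
  have hK := H.K_ge
  obtain ⟨k1, k2, k3⟩ := H.KQ_le
  have hQN : Q ≤ N := k1.trans (k2.trans k3)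
  have hζ := H.hζ
  have hθ := H.hθ
  have hζΛQ : 10 * Λ ≤ ζ * Λ * Q := by have := H.hζQ; nlinarith
  -- the next multiple of `Q`
  let qp : ℕ → ℕ := fun k => (k - 1) / Q + 1
  have q1 : ∀ k, 1 ≤ qp k := fun k => Nat.le_add_left _ _
  have q2 : ∀ k, k ≤ qp k * Q := fun k => by
    have := Nat.lt_div_mul_add (a := k - 1) hQ
    show k ≤ ((k - 1) / Q + 1) * Q
    rw [Nat.add_mul]; omega
  have q3 : ∀ k, qp k * Q ≤ k + Q := fun k => by
    have := Nat.div_mul_le_self (k - 1) Q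
    show ((k - 1) / Q + 1) * Q ≤ _
    rw [Nat.add_mul]; omega
  have q4 : ∀ k c, 1 ≤ c → k ≤ c * Q → qp k * Q ≤ c * Q := fun k c hc h => by
    have h1 : 1 ≤ c * Q := Nat.mul_pos hc hQ
    have : (k - 1) / Q < c := (Nat.div_lt_iff_lt_mul hQ).2 (by omega)
    exact Nat.mul_le_mul_right _ this
  have q5 : ∀ k, k ≤ N → qp k * Q ≤ N := fun k hk => by
    obtain ⟨c, hc⟩ := H.hQN
    have : 1 ≤ c := by
      rcases Nat.eq_zero_or_pos c with h | h
      · subst h; omega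
      · exact h
    have e : N = c * Q := by rw [hc, Nat.mul_comm]
    rw [e]; exact q4 k c this (e ▸ hk)
  let Δ : ℕ → ℝ := fun k => dfc Λ A (N - k) k
  let mm : ℕ → ℕ := fun s => min N (K * (qp (N - s) * Q))
  let lam : ℕ → ℕ → ℝ := fun s t => wa Λ A (u + 1) s t - wa Λ A u s t
  have hΔ0 : ∀ k, 0 ≤ Δ k := fun k => dfc_nonneg hinj _ _
  have hΔs : ∀ s, s ≤ N → dfc Λ A s (N - s) = Δ (N - s) := fun s hs => by
    show _ = dfc Λ A (N - (N - s)) (N - s)
    rw [Nat.sub_sub_self hs]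
  have hmm : ∀ s, qp (N - s) * Q ≤ mm s := fun s =>
    le_min (q5 _ (Nat.sub_le _ _)) (Nat.le_mul_of_pos_left _ (by omega))
  have hloss : ∀ s t, s ≤ t → t ≤ N → loss Λ A O s t + Δ (N - s) ≤ 3 * Δ (mm s) + Λ := fun s t h1 h2 => by
    have b0 := q5 (N - s) (Nat.sub_le _ _)
    have b1 := loss_sub (Λ := Λ) hu hinj hO (s' := N - qp (N - s) * Q) (by have := q2 (N - s); omega) h1 h2
    rw [Nat.sub_sub_self b0] at b1
    have b2 := H.loss_le (q1 (N - s)) b0
    have b3 : Δ (qp (N - s) * Q) ≤ Δ (mm s) := dfc_mono hinj (hmm s) (min_le_left _ _)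
    have b4 : Δ (N - s) ≤ Δ (mm s) := dfc_mono hinj ((q2 _).trans (hmm s)) (min_le_left _ _)
    have b5 : dfc Λ A (N - qp (N - s) * Q) (qp (N - s) * Q) = Δ (qp (N - s) * Q) := rfl
    have b6 : dfc Λ A (N - min N (K * (qp (N - s) * Q))) (min N (K * (qp (N - s) * Q))) = Δ (mm s) := rfl
    linarith
  have hκ1 : ∀ s, N - s ≤ K * Q → 3 * Δ (mm s) + Λ ≤ 3 * (ζ * Λ * Q) + Λ := fun s hs => by
    have b1 : mm s ≤ K ^ 2 * Q := by
      refine (min_le_right _ _).trans ?_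
      rw [sq, Nat.mul_assoc]
      exact Nat.mul_le_mul_left _ (q4 _ K (by omega) hs)
    have := H.dfc_row b1
    show 3 * dfc Λ A (N - mm s) (mm s) + Λ ≤ _
    linarith
  have hκ2 : ∀ s, K * Q < N - s → 3 * Δ (mm s) + Λ ≤ 6 * (θ * K * Λ * ((N - s : ℕ) : ℝ)) + Λ := fun s hs => by
    have b1 : mm s ≤ K * (2 * (N - s)) := by
      refine (min_le_right _ _).trans (Nat.mul_le_mul_left _ ?_)
      have := q3 (N - s)
      omega
    have b2 : Δ (mm s) ≤ θ * Λ * mm s := H.dfc_lin (min_le_left _ _)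
    have b3 : (mm s : ℝ) ≤ K * (2 * ((N - s : ℕ) : ℝ)) := by exact_mod_cast b1
    have b4 : θ * Λ * mm s ≤ θ * Λ * (K * (2 * ((N - s : ℕ) : ℝ))) :=
      mul_le_mul_of_nonneg_left b3 (by positivity)
    nlinarith
  refine ⟨fun s => Real.exp (3 * Δ (mm s) + Λ), fun s => Real.exp (-lam s N), ⟨fun s => Real.exp_pos _,
    fun s => Real.one_le_exp (by have := hΔ0 (mm s); linarith), ?_, ?_⟩, ?_, ?_⟩
  · intro s t h1 h2 a
    have b1 := loss_back (Λ := Λ) hu hinj hO h1 a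
    have b2 := (abs_le.1 (loss_lam_add (Λ := Λ) hu hinj h1 h2)).2
    rw [hΔs s (h1.trans h2)] at b2
    have b3 := hloss s t h1 h2
    calc ‖prod A 0 s (O a)‖ * Real.exp (-lam t N)
        ≤ Real.exp (-lam s t + loss Λ A O s t) * ‖prod A 0 t (O a)‖ * Real.exp (-lam t N) := by gcongr
      _ = Real.exp (-lam s t + loss Λ A O s t + -lam t N) * ‖prod A 0 t (O a)‖ := by
          rw [Real.exp_add (_ + _)]; ring
      _ ≤ Real.exp (3 * Δ (mm s) + Λ + -lam s N) * ‖prod A 0 t (O a)‖ := by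
          refine mul_le_mul_of_nonneg_right (Real.exp_le_exp.2 ?_) (norm_nonneg _)
          simp only [lam]; linarith
      _ = _ := by rw [Real.exp_add (_ + _)]
  · intro s t h1 h2 x
    obtain ⟨a, b1⟩ := loss_quot (Λ := Λ) hu hinj hO h1 (prod A 0 s x)
    have e1 : prod A s (t - s) (prod A 0 s x) = prod A 0 t x := by rw [← loss_prod_comp A h1]; rfl
    rw [e1] at b1
    have b2 := (abs_le.1 (loss_lam_add (Λ := Λ) hu hinj h1 h2)).1
    rw [hΔs s (h1.trans h2)] at b2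
    have b3 := hloss s t h1 h2
    have b4 := H.conc s t
    refine ⟨a, ?_⟩
    calc ‖prod A 0 t x - prod A 0 t (O a)‖ * Real.exp (-lam s N)
        ≤ Real.exp ((wa Λ A (u + 2) s t - wa Λ A (u + 1) s t) + loss Λ A O s t) * ‖prod A 0 s x‖ *
          Real.exp (-lam s N) := by gcongr
      _ = Real.exp ((wa Λ A (u + 2) s t - wa Λ A (u + 1) s t) + loss Λ A O s t + -lam s N) * ‖prod A 0 s x‖ := by
          rw [Real.exp_add (_ + _)]; ring
      _ ≤ Real.exp (3 * Δ (mm s) + Λ + -lam t N) * ‖prod A 0 s x‖ := by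
          refine mul_le_mul_of_nonneg_right (Real.exp_le_exp.2 ?_) (norm_nonneg _)
          simp only [lam]; linarith
      _ = _ := by rw [Real.exp_add (_ + _)]
  · intro s _
    unfold prof
    rw [← Real.exp_nat_mul, ← Real.exp_add]
    apply Real.exp_le_exp.2
    split_ifs with hs
    · have := hκ1 s hs
      push_cast; linarith
    · have := hκ2 s (not_le.1 hs)
      have : 0 ≤ θ * K * Λ * ((N - s : ℕ) : ℝ) := by positivity
      push_cast; linarith
  · intro s hs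
    have hsN : s ≤ N := hs.trans (Nat.sub_le _ _)
    have h4 : (4 : ℝ) ≤ Real.exp (2 * Λ) := by linarith [Real.add_one_le_exp (2 * Λ)]
    have b2 := (abs_le.1 (loss_lam_add (Λ := Λ) hu hinj hs (Nat.sub_le N Q))).1
    rw [hΔs s hsN] at b2
    unfold prof
    refine le_trans (b := Real.exp (2 * Λ) * Real.exp (-(40 * ζ * Λ * Q)) * Real.exp (3 * Δ (mm s) + Λ) *
      Real.exp (-lam s N)) (by gcongr) ?_
    rw [← Real.exp_add, ← Real.exp_add, ← Real.exp_add, ← Real.exp_add]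
    apply Real.exp_le_exp.2
    split_ifs with hs'
    · have b1 := hκ1 s hs'
      have b3 := (H.freq (q := K) (by omega) (k2.trans k3)).2
      have b4 : 0 ≤ ε * X / 4 * Λ * (K * Q) := by have := H.hε; have := H.hX; positivity
      have b5 := loss_sign (Λ := Λ) hu hinj (s' := N - K * Q) (s := s) (t := N - Q) (w := N) (by omega) hs
        (Nat.sub_le _ _) (by linarith)
      rw [Nat.sub_sub_self (k2.trans k3)] at b5
      have b6 := H.dfc_row k2
      have b7 : Δ (N - s) ≤ ζ * Λ * Q := H.dfc_row (hs'.trans k2)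
      simp only [lam]; linarith
    · have hs'' := not_le.1 hs'
      have b1 := hκ2 s hs''
      set k := N - s with hk
      have c1 : 1 ≤ k / Q := (Nat.le_div_iff_mul_le hQ).2 (by omega)
      have c2 : k / Q * Q ≤ k := Nat.div_mul_le_self _ _
      have c3 : k < k / Q * Q + Q := Nat.lt_div_mul_add hQ
      have b3 := (H.freq (q := k / Q) c1 (by omega)).2
      have b4 := (abs_le.1 (loss_lam_add (Λ := Λ) hu hinj (s := s) (t := N - k / Q * Q) (w := N) (by omega)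
        (Nat.sub_le _ _))).1
      rw [hΔs s hsN, ← hk] at b4
      have b5 := (abs_le.1 (H.abs_lam u s (N - k / Q * Q))).1
      have b6 := (abs_le.1 (H.abs_lam u (N - Q) N)).2
      rw [Nat.sub_sub_self hQN] at b6
      have b7 : Δ k ≤ θ * Λ * k := H.dfc_lin (by omega)
      have c4 : ((N - k / Q * Q - s : ℕ) : ℝ) ≤ Q := by
        have : N - k / Q * Q - s ≤ Q := by omega
        exact_mod_cast this
      have c5 : (k : ℝ) - Q ≤ (k / Q : ℕ) * Q := by
        have : (k : ℝ) < (k / Q : ℕ) * Q + Q := by exact_mod_cast c3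
        linarith
      have c6 : (K : ℝ) * Q ≤ k := by exact_mod_cast hs''.le
      set σ := ε * X / 4 with hσ
      have hσ0 : 0 < σ := by have := H.hε; have := H.hX; positivity
      have hσ1 : σ ≤ 1 := by
        have := mul_le_one₀ H.hε1 H.hX.le H.hX1
        linarith
      have hQ0 : (0 : ℝ) ≤ Q := Nat.cast_nonneg _
      have hk0 : (0 : ℝ) ≤ k := Nat.cast_nonneg _
      have hK' : (64 : ℝ) ≤ K := by exact_mod_cast hK
      have d1 : 16 * (Q : ℝ) ≤ σ * k := by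
        have := H.hK
        nlinarith
      have d2 : 48 * θ * K ≤ σ := H.hθK
      have d3 : σ * Λ * ((k : ℝ) - Q) ≤ σ * Λ * ((k / Q : ℕ) * Q) := mul_le_mul_of_nonneg_left c5 (by positivity)
      have d4 : Λ * ((N - k / Q * Q - s : ℕ) : ℝ) ≤ Λ * Q := mul_le_mul_of_nonneg_left c4 (by linarith)
      have d5 : σ * Λ * Q ≤ Λ * Q := by nlinarith
      have d6 : 16 * (Λ * Q) ≤ σ * Λ * k := by nlinarith
      have d7 : 48 * (θ * K * Λ * k) ≤ σ * Λ * k := by
        have : 0 ≤ Λ * k := by positivity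
        nlinarith
      have d8 : θ * Λ * k ≤ θ * K * Λ * k := by
        have : 0 ≤ θ * Λ * k := by positivity
        nlinarith
      have d9 : 0 ≤ σ * Λ * k := by positivity
      simp only [lam]; nlinarith

/-- `κ = exp (5 ζ Λ Q)`.  On subwindows of `[Q, 0]`: `loss ≤ 2 ζ Λ Q + Λ`, `-λ ≤ ζ Λ Q` (sign consistency), `λ⁺ ≤ 2 ζ Λ Q` (`three_max_wa_le` with `j = u + 1`
and the gap on the last window, which follows from `h3` with `q = 1`). -/
theorem Win.future (H : Win u A O l Λ θ ζ X ε N Q K) :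
    Dom (fun t => A (N - Q + t)) (prod A 0 (N - Q) ∘L O) (N - (N - Q)) (fun _ => Real.exp (5 * ζ * Λ * Q)) (fun _ => 1) := by
  have hinj := H.inj
  have hO := H.hO.injective
  have hu := H.hu
  have hΛ := H.two_le
  have hK := H.K_ge
  obtain ⟨k1, k2, k3⟩ := H.KQ_le
  have hQN : Q ≤ N := k1.trans (k2.trans k3)
  have hζ := H.hζ
  have hζΛQ : 10 * Λ ≤ ζ * Λ * Q := by have := H.hζQ; nlinarith
  have e0 : N - (N - Q) = Q := by omega
  have hΔ : dfc Λ A (N - Q) Q ≤ ζ * Λ * Q := H.dfc_row (k1.trans k2)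
  have hloss : ∀ s t, N - Q ≤ s → s ≤ t → t ≤ N → loss Λ A O s t ≤ 2 * (ζ * Λ * Q) + Λ := fun s t h0 h1 h2 => by
    have b1 := loss_sub (Λ := Λ) hu hinj hO h0 h1 h2
    have b2 := H.loss_le (q := 1) le_rfl (by omega)
    rw [Nat.one_mul] at b2
    have b3 := H.dfc_row (k := min N (K * Q)) ((min_le_right _ _).trans k2)
    rw [e0] at b1
    linarith
  have hpr : ∀ s (z : E d), prod (fun t => A (N - Q + t)) 0 s (prod A 0 (N - Q) z) = prod A 0 (N - Q + s) z :=
    fun s z => by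
      rw [prod_shift, prod_add]
      simp
  refine ⟨fun _ => one_pos, fun _ => Real.one_le_exp (by positivity), ?_, ?_⟩
  · intro s t h1 h2 a
    rw [e0] at h2
    have b1 := loss_back (Λ := Λ) hu hinj hO (s := N - Q + s) (t := N - Q + t) (by omega) a
    have b2 := hloss (N - Q + s) (N - Q + t) (by omega) (by omega) (by omega)
    have b3 := (H.freq (q := 1) le_rfl (by omega)).2
    rw [Nat.one_mul] at b3
    have b4 : 0 ≤ ε * X / 4 * Λ * ((1 : ℕ) * Q) := by have := H.hε; have := H.hX; positivity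
    have b5 := loss_sign (Λ := Λ) hu hinj (s' := N - Q) (s := N - Q + s) (t := N - Q + t) (w := N) (by omega)
      (by omega) (by omega) (by linarith)
    rw [e0] at b5
    simp only [ContinuousLinearMap.comp_apply, hpr, mul_one]
    refine b1.trans ?_
    gcongr
    linarith
  · intro s t h1 h2 x
    rw [e0] at h2
    obtain ⟨a, b1⟩ := loss_quot (Λ := Λ) hu hinj hO (s := N - Q + s) (t := N - Q + t) (by omega)
      (prod (fun t => A (N - Q + t)) 0 s x)
    have b2 := hloss (N - Q + s) (N - Q + t) (by omega) (by omega) (by omega)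
    have b5 := loss_slow (Λ := Λ) hu hinj (s' := N - Q) (s := N - Q + s) (t := N - Q + t) (w := N) (by omega)
      (by omega) (by omega) (by positivity) H.gap
    rw [e0] at b5
    have e1 : prod A (N - Q + s) (N - Q + t - (N - Q + s)) (prod (fun t => A (N - Q + t)) 0 s x) =
        prod (fun t => A (N - Q + t)) 0 t x := by
      rw [← loss_prod_comp (fun t => A (N - Q + t)) h1, prod_shift A (N - Q) s, Nat.add_sub_add_left]
      rfl
    rw [e1] at b1
    refine ⟨a, ?_⟩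
    simp only [ContinuousLinearMap.comp_apply, hpr, mul_one]
    refine b1.trans ?_
    gcongr
    linarith

theorem Win.reg (H : Win u A O l Λ θ ζ X ε N Q K) :
    Reg A O N (N - Q) (prof Λ ζ θ N Q K) (Real.exp (-(40 * ζ * Λ * Q))) (Real.exp (-(8 * ζ * Λ * Q))) := by
  refine ⟨H.past, Real.exp (5 * ζ * Λ * Q), H.future, fun s h1 _ => ?_⟩
  have hΛ := H.two_le
  have hζ := H.hζ
  have h0 : 0 ≤ ζ * Λ * Q := by positivity
  have hs : N - s ≤ K * Q := by have := H.KQ_le.1; omega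
  unfold prof
  rw [if_pos hs, ← Real.exp_nat_mul, ← Real.exp_add, ← Real.exp_add, ← Real.exp_add]
  constructor <;> apply Real.exp_le_exp.2 <;> push_cast <;> linarith

end Crest.Agent.R133
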