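import Crest.Agent.R133.Dfc

/-! Row 133: small defects and frequent gaps give a regular window (finite time Oseledets theory).

Notation: `[k, k']` (for `k ≥ k'`) is the window of times `[N - k, N - k']`, `a⁻, a, a⁺` are `wa u, wa (u + 1), wa (u + 2)`,
`λ = a - a⁻`, `λ⁺ = a⁺ - a`, `γ = λ - λ⁺ ≥ 0` (`ea_concave`), `|λ|, |λ⁺| ≤ Λ · length`, `Δ k = dfc Λ A (N - k) k` (monotone),
`G t = prod A 0 t`, `b [k, k'] = log vol (G (N - k') O) - log vol (G (N - k) O) ≤ a [k, k']` (additive), `σ = ε X / 4`. -/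

set_option autoImplicit false

namespace Crest.Agent.R133

open MeasureTheory Finset Metric Function

variable {d : ℕ}

/-- the loss of `u`-volume of the images of the plane `O` on the window `[s, t]` -/
noncomputable def loss {u : ℕ} (Λ : ℝ) (A : ℕ → E d →L[ℝ] E d) (O : E u →L[ℝ] E d) (s t : ℕ) : ℝ :=
  wa Λ A (u + 1) s t - (Real.log (vol (prod A 0 t ∘L O)) - Real.log (vol (prod A 0 s ∘L O)))

open Classical in
/-- the hypotheses on the window -/
structure Win (u : ℕ) (A : ℕ → E d →L[ℝ] E d) (O : E u →L[ℝ] E d) (l Λ θ ζ X ε : ℝ) (N Q K : ℕ) : Prop where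
  hu : u ≤ d
  hA : ∀ t, BiLip (Real.exp l) (A t)
  hl : (d : ℝ) ^ 2 + d + 1 ≤ l
  hΛ : Λ = (2 * d + 2) * l
  hQ : 0 < Q
  hQN : Q ∣ N
  hKN : K ^ 2 * Q ≤ N
  hε : 0 < ε
  hε1 : ε ≤ 1
  hX : 0 < X
  hX1 : X ≤ 1
  hζ : 0 < ζ
  hζX : 2 * ζ ≤ X
  hζQ : 10 ≤ ζ * Q
  hK : 16 ≤ ε * X / 4 * K
  hθ : 0 ≤ θ
  hθK : 48 * θ * K ≤ ε * X / 4
  h1 : ∀ k, 1 ≤ k → k ≤ N → dfc Λ A (N - k) k ≤ θ * Λ * k
  h2 : dfc Λ A (N - K ^ 2 * Q) (K ^ 2 * Q) ≤ ζ * Λ * Q
  h3 : ∀ q, 1 ≤ q → q * Q ≤ N →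
    ε * q ≤ #{q' ∈ range q | Gap u X ζ (Λ * Q) (prod A (N - (q' + 1) * Q) Q)}
  hO : Iso O
  h5 : alpha u (prod A 0 N) ≤ (d : ℝ) ^ u * vol (prod A 0 N ∘L O)

variable {u : ℕ} {A : ℕ → E d →L[ℝ] E d} {O : E u →L[ℝ] E d} {l Λ θ ζ X ε : ℝ} {N Q K : ℕ}

theorem lossa_core (hu : u ≤ d) {g h : E d →L[ℝ] E d} (hg : Injective g) {L : ℝ}
    (hh : BiLip (Real.exp L) h) {W : E u →L[ℝ] E d} (hW : Injective W) (lam : ℝ)
    (hyp : ea (u + 2) lam g + ea u lam g - (Real.log (vol (g ∘L W)) - Real.log (vol W)) +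
      Real.log (alpha u h) - Real.log (alpha u (h ∘L g)) + 2 * L + 2 ≤ 0) :
    Real.log (alpha u (h ∘L g)) + Real.log (vol (g ∘L W)) ≤
      Real.log (vol (h ∘L g ∘L W)) + Real.log (alpha u g) + (u + 1) := by
  have hh' : Injective h := hh.injective
  have hhg : Injective (h ∘L g) := hh'.comp hg
  have hgW : Injective (g ∘L W) := hg.comp hW
  have hhgW : Injective (h ∘L g ∘L W) := hh'.comp hgW
  obtain ⟨V, hV, hopt⟩ := exists_opt hhg hu
  obtain ⟨P, hP⟩ := exists_proj hgW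
  have hgV : Injective (g ∘L V) := hg.comp hV.injective
  have p1 := vol_pos hW
  have p2 := vol_pos hgW
  have p3 := vol_pos hhgW
  have p4 := vol_pos hgV
  have q1 := alpha_pos hg hu
  have q2 := alpha_pos hh' hu
  have q3 := alpha_pos hhg hu
  have e1 : (h ∘L g) ∘L V = h ∘L (g ∘L V) := rfl
  rw [e1] at hopt
  have hv1 := vol_le_alpha h (g ∘L V)
  have hv2 : vol (g ∘L V) ≤ alpha u g := by
    have := vol_le_alpha g V
    rwa [hV.vol_eq, mul_one] at this
  -- the constant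
  obtain ⟨α, hα⟩ : ∃ α, α = Real.exp (ea (u + 2) lam g) * vol W / vol (g ∘L W) *
    (Real.exp (ea u lam g) / vol (g ∘L V)) := ⟨_, rfl⟩
  have hα0 : 0 < α := by rw [hα]; positivity
  have hαL : Real.exp L * Real.exp L * α ≤ 1 / 2 := by
    have h1 : Real.log (alpha u (h ∘L g)) ≤
        Real.log 2 + Real.log (alpha u h) + Real.log (vol (g ∘L V)) := by
      rw [← Real.log_mul two_ne_zero q2.ne', ← Real.log_mul (by positivity) p4.ne']
      exact Real.log_le_log q3 (by linarith)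
    have h2 : Real.log α = ea (u + 2) lam g + Real.log (vol W) - Real.log (vol (g ∘L W)) +
        (ea u lam g - Real.log (vol (g ∘L V))) := by
      rw [hα, Real.log_mul (by positivity) (by positivity), Real.log_div (by positivity) p2.ne',
        Real.log_mul (by positivity) p1.ne', Real.log_div (by positivity) p4.ne', Real.log_exp,
        Real.log_exp]
    have h3 : Real.log 2 ≤ 1 := by
      have := Real.log_le_sub_one_of_pos (show (0 : ℝ) < 2 by norm_num)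
      linarith
    have h4 : Real.exp L * Real.exp L * α = Real.exp (L + L + Real.log α) := by
      rw [Real.exp_add, Real.exp_add, Real.exp_log hα0]
    have h5 : (1 / 2 : ℝ) = Real.exp (-Real.log 2) := by
      rw [Real.exp_neg, Real.exp_log (by norm_num), one_div]
    rw [h4, h5]
    exact Real.exp_le_exp.2 (by linarith)
  have hclose : ∀ a, ‖g (V a) - g (W (P (g (V a))))‖ ≤ α * ‖g (V a)‖ := by
    intro a
    obtain ⟨a', ha'⟩ := ea_quot (lam := lam) hg hu W (V a)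
    have hb := ea_back (lam := lam) hg hu V a
    rw [hV.vol_eq, mul_one] at hb
    have h1 : ‖g (V a) - g (W (P (g (V a))))‖ ≤ ‖g (V a) - g (W a')‖ := hP.best (g (V a)) a'
    have h2 : ‖g (V a) - g (W a')‖ ≤
        Real.exp (ea (u + 2) lam g) * vol W / vol (g ∘L W) * ‖V a‖ := by
      rw [div_mul_eq_mul_div, le_div_iff₀ p2]
      linarith
    have h3 : ‖V a‖ ≤ Real.exp (ea u lam g) / vol (g ∘L V) * ‖g (V a)‖ := by
      rw [div_mul_eq_mul_div, le_div_iff₀ p4]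
      linarith
    refine h1.trans (h2.trans ?_)
    rw [hα, mul_assoc]
    exact mul_le_mul_of_nonneg_left h3 (by positivity)
  have hB : ∀ a, ‖(h ∘L (g ∘L V)) a‖ ≤ 2 * ‖((h ∘L g ∘L W) ∘L (P ∘L g ∘L V)) a‖ := by
    intro a
    change ‖h (g (V a))‖ ≤ 2 * ‖h (g (W (P (g (V a)))))‖
    have h1 := (hh (g (V a) - g (W (P (g (V a)))))).1
    rw [map_sub] at h1
    have h2 := (hh (g (V a))).2
    have h3 := hclose a
    have h4 := norm_sub_norm_le (h (g (V a))) (h (g (W (P (g (V a))))))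
    have h5 : Real.exp L * ‖g (V a) - g (W (P (g (V a))))‖ ≤
        Real.exp L * (α * (Real.exp L * ‖h (g (V a))‖)) :=
      mul_le_mul_of_nonneg_left (h3.trans (mul_le_mul_of_nonneg_left h2 hα0.le))
        (Real.exp_pos L).le
    have h6 := mul_le_mul_of_nonneg_right hαL (norm_nonneg (h (g (V a))))
    linarith
  have hm1 := vol_mono (by norm_num : (0 : ℝ) ≤ 2) hB
  rw [vol_comp] at hm1
  have hm2 : vol ((g ∘L W) ∘L (P ∘L g ∘L V)) ≤ 1 ^ u * vol (g ∘L V) :=
    vol_mono zero_le_one fun a => by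
      rw [one_mul]
      exact hP.norm_le (g (V a))
  rw [vol_comp, one_pow, one_mul] at hm2
  have hfin : alpha u (h ∘L g) * vol (g ∘L W) ≤ 2 ^ (u + 1) * vol (h ∘L g ∘L W) * alpha u g := by
    have a1 : alpha u (h ∘L g) ≤ 2 * (2 ^ u * (vol (h ∘L g ∘L W) * |(P ∘L g ∘L V).det|)) := by
      linarith
    calc alpha u (h ∘L g) * vol (g ∘L W)
        ≤ 2 * (2 ^ u * (vol (h ∘L g ∘L W) * |(P ∘L g ∘L V).det|)) * vol (g ∘L W) :=
          mul_le_mul_of_nonneg_right a1 p2.le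
      _ = 2 ^ (u + 1) * vol (h ∘L g ∘L W) * (vol (g ∘L W) * |(P ∘L g ∘L V).det|) := by ring
      _ ≤ _ := mul_le_mul_of_nonneg_left (hm2.trans hv2) (by positivity)
  have hlog := Real.log_le_log (mul_pos q3 p2) hfin
  rw [Real.log_mul q3.ne' p2.ne', Real.log_mul (by positivity) q1.ne',
    Real.log_mul (by positivity) p3.ne', Real.log_pow] at hlog
  have h3 : Real.log 2 ≤ 1 := by
    have := Real.log_le_sub_one_of_pos (show (0 : ℝ) < 2 by norm_num)
    linarith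
  have h4 : ((u + 1 : ℕ) : ℝ) * Real.log 2 ≤ u + 1 := by
    push_cast
    exact mul_le_of_le_one_right (by positivity) h3
  linarith

theorem lossa_bilip (hA : ∀ t, BiLip (Real.exp l) (A t)) (s m : ℕ) :
    BiLip (Real.exp (l * m)) (prod A s m) := by
  rw [mul_comm, Real.exp_nat_mul]
  exact bilip_prod (Real.exp_pos l).le fun t _ _ => hA t

theorem lossa_prod_split (A : ℕ → E d →L[ℝ] E d) {s t w : ℕ} (h1 : s ≤ t) (h2 : t ≤ w) :
    prod A s (w - s) = prod A t (w - t) ∘L prod A s (t - s) := by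
  have e1 : w - s = (t - s) + (w - t) := by omega
  have e2 : s + (t - s) = t := by omega
  rw [e1, prod_add, e2]

theorem lossa_prod_split0 (A : ℕ → E d →L[ℝ] E d) {s t : ℕ} (h1 : s ≤ t) :
    prod A 0 t = prod A s (t - s) ∘L prod A 0 s :=
  lossa_prod_split A (Nat.zero_le s) h1

theorem lossa_wa_eq (hu : u ≤ d) (hA : ∀ t, BiLip (Real.exp l) (A t)) (s t : ℕ) :
    wa Λ A (u + 1) s t = Real.log (alpha u (prod A s (t - s))) := by
  rw [← exp_ea (lam := Λ * ((t - s : ℕ) : ℝ)) (lossa_bilip hA s (t - s)).injective hu,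
    Real.log_exp, wa]

theorem lossa_nonneg (hu : u ≤ d) (hA : ∀ t, BiLip (Real.exp l) (A t)) (hO : Injective O)
    {s t : ℕ} (h1 : s ≤ t) : 0 ≤ loss Λ A O s t := by
  have hW : Injective (prod A 0 s ∘L O) := (lossa_bilip hA 0 s).injective.comp hO
  have hg := (lossa_bilip hA s (t - s)).injective
  have h2 := vol_le_alpha (prod A s (t - s)) (prod A 0 s ∘L O)
  have h3 := Real.log_le_log (vol_pos (W := prod A s (t - s) ∘L prod A 0 s ∘L O) (hg.comp hW)) h2
  rw [Real.log_mul (alpha_pos hg hu).ne' (vol_pos hW).ne'] at h3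
  rw [loss, lossa_wa_eq hu hA, lossa_prod_split0 A h1, ContinuousLinearMap.comp_assoc]
  linarith

theorem lossa_add (s t w : ℕ) : loss Λ A O s t + loss Λ A O t w =
    loss Λ A O s w + (wa Λ A (u + 1) s t + wa Λ A (u + 1) t w - wa Λ A (u + 1) s w) := by
  simp only [loss]
  ring

theorem lossa_wa_self (j s : ℕ) : wa Λ A j s s = 0 := by
  rw [wa, Nat.sub_self, Nat.cast_zero, mul_zero]
  exact ea_id j

theorem lossa_two_wa_le (hA : ∀ t, Injective (A t)) {j : ℕ} (hj : j < d + 3) {s t w : ℕ}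
    (h1 : s ≤ t) (h2 : t ≤ w) :
    wa Λ A j s t + wa Λ A j t w ≤ wa Λ A j s w + dfc Λ A s (w - s) := by
  have := three_wa_le (Λ := Λ) hA hj h1 h2 (le_refl w)
  rwa [lossa_wa_self, add_zero] at this

theorem lossa_wa_le_sum (hA : ∀ t, Injective (A t)) (j : ℕ) {p : ℕ → ℕ} (hp : Monotone p) (n : ℕ) :
    wa Λ A j (p 0) (p n) ≤ ∑ i ∈ range n, wa Λ A j (p i) (p (i + 1)) := by
  induction n with
  | zero => rw [lossa_wa_self, sum_range_zero]
  | succ n ih =>
    rw [sum_range_succ]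
    have := wa_sub (Λ := Λ) hA j (hp (Nat.zero_le n)) (hp (Nat.le_succ n))
    linarith

/-- Attraction of planes (pure linear algebra).  Let `g = prod A s (t - s)`, `h = prod A t (w - t)`, `V` nearly optimal for `h g` (`exists_opt`), `W = G s ∘ O`,
`P` a projection for `g W` (`exists_proj`), `B = P g V`.  By `ea_quot`, `ea_back`: `‖g V a - g W B a‖ ≤ α ‖g V a‖` with
`log α = -γ [s, t] + loss [s, t] + (a [s, t] - log vol (g V))`, and `log vol (g V) ≥ a [s, w] - log 2 - a [t, w]`.  So `‖h g W B a‖ ≥ ‖h g V a‖ / 2`,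
`vol (h g V) ≤ 2 ^ u vol (h g W) |det B|` and `vol (g W) |det B| ≤ vol (g V) ≤ exp (a [s, t])` (`vol_mono`, `vol_comp`). -/
theorem loss_attract (hu : u ≤ d) (hl : 0 ≤ l) (hA : ∀ t, BiLip (Real.exp l) (A t)) (hO : Injective O) {s t w : ℕ}
    (h1 : s ≤ t) (h2 : t ≤ w)
    (h : wa Λ A (u + 2) s t + wa Λ A u s t - 2 * wa Λ A (u + 1) s t + loss Λ A O s t +
      (wa Λ A (u + 1) s t + wa Λ A (u + 1) t w - wa Λ A (u + 1) s w) + 2 * l * ((w - t : ℕ) : ℝ) + 2 ≤ 0) :
    loss Λ A O t w ≤ wa Λ A (u + 1) s t + wa Λ A (u + 1) t w - wa Λ A (u + 1) s w + (u + 1) := by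
  have hW : Injective (prod A 0 s ∘L O) := (lossa_bilip hA 0 s).injective.comp hO
  have e1 : prod A 0 t ∘L O = prod A s (t - s) ∘L prod A 0 s ∘L O := by
    rw [lossa_prod_split0 A h1, ContinuousLinearMap.comp_assoc]
  have e2 : prod A 0 w ∘L O = prod A t (w - t) ∘L prod A s (t - s) ∘L prod A 0 s ∘L O := by
    rw [lossa_prod_split0 A h2, ContinuousLinearMap.comp_assoc, e1]
  have key := lossa_core hu (lossa_bilip hA s (t - s)).injective (lossa_bilip hA t (w - t)) hW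
    (Λ * ((t - s : ℕ) : ℝ)) (by
      rw [← lossa_prod_split A h1 h2, ← lossa_wa_eq (Λ := Λ) hu hA, ← lossa_wa_eq (Λ := Λ) hu hA,
        ← e1]
      rw [loss] at h
      change wa Λ A (u + 2) s t + wa Λ A u s t - _ + _ - _ + _ + _ ≤ 0
      linarith)
  rw [← lossa_prod_split A h1 h2, ← lossa_wa_eq (Λ := Λ) hu hA, ← lossa_wa_eq (Λ := Λ) hu hA,
    ← e2, ← e1] at key
  rw [loss]
  linarith

theorem Win.lossa_basic (H : Win u A O l Λ θ ζ X ε N Q K) :
    1 ≤ l ∧ 2 * l ≤ Λ ∧ 2 * d * l ≤ Λ ∧ (d : ℝ) ^ 2 ≤ Λ ∧ (d : ℝ) + 1 ≤ Λ ∧ (2 : ℝ) ≤ K ∧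
      ε * X ≤ 1 := by
  have h0 : (0 : ℝ) ≤ d := Nat.cast_nonneg d
  have h1 := H.hl
  have h2 := H.hΛ
  have h3 : 1 ≤ l := by nlinarith
  have h4 : 0 ≤ d * l := mul_nonneg h0 (by linarith)
  have h5 : ε * X ≤ 1 := mul_le_one₀ H.hε1 H.hX.le H.hX1
  have h6 := H.hK
  have h7 : (0 : ℝ) ≤ K := Nat.cast_nonneg K
  refine ⟨h3, by nlinarith, by nlinarith, by nlinarith, by nlinarith, by nlinarith, h5⟩

theorem lossa_concave (hu : u ≤ d) (hA : ∀ t, BiLip (Real.exp l) (A t)) (hl : 0 ≤ l)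
    (hΛ : 2 * d * l ≤ Λ) (s t : ℕ) :
    wa Λ A (u + 2) s t + wa Λ A u s t ≤ 2 * wa Λ A (u + 1) s t :=
  ea_concave (lossa_bilip hA s (t - s)) (by positivity) (by
    have := mul_le_mul_of_nonneg_right hΛ (Nat.cast_nonneg (t - s))
    linarith) hu

theorem lossa_abs_sub (hA : ∀ t, BiLip (Real.exp l) (A t)) (hl : 0 ≤ l)
    (hΛ : 2 * d * l ≤ Λ) (j s t : ℕ) :
    |wa Λ A (j + 1) s t - wa Λ A j s t| ≤ Λ * ((t - s : ℕ) : ℝ) :=
  abs_ea_sub_le (lossa_bilip hA s (t - s)) (by positivity) (by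
    have := mul_le_mul_of_nonneg_right hΛ (Nat.cast_nonneg (t - s))
    linarith) j

/-- `γ [q Q, 0] ≥ ∑ γ (windows) - 2 Δ ≥ (ε X / 2 - 2 θ) Λ q Q`; with `max a⁻ a = a⁻ + max λ 0`: `max λ 0 ≥ (ε X - θ) Λ q Q > 0`. -/
theorem Win.freq (H : Win u A O l Λ θ ζ X ε N Q K) {q : ℕ} (h1 : 1 ≤ q) (h2 : q * Q ≤ N) :
    ε * X / 4 * Λ * (q * Q) ≤ 2 * wa Λ A (u + 1) (N - q * Q) N - wa Λ A u (N - q * Q) N - wa Λ A (u + 2) (N - q * Q) N ∧
    ε * X / 4 * Λ * (q * Q) ≤ wa Λ A (u + 1) (N - q * Q) N - wa Λ A u (N - q * Q) N := by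
  classical
  obtain ⟨b1, b2, b3, -, -, b6, -⟩ := H.lossa_basic
  have hu := H.hu
  have hA : ∀ t, Injective (A t) := fun t => (H.hA t).injective
  have hQ : (0 : ℝ) < Q := Nat.cast_pos.2 H.hQ
  have hq : (0 : ℝ) < q := Nat.cast_pos.2 h1
  have hΛ : 0 < Λ := by linarith
  let p : ℕ → ℕ := fun i => N - (q - i) * Q
  have hp : Monotone p := fun i j hij =>
    Nat.sub_le_sub_left (Nat.mul_le_mul_right _ (Nat.sub_le_sub_left hij q)) N
  have hp0 : p 0 = N - q * Q := by simp [p]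
  have hpq : p q = N := by simp [p]
  have hlen : N - (N - q * Q) = q * Q := by omega
  -- the gap windows
  have hwin : ∀ (F : ℕ → ℕ → ℝ) (c : ℝ), 0 ≤ c → (∀ s t, 0 ≤ F s t) →
      (∀ s, Gap u X ζ (Λ * Q) (prod A s Q) → c ≤ F s (s + Q)) →
      c * (ε * q) ≤ ∑ i ∈ range q, F (p i) (p (i + 1)) := by
    intro F c hc hF0 hF
    rw [← sum_range_reflect]
    refine (mul_le_mul_of_nonneg_left (H.h3 q h1 h2) hc).trans ?_
    rw [card_filter, Nat.cast_sum, mul_sum]
    refine sum_le_sum fun i hi => ?_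
    have hi' := mem_range.1 hi
    have e1 : p (q - 1 - i) = N - (i + 1) * Q := by
      simp only [p]
      congr 2
      omega
    have e2 : p (q - 1 - i + 1) = N - (i + 1) * Q + Q := by
      have e3 : q - (q - 1 - i + 1) = i := by omega
      have e4 : (i + 1) * Q ≤ q * Q := Nat.mul_le_mul_right _ hi'
      simp only [p, e3]
      rw [add_mul, one_mul] at e4 ⊢
      omega
    rw [e1, e2]
    split_ifs with hg
    · simpa using hF _ hg
    · simpa using hF0 _ _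
  have hdfc := H.h1 (q * Q) (Nat.mul_pos h1 H.hQ) h2
  push_cast at hdfc
  have hθ : 96 * θ ≤ ε * X / 4 := by nlinarith [H.hθK, H.hθ]
  have hpos : 0 < Λ * (q * Q) := by positivity
  have hθ' := mul_le_mul_of_nonneg_right hθ hpos.le
  have hθ0 := mul_nonneg H.hθ hpos.le
  have hεX : 0 < ε * X * (Λ * (q * Q)) := mul_pos (mul_pos H.hε H.hX) hpos
  have hXΛ : 0 ≤ X * (Λ * Q) := by have := H.hX; positivity
  have s0 := lossa_wa_le_sum (Λ := Λ) hA u hp q
  rw [hp0, hpq] at s0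
  constructor
  · have w1 := hwin (fun s t => 2 * wa Λ A (u + 1) s t - wa Λ A u s t - wa Λ A (u + 2) s t)
      (X * (Λ * Q) / 2) (by positivity)
      (fun s t => by linarith [lossa_concave (Λ := Λ) hu H.hA (by linarith) b3 s t])
      (fun s hg => by
        simp only [wa, Nat.add_sub_cancel_left]
        have h3 := mul_le_mul_of_nonneg_right H.hζX (show 0 ≤ Λ * Q by positivity)
        linarith [hg.1, hg.2])
    rw [sum_sub_distrib, sum_sub_distrib, ← mul_sum] at w1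
    have s1 := sum_wa_le (Λ := Λ) hA (j := u + 1) (by omega) hp q
    have s2 := lossa_wa_le_sum (Λ := Λ) hA (u + 2) hp q
    rw [hp0, hpq] at s1 s2
    rw [hlen] at s1
    linarith
  · have w1 := hwin (fun s t => max (wa Λ A u s t) (wa Λ A (u + 1) s t) - wa Λ A u s t)
      (X * (Λ * Q)) hXΛ (fun s t => sub_nonneg.2 (le_max_left _ _))
      (fun s hg => by
        have := le_max_right (wa Λ A u s (s + Q)) (wa Λ A (u + 1) s (s + Q))
        simp only [wa, Nat.add_sub_cancel_left] at this ⊢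
        linarith [hg.1])
    rw [sum_sub_distrib] at w1
    have s1 := sum_max_wa_le (Λ := Λ) hA (j := u) (by omega) hp q
    rw [hp0, hpq, hlen] at s1
    rcases le_total (wa Λ A u (N - q * Q) N) (wa Λ A (u + 1) (N - q * Q) N) with hm | hm
    · rw [max_eq_right hm] at s1
      linarith
    · rw [max_eq_left hm] at s1
      linarith

theorem Win.lossa_total (H : Win u A O l Λ θ ζ X ε N Q K) : loss Λ A O 0 N ≤ Λ := by
  obtain ⟨-, -, -, b4, -⟩ := H.lossa_basic
  have hg := (lossa_bilip H.hA 0 N).injective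
  have p1 := alpha_pos hg H.hu
  have p2 := vol_pos (W := prod A 0 N ∘L O) (hg.comp H.hO.injective)
  have h5 := H.h5
  have p3 : 0 < (d : ℝ) ^ u := (mul_pos_iff_of_pos_right p2).1 (p1.trans_le h5)
  have h6 := Real.log_le_log p1 h5
  rw [Real.log_mul p3.ne' p2.ne', Real.log_pow] at h6
  have e0 : prod A 0 0 ∘L O = O := rfl
  rw [loss, lossa_wa_eq H.hu H.hA, e0, H.hO.vol_eq, Real.log_one, Nat.sub_zero]
  have h7 : Real.log d ≤ d := Real.log_le_self (Nat.cast_nonneg d)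
  have h8 : (u : ℝ) ≤ d := Nat.cast_le.2 H.hu
  have h9 : (u : ℝ) * Real.log d ≤ u * d := mul_le_mul_of_nonneg_left h7 (Nat.cast_nonneg u)
  have h10 : (u : ℝ) * d ≤ d * d := mul_le_mul_of_nonneg_right h8 (Nat.cast_nonneg d)
  nlinarith

/-- Downward induction on `q`.  `loss [N, 0] ≤ log (d ^ u) ≤ Λ`.  With `k = q Q`: if `N ≤ K k` then `loss [k, 0] ≤ Δ N + loss [N, 0]`.  Otherwise let
`k' = K k`: `loss [k', k] ≤ Δ k' + loss [k', 0] ≤ θ Λ k' + θ Λ K k' + Λ`, `γ [k', k] ≥ γ [k', 0] - γ [k, 0] - 2 Δ k' ≥ σ Λ k' - 2 Λ k - 2 θ Λ k'`, and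
`loss_attract` applies (`σ K ≥ 16`, `θ (K + 4) ≤ σ / 8`). -/
theorem Win.loss_le (H : Win u A O l Λ θ ζ X ε N Q K) {q : ℕ} (h1 : 1 ≤ q) (h2 : q * Q ≤ N) :
    loss Λ A O (N - q * Q) N ≤ dfc Λ A (N - min N (K * (q * Q))) (min N (K * (q * Q))) + Λ := by
  obtain ⟨b1, b2, b3, -, b5, b6, -⟩ := H.lossa_basic
  have hu := H.hu
  have hA : ∀ t, Injective (A t) := fun t => (H.hA t).injective
  have hO := H.hO.injective
  have hK : 2 ≤ K := by exact_mod_cast b6
  have hQ := H.hQ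
  have hΛ : 0 < Λ := by linarith
  induction hn : N - q using Nat.strong_induction_on generalizing q with
  | _ n ih =>
  rcases le_or_gt N (K * (q * Q)) with hc | hc
  · rw [min_eq_left hc, Nat.sub_self]
    have a1 := lossa_add (Λ := Λ) (A := A) (O := O) 0 (N - q * Q) N
    have a2 := lossa_nonneg (Λ := Λ) hu H.hA hO (Nat.zero_le (N - q * Q))
    have a3 := lossa_two_wa_le (Λ := Λ) hA (j := u + 1) (by omega) (Nat.zero_le (N - q * Q))
      (Nat.sub_le N (q * Q))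
    rw [Nat.sub_zero] at a3
    have a4 := H.lossa_total
    linarith
  · rw [min_eq_right hc.le]
    have hk1 : 1 ≤ q * Q := Nat.mul_pos h1 hQ
    have hqq : q < K * q := by nlinarith
    have hq' : K * q * Q ≤ N := by rw [mul_assoc]; exact hc.le
    have hq'' : K * q ≤ N := le_trans (Nat.le_mul_of_pos_right _ hQ) hq'
    have i1 := ih (N - K * q) (by omega) (q := K * q) (by omega) hq' rfl
    have f1 := (H.freq (q := K * q) (by omega) hq').1
    rw [mul_assoc K q Q] at i1 f1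
    push_cast at f1
    obtain ⟨k, hk⟩ : ∃ k, k = q * Q := ⟨_, rfl⟩
    have hkr : (q : ℝ) * Q = k := by rw [hk]; push_cast; ring
    rw [mul_assoc (K : ℝ), hkr] at f1
    rw [← hk] at i1 f1 hc hk1 h2 ⊢
    have hkk : k ≤ K * k := Nat.le_mul_of_pos_left _ (by omega)
    have hst : N - K * k ≤ N - k := Nat.sub_le_sub_left hkk N
    have htw : N - k ≤ N := Nat.sub_le N k
    have e1 : N - (N - K * k) = K * k := by omega
    have e2 : N - (N - k) = k := by omega
    have d1 := H.h1 (K * k) (by omega) hc.le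
    have d2 := H.h1 (min N (K * (K * k))) (le_min (by omega) (by nlinarith)) (min_le_left _ _)
    have d3 : ((min N (K * (K * k)) : ℕ) : ℝ) ≤ K * (K * k) := by
      exact_mod_cast min_le_right _ _
    have d4 := mul_le_mul_of_nonneg_left d3 (mul_nonneg H.hθ hΛ.le)
    push_cast at d1
    have a1 := lossa_add (Λ := Λ) (A := A) (O := O) (N - K * k) (N - k) N
    have a2 := lossa_nonneg (Λ := Λ) hu H.hA hO htw
    have t0 := lossa_two_wa_le (Λ := Λ) hA (j := u) (by omega) hst htw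
    have t1 := lossa_two_wa_le (Λ := Λ) hA (j := u + 1) (by omega) hst htw
    have t2 := lossa_two_wa_le (Λ := Λ) hA (j := u + 2) (by omega) hst htw
    rw [e1] at t0 t1 t2
    have t3 := wa_sub (Λ := Λ) hA (u + 1) hst htw
    have g1 := abs_le.1 (lossa_abs_sub (Λ := Λ) H.hA (by linarith) b3 u (N - k) N)
    have g2 := abs_le.1 (lossa_abs_sub (Λ := Λ) H.hA (by linarith) b3 (u + 1) (N - k) N)
    rw [e2] at g1 g2
    have hk1' : (1 : ℝ) ≤ k := by exact_mod_cast hk1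
    have n1 : 16 * (Λ * k) ≤ ε * X / 4 * K * (Λ * k) :=
      mul_le_mul_of_nonneg_right H.hK (by positivity)
    have n2 : 48 * θ * K * (Λ * (K * k)) ≤ ε * X / 4 * (Λ * (K * k)) :=
      mul_le_mul_of_nonneg_right H.hθK (by positivity)
    have n3 : θ * Λ * (K * k) * 2 ≤ θ * Λ * (K * k) * K :=
      mul_le_mul_of_nonneg_left b6 (by have := H.hθ; positivity)
    have n4 : 2 * l * k ≤ Λ * k := mul_le_mul_of_nonneg_right b2 (by positivity)
    have n5 : Λ * 1 ≤ Λ * k := mul_le_mul_of_nonneg_left hk1' hΛ.le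
    have key := loss_attract (Λ := Λ) hu (by linarith) H.hA hO hst htw (by
      rw [e2]
      linarith [g1.2, g2.1])
    have h8 : (u : ℝ) ≤ d := Nat.cast_le.2 H.hu
    linarith

end Crest.Agent.R133
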