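import Crest.Agent.R133.ManC

/-! Row 133: a smooth volume preserving diffeomorphism of a compact manifold has a model. -/

set_option autoImplicit false

namespace Crest.Agent.R133

open MeasureTheory Metric Function Set Crest.AnalysisR
open scoped Manifold ContDiff

variable {d : ℕ} {H : Type} [TopologicalSpace H] {I : ModelWithCorners ℝ (E d) H} {M : Type}
  [TopologicalSpace M] [T2Space M] [CompactSpace M] [ChartedSpace H M] [IsManifold I ∞ M] [MeasurableSpace M]
  [BorelSpace M]

lemma man_meas {α ι β : Type*} [MeasurableSpace α] [MeasurableSpace ι] [Countable ι] [MeasurableSingletonClass ι]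
    [MeasurableSpace β] {c : α → ι} (hc : Measurable c) {f : ι → α → β} (hf : ∀ i, Measurable (f i)) :
    Measurable fun x => f (c x) x :=
  (measurable_from_prod_countable_right (f := fun p : ι × α => f p.1 p.2) hf).comp (hc.prodMk measurable_id)

/-- `U r = {x | φ (c x) x ∈ thickening r (range I)ᶜ}`; `A x` is the derivative if `φ (c x) x ∈ interior (range I)` and the identity otherwise (`measurable_fderiv`); `C` is a natural number larger
than all the constants. -/
theorem exists_model (hI : Thin (range I)) {ν : Measure M} [IsProbabilityMeasure ν] (hν : HasSmoothPositiveDensity I ν)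
    (S : Diffeomorph I I M M ∞) {K : Bool → Set M} (hK : ∀ b, IsCompact (K b)) (hd : Disjoint (K true) (K false)) :
    ∃ C : ℕ, Nonempty (Model M ν S d C K) := by
  classical
  have : Nonempty M := nonempty_of_isProbabilityMeasure ν
  obtain ⟨a⟩ := exists_atl (I := I) (M := M)
  obtain ⟨r₀, C₁, hr₀, hloc⟩ := a.loc S hK hd
  obtain ⟨C₂, hdens⟩ := a.dens hν
  have hb : ∀ i, ∃ R : ℝ, ∀ x ∈ a.Q i, ‖extChartAt I (a.p i) x‖ ≤ R := fun i =>
    (a.compact i).exists_bound_of_continuousOn ((continuousOn_extChartAt (a.p i)).mono (a.sub i))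
  choose R' hR' using hb
  obtain ⟨R, hR⟩ := (Set.finite_range R').bddAbove
  have hφ : ∀ x, a.φ (a.c x) x = extChartAt I (a.p (a.c x)) x := fun x => a.φ_eq _ x (a.sub _ (a.mem x))
  have hbd : ∀ x, ‖a.φ (a.c x) x‖ ≤ R := fun x => by
    rw [hφ]; exact (hR' _ x (a.mem x)).trans (hR ⟨_, rfl⟩)
  have hrg : ∀ x, a.φ (a.c x) x ∈ range I := fun x => by
    rw [hφ]; exact extChartAt_target_subset_range _ ((extChartAt I _).map_source (a.sub _ (a.mem x)))
  obtain ⟨C₃, hthin⟩ := hI R
  obtain ⟨C, hC⟩ := exists_nat_ge (1 + a.k + |C₁| + |C₂| + |R| + r₀⁻¹ + a.k * (|C₂| * |C₃|))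
  have p0 : (0 : ℝ) ≤ a.k := Nat.cast_nonneg _
  have p1 := abs_nonneg C₁
  have p2 := abs_nonneg C₂
  have p3 := abs_nonneg R
  have p4 := inv_pos.mpr hr₀
  have p5 : 0 ≤ a.k * (|C₂| * |C₃|) := by positivity
  have q1 : C₁ ≤ C := by linarith [le_abs_self C₁]
  have hSm : Measurable S := S.continuous.measurable
  have hmφ : Measurable fun x => a.φ (a.c x) x := man_meas a.meas_c a.meas_φ
  let D : M → E d →L[ℝ] E d := fun x =>
    fderiv ℝ (fun w => a.φ (a.c (S x)) (S (a.ψ (a.c x) w))) (a.φ (a.c x) x)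
  have hD : Measurable D :=
    man_meas (c := fun x => (a.c x, a.c (S x))) (a.meas_c.prodMk (a.meas_c.comp hSm))
      (f := fun q x => fderiv ℝ (fun w => a.φ q.2 (S (a.ψ q.1 w))) (a.φ q.1 x))
      fun q => (measurable_fderiv ℝ _).comp (a.meas_φ q.1)
  refine ⟨C, ⟨{
    k := a.k, c := a.c, φ := a.φ, ψ := a.ψ
    A := fun x => if a.φ (a.c x) x ∈ interior (range I) then D x else ContinuousLinearMap.id ℝ (E d)
    U := fun r => {x | a.φ (a.c x) x ∈ thickening r (range I)ᶜ}
    one_le := by exact_mod_cast (by linarith : (1 : ℝ) ≤ C)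
    k_le := by exact_mod_cast (by linarith : (a.k : ℝ) ≤ C)
    meas_c := a.meas_c, meas_φ := a.meas_φ, meas_ψ := a.meas_ψ
    meas_A := Measurable.ite (hmφ isOpen_interior.measurableSet) hD measurable_const
    meas_U := fun r => hmφ isOpen_thickening.measurableSet
    inv := fun x => ?_
    bdd := fun x => (hbd x).trans (by linarith [le_abs_self R])
    bilip := fun x p => ?_
    unsafe_le := fun r hr _ => ?_
    dens := fun i B hB => (hdens i B hB).trans ?_
    loc := fun r hr hrC x hx => ?_ }⟩⟩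
  · have hs := a.sub _ (a.mem x)
    rw [hφ, a.ψ_eq _ _ ((extChartAt I _).map_source hs), (extChartAt I _).left_inv hs]
  · split_ifs with h
    · obtain ⟨r, hr, hb⟩ := Metric.mem_nhds_iff.mp (mem_interior_iff_mem_nhds.mp h)
      obtain ⟨h1, h2⟩ := hloc x (min r r₀) (lt_min hr hr₀) (min_le_right _ _)
        ((ball_subset_ball (min_le_left _ _)).trans hb)
      have h3 := (h2 _ (mem_ball_self (lt_min hr hr₀))).2.2.1
      exact ⟨((D x).le_opNorm p).trans (mul_le_mul_of_nonneg_right (h3.trans q1) (norm_nonneg _)),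
        (h1 p).trans (mul_le_mul_of_nonneg_right q1 (norm_nonneg _))⟩
    · have : ‖p‖ ≤ C * ‖p‖ := le_mul_of_one_le_left (norm_nonneg _) (by linarith)
      exact ⟨this, this⟩
  · have hm : MeasurableSet (closedBall (0 : E d) R ∩ range I ∩ thickening r (range I)ᶜ) :=
      (measurableSet_closedBall.inter I.isClosed_range.measurableSet).inter isOpen_thickening.measurableSet
    calc ν {x | a.φ (a.c x) x ∈ thickening r (range I)ᶜ}
        ≤ ν (⋃ i, {x | a.c x = i ∧ a.φ i x ∈ closedBall (0 : E d) R ∩ range I ∩ thickening r (range I)ᶜ}) :=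
          measure_mono fun x hx => mem_iUnion.mpr ⟨a.c x, rfl, ⟨mem_closedBall_zero_iff.mpr (hbd x), hrg x⟩, hx⟩
      _ ≤ ∑ _i : Fin a.k, ENNReal.ofReal (|C₂| * |C₃| * r) := by
          refine (measure_iUnion_fintype_le _ _).trans (Finset.sum_le_sum fun i _ => (hdens i _ hm).trans ?_)
          rw [mul_assoc, ENNReal.ofReal_mul p2]
          exact mul_le_mul' (ENNReal.ofReal_le_ofReal (le_abs_self _)) ((hthin r hr).trans
            (ENNReal.ofReal_le_ofReal (mul_le_mul_of_nonneg_right (le_abs_self _) hr.le)))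
      _ ≤ ENNReal.ofReal (C * r) := by
          rw [Finset.sum_const, Finset.card_univ, Fintype.card_fin, nsmul_eq_mul, ← ENNReal.ofReal_natCast,
            ← ENNReal.ofReal_mul p0, ← mul_assoc]
          exact ENNReal.ofReal_le_ofReal (mul_le_mul_of_nonneg_right (by linarith) hr.le)
  · rw [← ENNReal.ofReal_natCast]
    exact mul_le_mul_left (ENNReal.ofReal_le_ofReal (by linarith [le_abs_self C₂])) _
  · have hb : ball (a.φ (a.c x) x) r ⊆ range I := fun v hv => by
      by_contra hv'
      exact hx (mem_thickening_iff.mpr ⟨v, hv', by rw [dist_comm]; exact hv⟩)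
    have hr' : r ≤ r₀ := by
      have h1 : r * r₀⁻¹ ≤ 1 := (mul_le_mul_of_nonneg_left (by linarith) hr.le).trans hrC
      rwa [mul_inv_le_iff₀ hr₀, one_mul] at h1
    have hi : a.φ (a.c x) x ∈ interior (range I) :=
      mem_interior_iff_mem_nhds.mpr (Filter.mem_of_superset (ball_mem_nhds _ hr) hb)
    refine ⟨fderiv ℝ fun w => a.φ (a.c (S x)) (S (a.ψ (a.c x) w)), fun v hv => ?_⟩
    obtain ⟨h1, h2, h3, h4, h5⟩ := (hloc x r hr hr' hb).2 v hv
    refine ⟨h1, h2, h3.trans q1, ?_, h5⟩
    rw [if_pos hi]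
    exact h4.trans (mul_le_mul_of_nonneg_right q1 (norm_nonneg _))

end Crest.Agent.R133
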