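import Crest.Agent.R133.Defs

/-! Row 133: analytic lemmas for the construction of the model. -/

set_option autoImplicit false

namespace Crest.Agent.R133

open MeasureTheory Metric Function Set
open scoped Manifold ContDiff

variable {d : ℕ}

/-- The first and second derivatives within `D` are continuous on `D`, so bounded on `Γ`; at the points of an open ball contained in `D` they are the usual derivatives; use the
mean value inequality on the ball. -/
theorem exists_C2_bound {D Γ : Set (E d)} (hD : UniqueDiffOn ℝ D) {f : E d → E d} (hf : ContDiffOn ℝ 2 f D)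
    (hΓ : IsCompact Γ) (hΓD : Γ ⊆ D) : ∃ C : ℝ, ∀ w r, ball w r ⊆ Γ → ∀ v ∈ ball w r,
      HasStrictFDerivAt f (fderiv ℝ f v) v ∧ ‖fderiv ℝ f v‖ ≤ C ∧ ‖fderiv ℝ f v - fderiv ℝ f w‖ ≤ C * ‖v - w‖ := by
  have h1 : ContDiffOn ℝ 1 (fderivWithin ℝ f D) D := hf.fderivWithin hD (by norm_num)
  obtain ⟨C1, hC1⟩ := hΓ.exists_bound_of_continuousOn (h1.continuousOn.mono hΓD)
  obtain ⟨C2, hC2⟩ := hΓ.exists_bound_of_continuousOn
    ((h1.continuousOn_fderivWithin hD le_rfl).mono hΓD)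
  refine ⟨max C1 C2, fun w r hr v hv => ?_⟩
  have hn : ∀ x ∈ ball w r, D ∈ nhds x := fun x hx =>
    Filter.mem_of_superset (isOpen_ball.mem_nhds hx) (hr.trans hΓD)
  have hw : w ∈ ball w r := mem_ball_self (pos_of_mem_ball hv)
  rw [← fderivWithin_of_mem_nhds (hn w hw)]
  refine ⟨(hf.contDiffAt (hn v hv)).hasStrictFDerivAt (by norm_num), ?_⟩
  rw [← fderivWithin_of_mem_nhds (hn v hv)]
  exact ⟨(hC1 v (hr hv)).trans (le_max_left _ _),
    (convex_ball w r).norm_image_sub_le_of_norm_hasFDerivWithin_le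
      (fun x hx => (h1.differentiableOn one_ne_zero x (hΓD (hr hx))).hasFDerivWithinAt.mono
        (hr.trans hΓD)) (fun x hx => (hC2 x (hr hx)).trans (le_max_right _ _)) hw hv⟩

/-- chain rule within `D'`; `fderivWithin ℝ g D'` is bounded on `Γ'` -/
theorem exists_inv_bound {D' Γ' : Set (E d)} (hD : UniqueDiffOn ℝ D') {g : E d → E d} (hg : ContDiffOn ℝ 1 g D')
    (hΓ : IsCompact Γ') (hΓD : Γ' ⊆ D') : ∃ C : ℝ, ∀ (f : E d → E d) (w : E d), DifferentiableAt ℝ f w → f w ∈ Γ' →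
      (∀ᶠ v in nhds w, f v ∈ D' ∧ g (f v) = v) → ∀ p, ‖p‖ ≤ C * ‖fderiv ℝ f w p‖ := by
  obtain ⟨C, hC⟩ := hΓ.exists_bound_of_continuousOn
    ((hg.continuousOn_fderivWithin hD le_rfl).mono hΓD)
  refine ⟨C, fun f w hf hw h p => ?_⟩
  have h1 := (hg.differentiableOn one_ne_zero _ (hΓD hw)).hasFDerivWithinAt.comp_hasFDerivAt w
    hf.hasFDerivAt (h.mono fun _ hv => hv.1)
  have h2 := h1.unique ((hasFDerivAt_id w).congr_of_eventuallyEq (h.mono fun _ hv => hv.2))
  exact (congrArg norm (DFunLike.congr_fun h2 p)).symm.trans_le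
    (ContinuousLinearMap.le_of_opNorm_le _ (hC _ hw) _)

/-- the range of the model has a thin boundary -/
def Thin (Rg : Set (E d)) : Prop :=
  ∀ R : ℝ, ∃ C : ℝ, ∀ r : ℝ, 0 < r → volume (closedBall 0 R ∩ Rg ∩ thickening r Rgᶜ) ≤ ENNReal.ofReal (C * r)

theorem thin_univ : Thin (range (𝓡 d)) := by
  intro R
  exact ⟨0, fun r _ => by simp⟩

/-- the set is contained in the box `[0, r] × [-R, R] ^ d` (`range_modelWithCornersEuclideanHalfSpace`, `PiLp.volume_preserving_ofLp`, `Real.volume_pi_Icc`) -/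
theorem thin_half : Thin (range (𝓡∂ (d + 1))) := by
  intro R
  refine ⟨(2 * |R|) ^ d, fun r hr => ?_⟩
  have h : closedBall 0 R ∩ range (𝓡∂ (d + 1)) ∩ thickening r (range (𝓡∂ (d + 1)))ᶜ ⊆
      (WithLp.ofLp : E (d + 1) → Fin (d + 1) → ℝ) ⁻¹'
        Icc (Fin.cons 0 fun _ => -|R|) (Fin.cons r fun _ => |R|) := by
    rw [range_modelWithCornersEuclideanHalfSpace]
    rintro x ⟨⟨h1, h2⟩, h3⟩
    obtain ⟨z, hz, hxz⟩ := mem_thickening_iff.1 h3
    have h4 : ∀ i, |x i| ≤ |R| := fun i =>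
      (PiLp.norm_apply_le x i).trans ((mem_closedBall_zero_iff.1 h1).trans (le_abs_self R))
    have h5 : x 0 - z 0 < r := (le_abs_self _).trans_lt ((PiLp.dist_apply_le x z 0).trans_lt hxz)
    have h6 : z 0 < 0 := not_le.1 hz
    exact ⟨Fin.cases h2 fun i => (abs_le.1 (h4 _)).1,
      Fin.cases (show x 0 ≤ r by linarith) fun i => (abs_le.1 (h4 _)).2⟩
  refine (measure_mono h).trans (le_of_eq ?_)
  rw [(PiLp.volume_preserving_ofLp _).measure_preimage measurableSet_Icc.nullMeasurableSet,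
    Real.volume_Icc_pi, Fin.prod_univ_succ, mul_comm _ r, ENNReal.ofReal_mul hr.le,
    ENNReal.ofReal_pow (by positivity)]
  simp [two_mul]

/-- a compact manifold is metrizable, so a finite Borel measure is inner regular -/
theorem exists_compact_sep {H : Type} [TopologicalSpace H] (I : ModelWithCorners ℝ (E d) H) {M : Type}
    [TopologicalSpace M] [T2Space M] [CompactSpace M] [ChartedSpace H M] [MeasurableSpace M] [BorelSpace M]
    (ν : Measure M) [IsProbabilityMeasure ν] {P : M → Bool} (hP : Measurable P) {ε : ℝ} (hε : 0 < ε) :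
    ∃ K : Bool → Set M, (∀ b, IsCompact (K b)) ∧ (∀ b, ∀ x ∈ K b, P x = b) ∧ ν.real (K true ∪ K false)ᶜ ≤ ε := by
  have := Manifold.metrizableSpace I M
  have h : ∀ b, ∃ F ⊆ P ⁻¹' {b}, IsClosed F ∧ ν (P ⁻¹' {b} \ F) < ENNReal.ofReal (ε / 2) := fun b =>
    (hP (measurableSet_singleton b)).exists_isClosed_sdiff_lt (measure_ne_top _ _)
      (ENNReal.ofReal_pos.2 (half_pos hε)).ne'
  choose K h1 h2 h3 using h
  refine ⟨K, fun b => (h2 b).isCompact, fun b x hx => h1 b hx, ?_⟩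
  have h4 : ∀ b, ν.real (P ⁻¹' {b} \ K b) ≤ ε / 2 := fun b =>
    ENNReal.toReal_le_of_le_ofReal (half_pos hε).le (h3 b).le
  have h5 : (K true ∪ K false)ᶜ ⊆ (P ⁻¹' {true} \ K true) ∪ (P ⁻¹' {false} \ K false) := fun x hx => by
    rw [mem_compl_iff, mem_union, not_or] at hx
    cases h : P x
    exacts [Or.inr ⟨h, hx.2⟩, Or.inl ⟨h, hx.1⟩]
  linarith [measureReal_mono (μ := ν) h5, measureReal_union_le (μ := ν) (P ⁻¹' {true} \ K true)
    (P ⁻¹' {false} \ K false), h4 true, h4 false]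

end Crest.Agent.R133
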