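import Crest.Agent.R133.ManA

/-! Row 133: a smooth volume preserving diffeomorphism of a compact manifold has a model. -/

set_option autoImplicit false

namespace Crest.Agent.R133

open MeasureTheory Metric Function Set Crest.AnalysisR
open scoped Manifold ContDiff

variable {d : ℕ} {H : Type} [TopologicalSpace H] {I : ModelWithCorners ℝ (E d) H} {M : Type}
  [TopologicalSpace M] [T2Space M] [CompactSpace M] [ChartedSpace H M] [IsManifold I ∞ M] [MeasurableSpace M]
  [BorelSpace M]

/-- finitely many charts, extended to measurable maps -/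
structure Atl (I : ModelWithCorners ℝ (E d) H) (M : Type) [TopologicalSpace M] [ChartedSpace H M]
    [MeasurableSpace M] where
  k : ℕ
  p : Fin k → M
  Q : Fin k → Set M
  c : M → Fin k
  φ : Fin k → M → E d
  ψ : Fin k → E d → M
  compact : ∀ i, IsCompact (Q i)
  sub : ∀ i, Q i ⊆ (extChartAt I (p i)).source
  mem : ∀ x, x ∈ Q (c x)
  meas_c : Measurable c
  meas_φ : ∀ i, Measurable (φ i)
  meas_ψ : ∀ i, Measurable (ψ i)
  φ_eq : ∀ i, ∀ x ∈ (extChartAt I (p i)).source, φ i x = extChartAt I (p i) x
  ψ_eq : ∀ i, ∀ w ∈ (extChartAt I (p i)).target, ψ i w = (extChartAt I (p i)).symm w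

/-- `IsCompact.finite_compact_cover` (or compact neighbourhoods and a finite subcover); `c x` is the least index; `ContinuousOn.measurable_piecewise` -/
theorem exists_atl [Nonempty M] : Nonempty (Atl I M) := by
  classical
  obtain ⟨t, ht⟩ := isCompact_univ.elim_finite_subcover (fun x : M => (extChartAt I x).source)
    (fun x => isOpen_extChartAt_source x) fun x _ => mem_iUnion.2 ⟨x, mem_extChartAt_source x⟩
  let p : Fin t.card → M := fun i => t.equivFin.symm i
  obtain ⟨Q, h1, h2, h3⟩ := isCompact_univ.finite_compact_cover Finset.univ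
    (fun i => (extChartAt I (p i)).source) (fun i _ => isOpen_extChartAt_source _) fun x hx => by
      obtain ⟨y, hy, hxy⟩ := mem_iUnion₂.1 (ht hx)
      refine mem_iUnion₂.2 ⟨t.equivFin ⟨y, hy⟩, Finset.mem_univ _, ?_⟩
      simpa only [p, Equiv.symm_apply_apply] using hxy
  have h4 : ∀ x, ∃ i, x ∈ Q i := fun x => by
    obtain ⟨i, -, hi⟩ := mem_iUnion₂.1 (h3 ▸ mem_univ x)
    exact ⟨i, hi⟩
  have : Nonempty (Fin t.card) := ⟨(h4 (Classical.arbitrary M)).choose⟩
  obtain ⟨g, hg⟩ := exists_surjective_nat (Fin t.card)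
  have h5 : ∀ x, ∃ m, x ∈ Q (g m) := fun x => by
    obtain ⟨i, hi⟩ := h4 x
    obtain ⟨m, rfl⟩ := hg i
    exact ⟨m, hi⟩
  refine ⟨⟨t.card, p, Q, fun x => g (Nat.find (h5 x)),
    fun i => (extChartAt I (p i)).source.piecewise (extChartAt I (p i)) fun _ => 0,
    fun i => (extChartAt I (p i)).target.piecewise (extChartAt I (p i)).symm
      fun _ => Classical.arbitrary M, h1, h2, fun x => Nat.find_spec (h5 x),
    Measurable.find (f := fun m _ => g m) (p := fun m x => x ∈ Q (g m)) (fun _ => measurable_const)
      (fun m => (h1 (g m)).measurableSet) h5,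
    fun i => (continuousOn_extChartAt _).measurable_piecewise continuousOn_const
      (isOpen_extChartAt_source _).measurableSet,
    fun i => (continuousOn_extChartAt_symm _).measurable_piecewise continuousOn_const ?_,
    fun i x hx => piecewise_eq_of_mem _ _ _ hx, fun i x hx => piecewise_eq_of_mem _ _ _ hx⟩⟩
  rw [extChartAt_target]
  exact ((chartAt H (p i)).open_target.preimage I.continuous_symm).measurableSet.inter
    I.isClosed_range.measurableSet

/-- the density is continuous on the compact set `extChartAt I (p i) '' Q i` -/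
theorem Atl.dens (a : Atl I M) {ν : Measure M} (hν : HasSmoothPositiveDensity I ν) : ∃ C : ℝ, ∀ i B, MeasurableSet B →
    ν {x | a.c x = i ∧ a.φ i x ∈ B} ≤ ENNReal.ofReal C * volume B := by
  have key : ∀ i, ∃ C : ℝ, ∀ B, MeasurableSet B →
      ν {x | a.c x = i ∧ a.φ i x ∈ B} ≤ ENNReal.ofReal C * volume B := by
    intro i
    obtain ⟨f, hf, -, he⟩ := hν (chartAt H (a.p i)) (chart_mem_atlas H _)
    have hs : (extChartAt I (a.p i)).source = (chartAt H (a.p i)).source := extChartAt_source I _
    have hΓ : IsCompact (extChartAt I (a.p i) '' a.Q i) :=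
      (a.compact i).image_of_continuousOn ((continuousOn_extChartAt _).mono (a.sub i))
    have hsub : extChartAt I (a.p i) '' a.Q i ⊆ I '' (chartAt H (a.p i)).target := by
      rintro _ ⟨x, hx, rfl⟩
      exact ⟨_, (chartAt H (a.p i)).map_source (hs ▸ a.sub i hx), rfl⟩
    obtain ⟨C, hC⟩ := hΓ.bddAbove_image (hf.continuousOn.mono hsub)
    refine ⟨C, fun B hB => ?_⟩
    have hm : MeasurableSet (B ∩ extChartAt I (a.p i) '' a.Q i) := hB.inter hΓ.measurableSet
    have hso := (chartAt H (a.p i)).open_source.measurableSet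
    have hae : AEMeasurable (I ∘ chartAt H (a.p i)) (ν.restrict (chartAt H (a.p i)).source) :=
      (I.continuous.comp_continuousOn (chartAt H (a.p i)).continuousOn).aemeasurable hso
    calc ν {x | a.c x = i ∧ a.φ i x ∈ B}
        ≤ ν ((I ∘ chartAt H (a.p i)) ⁻¹' (B ∩ extChartAt I (a.p i) '' a.Q i) ∩
            (chartAt H (a.p i)).source) := by
          refine measure_mono ?_
          rintro x ⟨rfl, hx⟩
          have h1 := a.sub _ (a.mem x)
          rw [a.φ_eq _ x h1] at hx
          exact ⟨⟨hx, x, a.mem x, rfl⟩, hs ▸ h1⟩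
      _ = (ν.restrict (chartAt H (a.p i)).source).map (I ∘ chartAt H (a.p i))
            (B ∩ extChartAt I (a.p i) '' a.Q i) := by
          rw [Measure.map_apply_of_aemeasurable hae hm, Measure.restrict_apply' hso]
      _ ≤ ∫⁻ _ in B ∩ extChartAt I (a.p i) '' a.Q i, ENNReal.ofReal C
            ∂(volume.restrict (I '' (chartAt H (a.p i)).target)) := by
          rw [he, withDensity_apply _ hm]
          exact setLIntegral_mono' hm fun y hy => ENNReal.ofReal_le_ofReal (hC ⟨y, hy.2, rfl⟩)
      _ ≤ ENNReal.ofReal C * volume B := by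
          rw [setLIntegral_const]
          exact mul_le_mul_right ((Measure.restrict_le_self _).trans
            (measure_mono inter_subset_left)) _
  choose C hC using key
  obtain ⟨C', hC'⟩ := (finite_range C).bddAbove
  exact ⟨C', fun i B hB => (hC i B hB).trans
    (mul_le_mul_left (ENNReal.ofReal_le_ofReal (hC' ⟨i, rfl⟩)) _)⟩

end Crest.Agent.R133
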