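import Crest.Agent.R133.ManB

/-! Row 133: a smooth volume preserving diffeomorphism of a compact manifold has a model. -/

set_option autoImplicit false

namespace Crest.Agent.R133

open MeasureTheory Metric Function Set Crest.AnalysisR
open scoped Manifold ContDiff

variable {d : ℕ} {H : Type} [TopologicalSpace H] {I : ModelWithCorners ℝ (E d) H} {M : Type}
  [TopologicalSpace M] [T2Space M] [CompactSpace M] [ChartedSpace H M] [IsManifold I ∞ M] [MeasurableSpace M]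
  [BorelSpace M]

omit [T2Space M] [CompactSpace M] [IsManifold I ∞ M] [MeasurableSpace M] [BorelSpace M] in
/-- a compact thickening in a chart -/
theorem manc_thick (p : M) {Kc W : Set M} (hKc : IsCompact Kc) (hsub : Kc ⊆ (extChartAt I p).source) (hW : IsOpen W)
    (hKW : Kc ⊆ W) : ∃ δ : ℝ, 0 < δ ∧ ∃ Γ : Set (E d), IsCompact Γ ∧
      Γ ⊆ (extChartAt I p).target ∩ (extChartAt I p).symm ⁻¹' W ∧
      ∀ x ∈ Kc, ∀ r, r ≤ δ → ball (extChartAt I p x) r ⊆ range I → ball (extChartAt I p x) r ⊆ Γ := by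
  have hc : IsCompact (extChartAt I p '' Kc) :=
    hKc.image_of_continuousOn ((continuousOn_extChartAt p).mono hsub)
  have hO : IsOpen (I.symm ⁻¹' ((chartAt H p).target ∩ (chartAt H p).symm ⁻¹' W)) :=
    ((chartAt H p).isOpen_inter_preimage_symm hW).preimage I.continuous_symm
  have hcO : extChartAt I p '' Kc ⊆ I.symm ⁻¹' ((chartAt H p).target ∩ (chartAt H p).symm ⁻¹' W) := by
    rintro _ ⟨x, hx, rfl⟩
    have hx' : x ∈ (chartAt H p).source := by simpa using hsub hx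
    simp only [extChartAt_coe, comp_apply, mem_preimage, ModelWithCorners.left_inv, mem_inter_iff]
    exact ⟨(chartAt H p).map_source hx', by rw [(chartAt H p).left_inv hx']; exact hKW hx⟩
  obtain ⟨δ, hδ, hth⟩ := hc.exists_cthickening_subset_open hO hcO
  refine ⟨δ, hδ, cthickening δ (extChartAt I p '' Kc) ∩ range I, hc.cthickening.inter_right I.isClosed_range, ?_, ?_⟩
  · rintro v ⟨hv, hvI⟩
    have h := hth hv
    simp only [mem_preimage, mem_inter_iff] at h
    refine ⟨?_, ?_⟩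
    · rw [extChartAt_target]
      exact ⟨h.1, hvI⟩
    · simpa using h.2
  · intro x hx r hr hb v hv
    refine ⟨?_, hb hv⟩
    exact mem_cthickening_of_dist_le v (extChartAt I p x) δ _ (mem_image_of_mem _ hx) ((mem_ball.1 hv).le.trans hr)

omit [CompactSpace M] [MeasurableSpace M] [BorelSpace M] in
/-- the bounds for one pair of charts -/
theorem manc_pair (p q : M) {P Q : Set M} (hP : IsCompact P) (hPs : P ⊆ (extChartAt I p).source) (hQ : IsCompact Q)
    (hQs : Q ⊆ (extChartAt I q).source) (S : Diffeomorph I I M M ∞) : ∃ δ C : ℝ, 0 < δ ∧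
      ∀ x ∈ P, S x ∈ Q → ∀ r, 0 < r → r ≤ δ → ball (extChartAt I p x) r ⊆ range I →
      (∀ u, ‖u‖ ≤ C * ‖fderiv ℝ (extChartAt I q ∘ S ∘ (extChartAt I p).symm) (extChartAt I p x) u‖) ∧
      ∀ v ∈ ball (extChartAt I p x) r, v ∈ (extChartAt I p).target ∧
        S ((extChartAt I p).symm v) ∈ (extChartAt I q).source ∧
        HasStrictFDerivAt (extChartAt I q ∘ S ∘ (extChartAt I p).symm)
          (fderiv ℝ (extChartAt I q ∘ S ∘ (extChartAt I p).symm) v) v ∧
        ‖fderiv ℝ (extChartAt I q ∘ S ∘ (extChartAt I p).symm) v‖ ≤ C ∧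
        ‖fderiv ℝ (extChartAt I q ∘ S ∘ (extChartAt I p).symm) v -
          fderiv ℝ (extChartAt I q ∘ S ∘ (extChartAt I p).symm) (extChartAt I p x)‖ ≤ C * ‖v - extChartAt I p x‖ := by
  have hS : Continuous S := S.continuous
  have hS' : Continuous S.symm := S.symm.continuous
  have hW : IsOpen (S ⁻¹' (extChartAt I q).source) := (isOpen_extChartAt_source q).preimage hS
  have hW' : IsOpen (S.symm ⁻¹' (extChartAt I p).source) := (isOpen_extChartAt_source p).preimage hS'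
  have hKc : IsCompact (P ∩ S ⁻¹' Q) := hP.inter_right (hQ.isClosed.preimage hS)
  obtain ⟨δ, hδ, Γ, hΓ, hΓD, hball⟩ := manc_thick (I := I) p hKc (inter_subset_left.trans hPs) hW
    (fun x hx => hQs hx.2)
  have hf : ContDiffOn ℝ 2 (extChartAt I q ∘ S ∘ (extChartAt I p).symm)
      ((extChartAt I p).target ∩ (extChartAt I p).symm ⁻¹' (S ⁻¹' (extChartAt I q).source)) :=
    ((contMDiff_iff.1 S.contMDiff).2 p q).of_le (by decide)
  have hg : ContDiffOn ℝ 1 (extChartAt I p ∘ S.symm ∘ (extChartAt I q).symm)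
      ((extChartAt I q).target ∩ (extChartAt I q).symm ⁻¹' (S.symm ⁻¹' (extChartAt I p).source)) :=
    ((contMDiff_iff.1 S.symm.contMDiff).2 q p).of_le (by exact_mod_cast le_top)
  have hD : UniqueDiffOn ℝ ((extChartAt I p).target ∩ (extChartAt I p).symm ⁻¹' (S ⁻¹' (extChartAt I q).source)) :=
    hW.uniqueMDiffOn.uniqueDiffOn_target_inter p
  have hD' : UniqueDiffOn ℝ
      ((extChartAt I q).target ∩ (extChartAt I q).symm ⁻¹' (S.symm ⁻¹' (extChartAt I p).source)) :=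
    hW'.uniqueMDiffOn.uniqueDiffOn_target_inter q
  obtain ⟨C₁, hC₁⟩ := exists_C2_bound hD hf hΓ hΓD
  have hKc' : IsCompact (Q ∩ S.symm ⁻¹' P) := hQ.inter_right (hP.isClosed.preimage hS')
  have hΓ' : IsCompact (extChartAt I q '' (Q ∩ S.symm ⁻¹' P)) :=
    hKc'.image_of_continuousOn ((continuousOn_extChartAt q).mono (inter_subset_left.trans hQs))
  have hΓD' : extChartAt I q '' (Q ∩ S.symm ⁻¹' P) ⊆
      (extChartAt I q).target ∩ (extChartAt I q).symm ⁻¹' (S.symm ⁻¹' (extChartAt I p).source) := by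
    rintro _ ⟨y, hy, rfl⟩
    refine ⟨(extChartAt I q).map_source (hQs hy.1), ?_⟩
    rw [mem_preimage, (extChartAt I q).left_inv (hQs hy.1)]
    exact hPs hy.2
  obtain ⟨C₂, hC₂⟩ := exists_inv_bound hD' hg hΓ' hΓD'
  refine ⟨δ, max C₁ C₂, hδ, fun x hx hSx r hr hrδ hb => ?_⟩
  have hbΓ := hball x ⟨hx, hSx⟩ r hrδ hb
  have hx0 : extChartAt I p x ∈ ball (extChartAt I p x) r := mem_ball_self hr
  refine ⟨fun u => ?_, fun v hv => ?_⟩
  · refine (hC₂ _ _ (hC₁ _ r hbΓ _ hx0).1.hasFDerivAt.differentiableAt ?_ ?_ u).trans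
      (mul_le_mul_of_nonneg_right (le_max_right _ _) (norm_nonneg _))
    · refine ⟨S x, ⟨hSx, ?_⟩, ?_⟩
      · simpa using hx
      · simp only [comp_apply]
        rw [(extChartAt I p).left_inv (hPs hx)]
    · filter_upwards [isOpen_ball.mem_nhds hx0] with v hv
      have h := hΓD (hbΓ hv)
      have h2 : S ((extChartAt I p).symm v) ∈ (extChartAt I q).source := h.2
      have h3 : (extChartAt I q).symm (extChartAt I q (S ((extChartAt I p).symm v))) = S ((extChartAt I p).symm v) :=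
        (extChartAt I q).left_inv h2
      refine ⟨⟨(extChartAt I q).map_source h2, ?_⟩, ?_⟩
      · simp only [mem_preimage, comp_apply]
        rw [h3, Diffeomorph.symm_apply_apply]
        exact (extChartAt I p).map_target h.1
      · simp only [comp_apply]
        rw [h3, Diffeomorph.symm_apply_apply]
        exact (extChartAt I p).right_inv h.1
  · have h := hΓD (hbΓ hv)
    obtain ⟨h1, h2, h3⟩ := hC₁ _ r hbΓ v hv
    exact ⟨h.1, h.2, h1, h2.trans (le_max_left _ _),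
      h3.trans (mul_le_mul_of_nonneg_right (le_max_left _ _) (norm_nonneg _))⟩

theorem manc_min {ι : Type} [Finite ι] (δ : ι → ℝ) (h : ∀ i, 0 < δ i) : ∃ r : ℝ, 0 < r ∧ ∀ i, r ≤ δ i := by
  obtain ⟨r, hr, h'⟩ := Pi.exists_forall_pos_add_lt (x := fun _ => 0) (y := δ) h
  exact ⟨r, hr, fun i => by simpa using (h' i).le⟩

/-- For a pair `i, j` let `f = extChartAt (p j) ∘ S ∘ (extChartAt (p i)).symm`, smooth on `D = target i ∩ symm ⁻¹' (S ⁻¹' source j) = O ∩ range I` with `O` open (`UniqueDiffOn`).  The compact set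
`extChartAt (p i) '' (Q i ∩ S ⁻¹' Q j)` has a compact thickening `Γ₀ ⊆ O`; let `Γ = Γ₀ ∩ range I` and use `exists_C2_bound`; on `D` the map `φ j ∘ S ∘ ψ i` agrees with `f`.  The lower bound is
`exists_inv_bound` for the inverse of `S`.  For the separation thicken `extChartAt (p i) '' (Q i ∩ K b)` inside the relatively open set `target i ∩ symm ⁻¹' (K (!b))ᶜ`. -/
theorem Atl.loc (a : Atl I M) (S : Diffeomorph I I M M ∞) {K : Bool → Set M} (hK : ∀ b, IsCompact (K b))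
    (hd : Disjoint (K true) (K false)) : ∃ r₀ C : ℝ, 0 < r₀ ∧ ∀ x r, 0 < r → r ≤ r₀ → ball (a.φ (a.c x) x) r ⊆ range I →
      (∀ p, ‖p‖ ≤ C * ‖fderiv ℝ (fun w => a.φ (a.c (S x)) (S (a.ψ (a.c x) w))) (a.φ (a.c x) x) p‖) ∧
      ∀ v ∈ ball (a.φ (a.c x) x) r,
        a.ψ (a.c (S x)) (a.φ (a.c (S x)) (S (a.ψ (a.c x) v))) = S (a.ψ (a.c x) v) ∧
        HasStrictFDerivAt (fun w => a.φ (a.c (S x)) (S (a.ψ (a.c x) w)))
          (fderiv ℝ (fun w => a.φ (a.c (S x)) (S (a.ψ (a.c x) w))) v) v ∧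
        ‖fderiv ℝ (fun w => a.φ (a.c (S x)) (S (a.ψ (a.c x) w))) v‖ ≤ C ∧
        ‖fderiv ℝ (fun w => a.φ (a.c (S x)) (S (a.ψ (a.c x) w))) v -
          fderiv ℝ (fun w => a.φ (a.c (S x)) (S (a.ψ (a.c x) w))) (a.φ (a.c x) x)‖ ≤ C * ‖v - a.φ (a.c x) x‖ ∧
        ∀ b, x ∈ K b → a.ψ (a.c x) v ∉ K (!b) := by
  choose δ C hδ hpair using fun ij : Fin a.k × Fin a.k =>
    manc_pair (I := I) (a.p ij.1) (a.p ij.2) (a.compact ij.1) (a.sub ij.1) (a.compact ij.2) (a.sub ij.2) S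
  have hdis : ∀ b, ∀ x ∈ K b, x ∉ K (!b) := by
    intro b x hx hx'
    cases b
    · exact disjoint_left.1 hd hx' hx
    · exact disjoint_left.1 hd hx hx'
  choose ε hε Γ hΓ hΓD hball using fun ib : Fin a.k × Bool =>
    manc_thick (I := I) (a.p ib.1) (Kc := a.Q ib.1 ∩ K ib.2) (W := (K (!ib.2))ᶜ)
      ((a.compact ib.1).inter_right (hK ib.2).isClosed) (inter_subset_left.trans (a.sub ib.1))
      (hK _).isClosed.isOpen_compl (fun x hx => hdis _ x hx.2)
  obtain ⟨r₁, hr₁, hr₁'⟩ := manc_min δ hδ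
  obtain ⟨r₂, hr₂, hr₂'⟩ := manc_min ε hε
  obtain ⟨C₀, hC₀⟩ := (Set.finite_range C).bddAbove
  have hC : ∀ ij, C ij ≤ C₀ := fun ij => hC₀ (mem_range_self ij)
  refine ⟨min r₁ r₂, C₀, lt_min hr₁ hr₂, fun x r hr hr' hb => ?_⟩
  have hφ : a.φ (a.c x) x = extChartAt I (a.p (a.c x)) x := a.φ_eq _ _ (a.sub _ (a.mem x))
  rw [hφ] at hb ⊢
  obtain ⟨h1, h2⟩ := hpair (a.c x, a.c (S x)) x (a.mem x) (a.mem _) r hr
    (hr'.trans ((min_le_left _ _).trans (hr₁' _))) hb
  simp only at h1 h2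
  have heq : ∀ v ∈ ball (extChartAt I (a.p (a.c x)) x) r,
      (fun w => a.φ (a.c (S x)) (S (a.ψ (a.c x) w))) =ᶠ[nhds v]
        (extChartAt I (a.p (a.c (S x))) ∘ S ∘ (extChartAt I (a.p (a.c x))).symm) := by
    intro v hv
    filter_upwards [isOpen_ball.mem_nhds hv] with w hw
    obtain ⟨h3, h4, -⟩ := h2 w hw
    rw [a.ψ_eq _ _ h3, a.φ_eq _ _ h4]
    rfl
  refine ⟨fun u => ?_, fun v hv => ?_⟩
  · rw [(heq _ (mem_ball_self hr)).fderiv_eq]
    exact (h1 u).trans (mul_le_mul_of_nonneg_right (hC _) (norm_nonneg _))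
  · obtain ⟨h3, h4, h5, h6, h7⟩ := h2 v hv
    rw [(heq _ (mem_ball_self hr)).fderiv_eq, (heq v hv).fderiv_eq]
    refine ⟨?_, h5.congr_of_eventuallyEq (heq v hv).symm, h6.trans (hC _),
      h7.trans (mul_le_mul_of_nonneg_right (hC _) (norm_nonneg _)), fun b hxb => ?_⟩
    · rw [a.ψ_eq _ _ h3, a.φ_eq _ _ h4, a.ψ_eq _ _ ((extChartAt I _).map_source h4), (extChartAt I _).left_inv h4]
    · have h8 := hΓD (a.c x, b) (hball (a.c x, b) x ⟨a.mem x, hxb⟩ r
        (hr'.trans ((min_le_right _ _).trans (hr₂' _))) hb hv)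
      rw [a.ψ_eq _ _ h3]
      exact h8.2

end Crest.Agent.R133
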