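import Crest.Agent.R133.Params
import Crest.Agent.R133.Group
import Crest.Agent.R133.Good

/-! Row 133: the obstruction at one level. -/

set_option autoImplicit false

namespace Crest.Agent.R133

open MeasureTheory Finset Metric Function



theorem obstruct_sum_Icc (f : ℕ → ℝ) (i y : ℕ) :
    ∑ c ∈ Icc (i + 1) (i + y), f c = ∑ k ∈ range y, f (i + (1 + k)) := by
  induction y with
  | zero => simp
  | succ y ih =>
    rw [sum_range_succ, ← ih, ← add_assoc i y 1, Finset.sum_Icc_succ_top (by omega)]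
    congr 2
    omega

theorem obstruct_double {f : ℕ → ℝ} {δ : ℝ} (hf : ∀ I : Finset ℕ, ∑ c ∈ I, f c ≤ δ) (I y : ℕ) :
    ∑ i ∈ range I, ∑ c ∈ Icc (i + 1) (i + y), f c ≤ y * δ := by
  simp_rw [obstruct_sum_Icc]
  rw [sum_comm]
  calc ∑ k ∈ range y, ∑ i ∈ range I, f (i + (1 + k)) ≤ ∑ _k ∈ range y, δ := by
        refine sum_le_sum fun k _ => ?_
        have := hf ((range I).image (· + (1 + k)))
        rwa [sum_image (fun a _ b _ h => by simpa using h)] at this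
    _ = y * δ := by simp

/-- the averaged bound for one group -/
theorem obstruct_avg {Φ f : ℕ → ℝ} {B ε θ θ' : ℝ} {I y : ℕ} (hΦ : ∀ i, |Φ i| ≤ B) (hε : 0 < ε) (hθ : 0 < θ)
    (hθ' : 0 < θ') (hy : 1 ≤ y) (hf : ∀ I : Finset ℕ, ∑ c ∈ I, f c ≤ ε ^ 2)
    (h1 : 8 * B * (y + 1) ≤ ε * θ * (2 * I)) (h2 : 8 * B ≤ ε * θ' * (2 * I)) :
    ∑ i ∈ range I, (5 * ε + 2 * (Φ i - Φ (i + (y + 1))) / θ + 2 * (Φ i - Φ (i + 1)) / θ' +
      2 * (2 * (I : ℝ)) / (ε * y) * ∑ c ∈ Icc (i + 1) (i + y), f c) ≤ 11 * ε * I := by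
  have hy0 : (0 : ℝ) < y := by exact_mod_cast hy
  have a1 := sum_sub_shift_le hΦ I (y + 1)
  have a2 := sum_sub_shift_le hΦ I 1
  have a3 := obstruct_double hf I y
  push_cast at a1 a2
  have b1 : ∑ i ∈ range I, 2 * (Φ i - Φ (i + (y + 1))) / θ ≤ ε * I := by
    rw [← sum_div, ← mul_sum, div_le_iff₀ hθ]
    nlinarith
  have b2 : ∑ i ∈ range I, 2 * (Φ i - Φ (i + 1)) / θ' ≤ ε * I := by
    rw [← sum_div, ← mul_sum, div_le_iff₀ hθ']
    nlinarith
  have b3 : ∑ i ∈ range I, 2 * (2 * (I : ℝ)) / (ε * y) * ∑ c ∈ Icc (i + 1) (i + y), f c ≤ 4 * ε * I := by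
    rw [← mul_sum]
    calc 2 * (2 * (I : ℝ)) / (ε * y) * ∑ i ∈ range I, ∑ c ∈ Icc (i + 1) (i + y), f c
        ≤ 2 * (2 * (I : ℝ)) / (ε * y) * (y * ε ^ 2) := by gcongr
      _ = 4 * ε * I := by field_simp; ring
  rw [sum_add_distrib, sum_add_distrib, sum_add_distrib, sum_const, card_range, nsmul_eq_mul]
  linarith

/-- Take `ε = 1 / (80 (d + 1)²)`, `ε₀ = ε²`, `C₁` from `good_bound`.  For each `i < n / 2` the sets `Gap u (X g) (ζ g)` (`g, u ≤ d`) cover `M` (`exists_gap`), so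
`1 ≤ (d + 1) ∑_g (bound of group_bound)`.  Average over `i` with `sum_sub_shift_le`, `abs_Phi_le`, `sum_err_le` (each class `c` is in at most `y` of the intervals
`[i + 1, i + y]`): `1 ≤ (d + 1)² (5 ε + ε + ε + 4 ε)`. -/
theorem obstruct (d : ℕ) : ∃ ε₀ : ℝ, 0 < ε₀ ∧ ∀ C τ B : ℕ, 1 ≤ τ → ∃ a b c e : ℕ, B ≤ a ∧ 1 ≤ e ∧
    ∀ (M : Type) [MeasurableSpace M] (ν : Measure M) [IsProbabilityMeasure ν] (S : M → M) (P : M → Bool)
      (K : Bool → Set M), MeasurePreserving S ν ν → Measurable P → (∀ b, MeasurableSet (K b)) →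
      (∀ b, ∀ x ∈ K b, P x = b) → ν.real (K true ∪ K false)ᶜ ≤ ε₀ → Model M ν S d C K →
      Level ν S P τ (2 ^ a) (2 ^ b) (2 ^ c) (2 ^ (e + a + b + c * 2 ^ a)) → False := by
  have hd1 : (0 : ℝ) < (d : ℝ) + 1 := by positivity
  set ε : ℝ := 1 / (80 * ((d : ℝ) + 1) ^ 2) with hεdef
  have hε : 0 < ε := by positivity
  have hε1 : ε ≤ 1 / 80 := by
    rw [hεdef]
    apply one_div_le_one_div_of_le (by norm_num)
    have : (0 : ℝ) ≤ d := Nat.cast_nonneg d
    nlinarith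
  refine ⟨ε ^ 2, by positivity, fun C τ B hτ => ?_⟩
  by_cases hC : 1 ≤ C
  swap
  · exact ⟨B, 0, 0, 1, le_rfl, le_rfl, fun M _ ν _ S P K _ _ _ _ _ Mo _ => hC Mo.one_le⟩
  obtain ⟨C₁, hC₁, hgood⟩ := good_bound d C
  obtain ⟨a, b, c, e, Q, hBa, ha, he, y, K', θ, θ', ζ, X, hN, hXζ, hbig⟩ :=
    exists_params d C τ B hC hτ hε hε1 hC₁
  refine ⟨a, b, c, e, hBa, he, fun M _ ν _ S P K hS hP hK hKP hν Mo Lv => ?_⟩
  set I : ℕ := 2 ^ (a - 1) with hI
  have hI0 : 0 < I := by positivity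
  have hn : ((2 ^ a : ℕ) : ℝ) = 2 * (I : ℝ) := by
    rw [hI]
    obtain ⟨a', rfl⟩ : ∃ a', a = a' + 1 := ⟨a - 1, by omega⟩
    push_cast
    ring
  have hn' : (2 : ℝ) ^ a = 2 * (I : ℝ) := by rw [← hn]; push_cast; rfl
  set Φ : ℕ → ℝ := fun i => Phi Mo (τ * per (2 ^ a) (2 ^ b) (2 ^ c) i) with hΦ
  set T : ℕ → ℕ → ℝ := fun g i => 5 * ε + 2 * (Φ i - Φ (i + (y g + 1))) / θ g + 2 * (Φ i - Φ (i + 1)) / θ' g +
      2 * (2 * (I : ℝ)) / (ε * y g) * ∑ c ∈ Icc (i + 1) (i + y g), err Lv K c with hT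
  have key : ∀ i, i < I → (1 : ℝ) ≤ ∑ g ∈ range (d + 1), ((d : ℝ) + 1) * T g i := by
    intro i hi
    set m : ℕ := τ * per (2 ^ a) (2 ^ b) (2 ^ c) i with hm
    set lam : ℝ := (2 * d + 2) * (3 * C * m : ℕ) * Q with hlam
    set G : ℕ → ℕ → Set M := fun g u => {x | Gap u (X g) (ζ g) lam (coc Mo.A S x (m * Q))} with hG
    have hN0 := hN 0 (Nat.zero_le d) i hi
    have hQ : (0 : ℝ) < Q := by exact_mod_cast hN0.hQ
    have hl : (0 : ℝ) < (3 * C * m : ℕ) := lt_of_lt_of_le (by positivity) hN0.hl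
    have hcov : (Set.univ : Set M) ⊆ ⋃ g ∈ range (d + 1), ⋃ u ∈ range (d + 1), G g u := by
      intro x _
      have hb := Mo.bilip_coc_exp x (m * Q)
      have hcast : ((3 * C * (m * Q) : ℕ) : ℝ) = (3 * C * m : ℕ) * Q := by push_cast; ring
      obtain ⟨g, hg, u, hu, hgap⟩ := exists_gap (lam := lam) (ζ := ζ) (X := X) hb (Nat.cast_nonneg _)
        (by
          rw [hcast, hlam]
          have : (0 : ℝ) ≤ ((3 * C * m : ℕ) : ℝ) * Q := by positivity
          nlinarith)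
        (by rw [hlam]; positivity)
        (fun g hg => ⟨(hN g hg i hi).hζ.le, (hN g hg i hi).hX, (hN g hg i hi).hX1⟩) hXζ
      simp only [Set.mem_iUnion, mem_range]
      exact ⟨g, by omega, u, by omega, hgap⟩
    calc (1 : ℝ) = ν.real Set.univ := by simp
      _ ≤ ν.real (⋃ g ∈ range (d + 1), ⋃ u ∈ range (d + 1), G g u) := measureReal_mono hcov (measure_ne_top _ _)
      _ ≤ ∑ g ∈ range (d + 1), ν.real (⋃ u ∈ range (d + 1), G g u) := measureReal_biUnion_finset_le _ _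
      _ ≤ ∑ g ∈ range (d + 1), ∑ u ∈ range (d + 1), ν.real (G g u) :=
          sum_le_sum fun g _ => measureReal_biUnion_finset_le _ _
      _ ≤ ∑ g ∈ range (d + 1), ∑ _u ∈ range (d + 1), T g i := by
          refine sum_le_sum fun g hg => sum_le_sum fun u hu => ?_
          have hg' : g ≤ d := by simpa [Nat.lt_succ_iff] using hg
          have hu' : u ≤ d := by simpa [Nat.lt_succ_iff] using hu
          have h := group_bound Mo Lv hS hK (hN g hg' i hi)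
            (hgood Mo Lv hS.measurable hP hK hKP (hN g hg' i hi) hu')
          rw [hn] at h
          exact h
      _ = ∑ g ∈ range (d + 1), ((d : ℝ) + 1) * T g i := by
          refine sum_congr rfl fun g _ => ?_
          rw [sum_const, card_range, nsmul_eq_mul]
          push_cast
          rfl
  have avg : ∀ g, g ≤ d → ∑ i ∈ range I, T g i ≤ 11 * ε * I := by
    intro g hg
    have hN0 := hN g hg 0 hI0
    obtain ⟨h1, h2⟩ := hbig g hg
    rw [hn'] at h1 h2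
    exact obstruct_avg (B := 4 * ((d : ℝ) + 3)) (fun i => abs_Phi_le Mo _) hε hN0.hθ hN0.hθ' hN0.hy
      (fun J => (sum_err_le Lv hK J).trans hν) h1 h2
  have tot : (I : ℝ) ≤ ((d : ℝ) + 1) * (((d : ℝ) + 1) * (11 * ε * I)) := by
    calc (I : ℝ) = ∑ _i ∈ range I, (1 : ℝ) := by simp
      _ ≤ ∑ i ∈ range I, ∑ g ∈ range (d + 1), ((d : ℝ) + 1) * T g i :=
          sum_le_sum fun i hi => key i (mem_range.mp hi)
      _ = ∑ g ∈ range (d + 1), ((d : ℝ) + 1) * ∑ i ∈ range I, T g i := by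
          rw [sum_comm]
          simp_rw [mul_sum]
      _ ≤ ∑ _g ∈ range (d + 1), ((d : ℝ) + 1) * (11 * ε * I) := by
          refine sum_le_sum fun g hg => ?_
          have hg' : g ≤ d := by simpa [Nat.lt_succ_iff] using hg
          exact mul_le_mul_of_nonneg_left (avg g hg') hd1.le
      _ = ((d : ℝ) + 1) * (((d : ℝ) + 1) * (11 * ε * I)) := by
          rw [sum_const, card_range, nsmul_eq_mul]
          push_cast
          rfl
  have hI1 : (0 : ℝ) < I := by exact_mod_cast hI0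
  have : ((d : ℝ) + 1) * (((d : ℝ) + 1) * (11 * ε * I)) = 11 / 80 * I := by
    rw [hεdef]
    field_simp
  linarith

end Crest.Agent.R133
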