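import Crest.Agent.R133.GoodA

/-! Row 133: the obstruction at one level. -/

set_option autoImplicit false

namespace Crest.Agent.R133

open MeasureTheory Finset Metric Function

theorem params_ev_pow (f : ℕ → ℝ) (d : ℕ) : ∀ᶠ a : ℕ in Filter.atTop, ∀ g, g ≤ d → f g ≤ (2 : ℝ) ^ a := by
  have h : ∀ g ∈ Finset.range (d + 1), ∀ᶠ a : ℕ in Filter.atTop, f g ≤ (2 : ℝ) ^ a := fun g _ =>
    (tendsto_pow_atTop_atTop_of_one_lt (by norm_num : (1 : ℝ) < 2)).eventually_ge_atTop (f g)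
  filter_upwards [(Filter.eventually_all_finset _).2 h] with a ha g hg
  exact ha g (Finset.mem_range.2 (by omega))

theorem params_ev_exp (c : ℝ) : ∀ᶠ b : ℕ in Filter.atTop, ∀ m : ℕ, 2 ^ b ≤ m → c * (m : ℝ) ^ 3 ≤ Real.exp m := by
  have h := (Real.tendsto_exp_div_pow_atTop 3).eventually_ge_atTop c
  obtain ⟨x, hx⟩ := Filter.eventually_atTop.1 h
  have h2 := (tendsto_pow_atTop_atTop_of_one_lt (by norm_num : (1 : ℝ) < 2)).eventually_ge_atTop x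
  filter_upwards [h2] with b hb m hm
  have hm' : (2 : ℝ) ^ b ≤ m := by exact_mod_cast hm
  have hm0 : (0 : ℝ) < m := lt_of_lt_of_le (by positivity) hm'
  have := hx m (hb.trans hm')
  rwa [le_div_iff₀ (by positivity)] at this

theorem params_small {d N y' m l : ℕ} (hy : y' ≤ N) (hm : 1 ≤ m) (hl : m ≤ l)
    (h : 800 * ((d : ℝ) + 1) * ((N : ℝ) + 1) ^ 2 * (m : ℝ) ^ 3 ≤ Real.exp m) :
    800 * ((d : ℝ) + 1) * ((y' : ℝ) + 1) ^ 2 ≤ Real.exp l := by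
  have hy' : (y' : ℝ) ≤ N := by exact_mod_cast hy
  have hm' : (1 : ℝ) ≤ m := by exact_mod_cast hm
  have hl' : (m : ℝ) ≤ l := by exact_mod_cast hl
  have h3 : (1 : ℝ) ≤ (m : ℝ) ^ 3 := one_le_pow₀ hm'
  calc 800 * ((d : ℝ) + 1) * ((y' : ℝ) + 1) ^ 2 ≤ 800 * ((d : ℝ) + 1) * ((N : ℝ) + 1) ^ 2 * 1 := by
        rw [mul_one]; gcongr
    _ ≤ 800 * ((d : ℝ) + 1) * ((N : ℝ) + 1) ^ 2 * (m : ℝ) ^ 3 := by gcongr
    _ ≤ Real.exp m := h
    _ ≤ Real.exp l := Real.exp_le_exp.2 hl'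

theorem params_safe {C N y' m l : ℕ} {ε : ℝ} (hε : 0 < ε) (hy : y' ≤ N) (hm : 1 ≤ m) (hl : m ≤ l)
    (h : (N : ℝ) * C / ε * (m : ℝ) ^ 3 ≤ Real.exp m) :
    ((m * y' : ℕ) : ℝ) * C ≤ ε * Real.exp l := by
  have hy' : (y' : ℝ) ≤ N := by exact_mod_cast hy
  have hm' : (1 : ℝ) ≤ m := by exact_mod_cast hm
  have hl' : (m : ℝ) ≤ l := by exact_mod_cast hl
  have h3 : (m : ℝ) ≤ (m : ℝ) ^ 3 := le_self_pow₀ hm' (by norm_num)
  calc ((m * y' : ℕ) : ℝ) * C = (y' : ℝ) * C * m := by push_cast; ring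
    _ ≤ (N : ℝ) * C * (m : ℝ) ^ 3 := by gcongr
    _ = ε * ((N : ℝ) * C / ε * (m : ℝ) ^ 3) := by field_simp
    _ ≤ ε * Real.exp m := by gcongr
    _ ≤ ε * Real.exp l := by gcongr

theorem params_types {d C N y' m V W : ℕ} {ε C₁ : ℝ} (hε : 0 < ε) (hC₁ : 0 < C₁) (hC : 1 ≤ C) (hy : y' ≤ N) (hm : 1 ≤ m)
    (hV : V ≤ W * m)
    (h : (W : ℝ) * C ^ (N + 1) * (d + 1) ^ d * (2 * d * (3 * C) * N + 1) ^ 2 * (2 * C₁) / ε * (m : ℝ) ^ 3 ≤ Real.exp m) :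
    (V : ℝ) * C ^ (y' + 1) * (d + 1) ^ d * (2 * d * (3 * C * m : ℕ) * (y' : ℝ) + 1) ^ 2 * (2 * C₁) ≤
      ε * Real.exp (3 * C * m : ℕ) := by
  have hy' : (y' : ℝ) ≤ N := by exact_mod_cast hy
  have hm' : (1 : ℝ) ≤ m := by exact_mod_cast hm
  have hC' : (1 : ℝ) ≤ C := by exact_mod_cast hC
  have hV' : (V : ℝ) ≤ W * m := by exact_mod_cast hV
  have hl' : (m : ℝ) ≤ (3 * C * m : ℕ) := by
    have : m ≤ 3 * C * m := Nat.le_mul_of_pos_left _ (by omega)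
    exact_mod_cast this
  have h1 : 2 * (d : ℝ) * (3 * C * m : ℕ) * (y' : ℝ) + 1 ≤ (2 * d * (3 * C) * N + 1) * m := by
    push_cast
    have : 2 * (d : ℝ) * (3 * C * m) * y' ≤ 2 * (d : ℝ) * (3 * C * m) * N := by gcongr
    nlinarith
  have h2 : (C : ℝ) ^ (y' + 1) ≤ (C : ℝ) ^ (N + 1) := pow_le_pow_right₀ hC' (by omega)
  calc (V : ℝ) * C ^ (y' + 1) * (d + 1) ^ d * (2 * d * (3 * C * m : ℕ) * (y' : ℝ) + 1) ^ 2 * (2 * C₁)
      ≤ (W * m) * C ^ (N + 1) * (d + 1) ^ d * ((2 * d * (3 * C) * N + 1) * m) ^ 2 * (2 * C₁) := by gcongr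
    _ = ε * ((W : ℝ) * C ^ (N + 1) * (d + 1) ^ d * (2 * d * (3 * C) * N + 1) ^ 2 * (2 * C₁) / ε * (m : ℝ) ^ 3) := by
        field_simp
    _ ≤ ε * Real.exp m := by gcongr
    _ ≤ ε * Real.exp (3 * C * m : ℕ) := by gcongr

/-- Let `D = 4 (120 d + 2) (2 d + 2) (3 C) τ`, `B' = 4 (d + 3)`.  Choose `p ≥ 1` with `η = 2⁻¹ ^ p` so small that `256000 B' D² η² ≤ ε³`.  For `g ≤ d` let `η g = 2⁻¹ ^ (p 4 ^ (d - g))`, `z g = (η g)⁴`
(so `η g = z (g + 1)` for `g < d`), `ζ g = z g / D`, `X g = η g / D`, `σ g = ε X g / 4`, `K g = ⌈16 / σ g⌉`, `θ g = (σ g)² / 1000`, `θ' g = ζ g / (K g)²`.  Then choose in this order: `a` large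
(`y g = 2 ^ a z g` is a positive integer, `8 B' ≤ ε θ' g 2 ^ a`), `Q` a power of `2` with `10 ≤ ζ g Q`, `c` with `Q ∣ 2 ^ c`, `2 (K g)² Q ≤ 2 ^ c`, `e` with `2 ≤ ε 2 ^ e`, and finally `b` such that
`Cst * m³ ≤ exp m` for all `m ≥ 2 ^ b`, where `Cst` only depends on the previous choices (`2 ^ b ≤ τ per i =: m`, `V ≤ 2 ^ e R ^ n m`, `y ≤ n`). -/
theorem exists_params (d C τ B : ℕ) (hC : 1 ≤ C) (hτ : 1 ≤ τ) {ε C₁ : ℝ} (hε : 0 < ε) (hε1 : ε ≤ 1 / 80) (hC₁ : 0 < C₁) :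
    ∃ a b c e Q : ℕ, B ≤ a ∧ 1 ≤ a ∧ 1 ≤ e ∧ ∃ (y K : ℕ → ℕ) (θ θ' ζ X : ℕ → ℝ),
      (∀ g, g ≤ d → ∀ i, i < 2 ^ (a - 1) →
        Num d C τ (2 ^ a) (2 ^ b) (2 ^ c) (2 ^ (e + a + b + c * 2 ^ a)) i (y g) Q (K g) (θ g) (θ' g) (ζ g) (X g) ε C₁) ∧
      (∀ g g', g < g' → g' ≤ d → X g ≤ ζ g') ∧
      ∀ g, g ≤ d → 8 * (4 * ((d : ℝ) + 3)) * (y g + 1) ≤ ε * θ g * 2 ^ a ∧ 8 * (4 * ((d : ℝ) + 3)) ≤ ε * θ' g * 2 ^ a := by
  set D : ℝ := 4 * (120 * d + 2) * ((2 * d + 2) * (3 * C)) * τ with hD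
  have hC' : (1 : ℝ) ≤ C := by exact_mod_cast hC
  have hτ' : (1 : ℝ) ≤ τ := by exact_mod_cast hτ
  have hd0 : (0 : ℝ) ≤ d := Nat.cast_nonneg d
  have hD1 : 1 ≤ D := by
    have h1 : (1 : ℝ) ≤ 4 * (120 * d + 2) := by linarith
    have h2 : (1 : ℝ) ≤ (2 * d + 2) * (3 * C) := one_le_mul_of_one_le_of_one_le (by linarith) (by linarith)
    exact one_le_mul_of_one_le_of_one_le (one_le_mul_of_one_le_of_one_le h1 h2) hτ'
  have hD0 : 0 < D := by linarith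
  set B' : ℝ := 4 * ((d : ℝ) + 3) with hB'
  have hB0 : 0 < B' := by positivity
  -- the choice of `p`
  obtain ⟨p, hp1, hp⟩ : ∃ p : ℕ, 1 ≤ p ∧ 256000 * B' * D ^ 2 / ε ^ 3 ≤ (2 : ℝ) ^ p := by
    obtain ⟨p, hp⟩ := ((Filter.eventually_ge_atTop 1).and
      (params_ev_pow (fun _ => 256000 * B' * D ^ 2 / ε ^ 3) 0)).exists
    exact ⟨p, hp.1, hp.2 0 le_rfl⟩
  set w : ℕ → ℕ := fun g => p * 4 ^ (d - g) with hw
  have hwp : ∀ g, p ≤ w g := fun g => Nat.le_mul_of_pos_right _ (by positivity)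
  set η : ℕ → ℝ := fun g => (2⁻¹ : ℝ) ^ w g with hη
  have hη0 : ∀ g, 0 < η g := fun g => by positivity
  have hηp : ∀ g, η g ≤ 2⁻¹ ^ p := fun g => pow_le_pow_of_le_one (by norm_num) (by norm_num) (hwp g)
  have hη2 : ∀ g, η g ≤ 2⁻¹ := fun g =>
    (hηp g).trans (by simpa using pow_le_pow_of_le_one (by norm_num : (0 : ℝ) ≤ 2⁻¹) (by norm_num) hp1)
  set ζ : ℕ → ℝ := fun g => η g ^ 4 / D with hζ
  set X : ℕ → ℝ := fun g => η g / D with hX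
  have hζ0 : ∀ g, 0 < ζ g := fun g => div_pos (pow_pos (hη0 g) 4) hD0
  have hX0 : ∀ g, 0 < X g := fun g => div_pos (hη0 g) hD0
  have hX1 : ∀ g, X g ≤ 1 := fun g => by
    rw [hX]; dsimp only; rw [div_le_one hD0]; linarith [hη2 g]
  set σ : ℕ → ℝ := fun g => ε * X g / 4 with hσ
  have hσ0 : ∀ g, 0 < σ g := fun g => div_pos (mul_pos hε (hX0 g)) (by norm_num)
  have hσ1 : ∀ g, σ g ≤ 1 := fun g => by
    rw [hσ]; dsimp only; nlinarith [hX0 g, hX1 g]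
  set K : ℕ → ℕ := fun g => ⌈16 / σ g⌉₊ with hK
  have hK1 : ∀ g, 16 ≤ σ g * K g := fun g => by
    have := Nat.le_ceil (16 / σ g)
    rw [div_le_iff₀ (hσ0 g)] at this
    rw [hK]; dsimp only; linarith
  have hK2 : ∀ g, σ g * K g ≤ 17 := fun g => by
    have h1 := (Nat.ceil_lt_add_one (div_pos (by norm_num : (0 : ℝ) < 16) (hσ0 g)).le).le
    have h2 : σ g * (16 / σ g + 1) = 16 + σ g := by have := (hσ0 g).ne'; field_simp
    have h3 := mul_le_mul_of_nonneg_left h1 (hσ0 g).le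
    rw [hK]; dsimp only; linarith [hσ1 g]
  have hK0 : ∀ g, (0 : ℝ) < K g := fun g => by
    by_contra h
    have := mul_nonpos_of_nonneg_of_nonpos (hσ0 g).le (not_lt.1 h)
    linarith [hK1 g]
  set θ : ℕ → ℝ := fun g => σ g ^ 2 / 1000 with hθ
  set θ' : ℕ → ℝ := fun g => ζ g / (K g : ℝ) ^ 2 with hθ'
  have hθ'0 : ∀ g, 0 < θ' g := fun g => div_pos (hζ0 g) (pow_pos (hK0 g) 2)
  -- the choice of `a`
  obtain ⟨a, haB, ha1, haw, ha⟩ : ∃ a : ℕ, B ≤ a ∧ 1 ≤ a ∧ 4 * (p * 4 ^ d) ≤ a ∧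
      ∀ g, g ≤ d → 8 * B' / (ε * θ' g) ≤ (2 : ℝ) ^ a := by
    obtain ⟨a, ha⟩ := ((Filter.eventually_ge_atTop B).and ((Filter.eventually_ge_atTop 1).and
      ((Filter.eventually_ge_atTop (4 * (p * 4 ^ d))).and (params_ev_pow (fun g => 8 * B' / (ε * θ' g)) d)))).exists
    exact ⟨a, ha.1, ha.2.1, ha.2.2.1, ha.2.2.2⟩
  have hwa : ∀ g, 4 * w g ≤ a := fun g =>
    le_trans (Nat.mul_le_mul_left 4 (Nat.mul_le_mul_left p (Nat.pow_le_pow_right (by norm_num) (Nat.sub_le d g)))) haw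
  set y : ℕ → ℕ := fun g => 2 ^ (a - 4 * w g) with hy
  have hy1 : ∀ g, 1 ≤ y g := fun g => Nat.one_le_two_pow
  have hya : ∀ g, y g ≤ 2 ^ (a - 1) := fun g =>
    Nat.pow_le_pow_right (by norm_num) (by have := hwp g; omega)
  have hyη : ∀ g, (y g : ℝ) = η g ^ 4 * 2 ^ a := fun g => by
    have h1 : (2 : ℝ) ^ a = 2 ^ (a - 4 * w g) * 2 ^ (4 * w g) := by
      rw [← pow_add]; congr 1; have := hwa g; omega
    rw [h1, hy, hη]; dsimp only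
    rw [← pow_mul, mul_comm (w g) 4, inv_pow]; push_cast
    field_simp
  -- the choice of `Q`, `c`, `e`
  obtain ⟨q, hq⟩ := (params_ev_pow (fun g => 10 / ζ g) d).exists
  obtain ⟨c, hcq, hc2, hc⟩ : ∃ c : ℕ, q ≤ c ∧ 2 ≤ c ∧ ∀ g, g ≤ d → ((2 * (K g ^ 2 * 2 ^ q) : ℕ) : ℝ) ≤ (2 : ℝ) ^ c := by
    obtain ⟨c, hc⟩ := ((Filter.eventually_ge_atTop q).and ((Filter.eventually_ge_atTop 2).and
      (params_ev_pow (fun g => ((2 * (K g ^ 2 * 2 ^ q) : ℕ) : ℝ)) d))).exists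
    exact ⟨c, hc.1, hc.2.1, hc.2.2⟩
  obtain ⟨e, he1, he⟩ : ∃ e : ℕ, 1 ≤ e ∧ 2 / ε ≤ (2 : ℝ) ^ e := by
    obtain ⟨e, he⟩ := ((Filter.eventually_ge_atTop 1).and (params_ev_pow (fun _ => 2 / ε) 0)).exists
    exact ⟨e, he.1, he.2 0 le_rfl⟩
  -- the choice of `b`
  set N : ℕ := 2 * (2 ^ c) ^ (2 ^ a) with hN
  set W : ℕ := 2 ^ e * (2 ^ c) ^ (2 ^ a) with hW
  obtain ⟨b, hb0, hb1, hb2, hb3⟩ := ((params_ev_pow (fun _ => (d : ℝ) ^ 2 + d + 1) 0).and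
    ((params_ev_exp (800 * ((d : ℝ) + 1) * ((N : ℝ) + 1) ^ 2)).and
    ((params_ev_exp ((N : ℝ) * C / ε)).and
    (params_ev_exp ((W : ℝ) * C ^ (N + 1) * (d + 1) ^ d * (2 * d * (3 * C) * N + 1) ^ 2 * (2 * C₁) / ε))))).exists
  have h2a : 2 ^ a = 2 * 2 ^ (a - 1) := by
    rw [← pow_succ']; congr 1; omega
  refine ⟨a, b, c, e, 2 ^ q, haB, ha1, he1, y, K, θ, θ', ζ, X, ?_, ?_, ?_⟩
  · intro g hg i hi
    have hiy : i + y g < 2 ^ a := by have := hya g; omega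
    have hR1 : 1 ≤ 2 ^ c := Nat.one_le_two_pow
    have hyN : 2 * (2 ^ c) ^ y g ≤ N := Nat.mul_le_mul_left 2 (Nat.pow_le_pow_right hR1 (by omega))
    have hm0 : 2 ^ a * 2 ^ b ≤ τ * per (2 ^ a) (2 ^ b) (2 ^ c) i := by
      unfold per
      calc 2 ^ a * 2 ^ b ≤ 2 ^ a * 2 ^ b * (2 ^ c) ^ i := Nat.le_mul_of_pos_right _ (by positivity)
        _ ≤ τ * (2 ^ a * 2 ^ b * (2 ^ c) ^ i) := Nat.le_mul_of_pos_left _ (by omega)
    have hmb : 2 ^ b ≤ τ * per (2 ^ a) (2 ^ b) (2 ^ c) i :=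
      le_trans (Nat.le_mul_of_pos_left _ (by positivity)) hm0
    have hm1 : 1 ≤ τ * per (2 ^ a) (2 ^ b) (2 ^ c) i := le_trans Nat.one_le_two_pow hmb
    have hml : τ * per (2 ^ a) (2 ^ b) (2 ^ c) i ≤ 3 * C * (τ * per (2 ^ a) (2 ^ b) (2 ^ c) i) :=
      Nat.le_mul_of_pos_left _ (by omega)
    have hV : 2 ^ (e + a + b + c * 2 ^ a) = 2 ^ e * (2 ^ c) ^ (2 ^ a) * (2 ^ a * 2 ^ b) := by
      rw [← pow_mul, pow_add, pow_add, pow_add]; ring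
    refine
      { hτ := hτ
        hJ := Nat.one_le_two_pow
        hy := hy1 g
        hiy := hiy
        hQ := by positivity
        hQR := pow_dvd_pow 2 hcq
        hR := Nat.pow_le_pow_right (n := 2) (by norm_num) hc2
        hKR := by exact_mod_cast hc g hg
        hε := hε
        hε1 := hε1
        hX := hX0 g
        hX1 := hX1 g
        hζ := hζ0 g
        hζX := ?_
        hζQ := ?_
        hK := hK1 g
        hθ := div_pos (pow_pos (hσ0 g) 2) (by norm_num)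
        hθK := ?_
        hθ' := hθ'0 g
        hθ'K := ?_
        bits := ?_
        hl := ?_
        small := params_small hyN hm1 hml (hb1 _ hmb)
        types := params_types hε hC₁ hC hyN hm1 (by rw [hV]; exact Nat.mul_le_mul_left _ hm0) (hb3 _ hmb)
        safe := params_safe hε hyN hm1 hml (hb2 _ hmb)
        carry := ?_ }
    · rw [hζ, hX]; dsimp only
      rw [← mul_div_assoc]
      refine div_le_div_of_nonneg_right ?_ hD0.le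
      have h3 : η g ^ 3 ≤ 2⁻¹ ^ 3 := pow_le_pow_left₀ (hη0 g).le (hη2 g) 3
      nlinarith [hη0 g]
    · have := hq g hg
      rw [div_le_iff₀ (hζ0 g)] at this
      push_cast; linarith
    · change 48 * (σ g ^ 2 / 1000) * K g ≤ σ g
      nlinarith [hK2 g, hσ0 g]
    · rw [hθ']; dsimp only
      rw [div_mul_cancel₀ _ (pow_pos (hK0 g) 2).ne']
    · rw [hyη g, hζ]; dsimp only
      rw [← hD, div_mul_cancel₀ _ hD0.ne']; push_cast; exact le_rfl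
    · have h1 := hb0 0 le_rfl
      have h2 : ((2 ^ b : ℕ) : ℝ) ≤ (3 * C * (τ * per (2 ^ a) (2 ^ b) (2 ^ c) i) : ℕ) := by
        exact_mod_cast hmb.trans hml
      refine h1.trans (le_trans (le_of_eq ?_) h2)
      push_cast; rfl
    · rw [hV]
      have h1 : (2 ^ c) ^ y g * (2 ^ c) ^ i ≤ (2 ^ c) ^ (2 ^ a) := by
        rw [← pow_add]; exact Nat.pow_le_pow_right hR1 (by omega)
      have h1' : (((2 : ℝ) ^ c) ^ y g * (2 ^ c) ^ i) ≤ (2 ^ c) ^ (2 ^ a) := by exact_mod_cast h1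
      have h2 : 2 ≤ ε * 2 ^ e := by rw [div_le_iff₀ hε] at he; linarith
      unfold per
      push_cast
      calc 2 * ((2 : ℝ) ^ c) ^ y g * (2 ^ a * 2 ^ b * (2 ^ c) ^ i)
          = 2 * ((2 ^ c) ^ y g * (2 ^ c) ^ i) * (2 ^ a * 2 ^ b) := by ring
        _ ≤ (ε * 2 ^ e) * (2 ^ c) ^ (2 ^ a) * (2 ^ a * 2 ^ b) := by gcongr
        _ = _ := by ring
  · intro g g' hgg hg'
    rw [hX, hζ]; dsimp only
    refine div_le_div_of_nonneg_right ?_ hD0.le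
    rw [hη]; dsimp only
    rw [← pow_mul]
    refine pow_le_pow_of_le_one (by norm_num) (by norm_num) ?_
    rw [hw]; dsimp only
    rw [mul_assoc, ← pow_succ]
    exact Nat.mul_le_mul_left p (Nat.pow_le_pow_right (by norm_num) (by omega))
  · intro g hg
    constructor
    · have h1 : (1 : ℝ) ≤ y g := by exact_mod_cast hy1 g
      have h2 : 256000 * B' * D ^ 2 * η g ^ 2 ≤ ε ^ 3 := by
        rw [div_le_iff₀ (by positivity)] at hp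
        have h3 : η g ^ 2 ≤ η g := by nlinarith [hη0 g, hη2 g]
        have h4 : η g * 2 ^ p ≤ 1 := by
          have := mul_le_mul_of_nonneg_right (hηp g) (by positivity : (0 : ℝ) ≤ 2 ^ p)
          rwa [inv_pow, inv_mul_cancel₀ (by positivity)] at this
        calc 256000 * B' * D ^ 2 * η g ^ 2 ≤ (2 ^ p * ε ^ 3) * η g := by have := hη0 g; gcongr
          _ = (η g * 2 ^ p) * ε ^ 3 := by ring
          _ ≤ 1 * ε ^ 3 := by gcongr
          _ = ε ^ 3 := one_mul _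
      have h5 : 16 * B' * η g ^ 4 ≤ ε * θ g := by
        have : ε * θ g = ε ^ 3 * η g ^ 2 / (16000 * D ^ 2) := by
          rw [hθ, hσ, hX]; dsimp only; field_simp; ring
        rw [this, le_div_iff₀ (by positivity)]
        have h6 := mul_le_mul_of_nonneg_right h2 (sq_nonneg (η g))
        nlinarith
      calc 8 * B' * ((y g : ℝ) + 1) ≤ 8 * B' * (2 * y g) := by gcongr; linarith
        _ = 16 * B' * η g ^ 4 * 2 ^ a := by rw [hyη g]; ring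
        _ ≤ ε * θ g * 2 ^ a := by gcongr
    · have := ha g hg
      rw [div_le_iff₀ (mul_pos hε (hθ'0 g))] at this
      linarith

end Crest.Agent.R133
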