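import Crest.Agent.R133.Defs
import Crest.Agent.R130.Monge

/-! Row 133: an atomless standard Borel probability space is standard. -/

set_option autoImplicit false

namespace Crest.Agent.R133

open MeasureTheory Function Set Crest.AnalysisR

open ProbabilityTheory Filter Topology unitInterval in
theorem std_map_cdf (ν : Measure ℝ) [IsProbabilityMeasure ν] [NullSingletonClass ν] :
    ∃ U : ℝ → I, Measurable U ∧ Monotone U ∧ ν.map U = volume := by
  have hc := Crest.Agent.R130.continuous_cdf ν
  let U : ℝ → I := fun x => ⟨cdf ν x, cdf_nonneg ν x, cdf_le_one ν x⟩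
  have hU : Measurable U := hc.measurable.subtype_mk
  refine ⟨U, hU, fun x y hxy => monotone_cdf ν hxy, ?_⟩
  refine Measure.ext_of_Iic _ _ fun t => ?_
  rw [Measure.map_apply hU measurableSet_Iic, unitInterval.volume_Iic]
  have hS : U ⁻¹' Iic t = {x | cdf ν x ≤ (t : ℝ)} := by
    ext x; simp only [mem_preimage, mem_Iic, mem_ofPred_eq, U]; rfl
  rw [hS]
  rcases eq_or_lt_of_le t.2.2 with h1 | h1
  · have : {x | cdf ν x ≤ (t : ℝ)} = univ := by
      ext x; simp only [mem_ofPred_eq, mem_univ, iff_true]; rw [h1]; exact cdf_le_one ν x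
    rw [this, h1]; simp
  rcases Set.eq_empty_or_nonempty {x | cdf ν x ≤ (t : ℝ)} with hE | hne
  · rw [hE]
    have h0 : (t : ℝ) ≤ 0 := by
      refine ge_of_tendsto (tendsto_cdf_atBot ν) (Eventually.of_forall fun x => ?_)
      by_contra hx
      have : x ∈ {x | cdf ν x ≤ (t : ℝ)} := (not_le.1 hx).le
      rw [hE] at this
      exact this
    simp [ENNReal.ofReal_eq_zero.2 h0]
  · have hbdd : BddAbove {x | cdf ν x ≤ (t : ℝ)} := by
      obtain ⟨b, hb⟩ := eventually_atTop.1 ((tendsto_cdf_atTop ν).eventually (lt_mem_nhds h1))
      refine ⟨b, fun x hx => ?_⟩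
      by_contra hxb
      exact absurd (hb x (not_le.1 hxb).le) (not_lt.2 hx)
    have hcl : IsClosed {x | cdf ν x ≤ (t : ℝ)} := isClosed_le hc continuous_const
    have hmem := hcl.csSup_mem hne hbdd
    set x₀ := sSup {x | cdf ν x ≤ (t : ℝ)} with hx₀
    have hEq : {x | cdf ν x ≤ (t : ℝ)} = Iic x₀ := by
      ext x
      constructor
      · intro hx; exact le_csSup hbdd hx
      · intro hx; exact (monotone_cdf ν hx).trans hmem
    have hge : (t : ℝ) ≤ cdf ν x₀ := by
      have h2 : Tendsto (cdf ν) (𝓝[>] x₀) (𝓝 (cdf ν x₀)) :=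
        hc.continuousAt.tendsto.mono_left nhdsWithin_le_nhds
      refine ge_of_tendsto h2 (eventually_nhdsWithin_of_forall fun x hx => ?_)
      by_contra hlt
      have : x ∈ {x | cdf ν x ≤ (t : ℝ)} := (not_le.1 hlt).le
      rw [hEq] at this
      exact absurd (show x₀ < x from hx) (not_lt.2 this)
    rw [hEq, ← ofReal_cdf, le_antisymm hmem hge]

/-- Embed `X` measurably into `ℝ` (`MeasureTheory.embeddingReal` or `exists_measurableEmbedding_real`), let `ν` be the image measure and `F` its distribution function, which is continuous and pushes `ν` to the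
uniform law (`Crest.Agent.R130.Monge`: `continuous_cdf`, `map_cdf_uniform`; that file may be imported).  Only countably many values of `F` are attained more than once and their fibres are null; `X₀` is the
complement of these fibres, `Y₀` its image (measurable by Lusin-Souslin, `MeasurableSet.image_of_measurable_injOn`), `G` a measurable left inverse
(`MeasurableEmbedding.exists_measurable_extend` for the restriction to `X₀`). -/
theorem isStandardProbability {X : Type} [MeasurableSpace X] [StandardBorelSpace X] (μ : Measure X)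
    [IsProbabilityMeasure μ] (h : ∀ x, μ {x} = 0) : IsStandardProbability μ := by
  have he := measurableEmbedding_embeddingReal X
  let ν : Measure ℝ := μ.map (embeddingReal X)
  have : IsProbabilityMeasure ν := Measure.isProbabilityMeasure_map he.measurable.aemeasurable
  have : NullSingletonClass μ := ⟨h⟩
  have : NullSingletonClass ν := ⟨fun x => by
    simp only [ν]
    rw [Measure.map_apply he.measurable (measurableSet_singleton x)]
    have : (embeddingReal X ⁻¹' {x}).Subsingleton :=
      (subsingleton_singleton).preimage he.injective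
    exact this.measure_zero _⟩
  obtain ⟨U, hU, hUm, hUν⟩ := std_map_cdf ν
  let F : X → unitInterval := U ∘ embeddingReal X
  have hF : Measurable F := hU.comp he.measurable
  have hmap : μ.map F = volume := by
    rw [← Measure.map_map hU he.measurable]; exact hUν
  let D : Set unitInterval := {c | ∃ x y, x < y ∧ U x = c ∧ U y = c}
  have hD : D.Countable := hUm.countable_setOfPred_two_preimages
  have hDm : MeasurableSet D := hD.measurableSet
  let X₀ : Set X := F ⁻¹' Dᶜ
  have hX₀ : MeasurableSet X₀ := hF hDm.compl
  have hinj : InjOn F X₀ := by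
    intro x hx y hy hxy
    apply he.injective
    rcases lt_trichotomy (embeddingReal X x) (embeddingReal X y) with h1 | h1 | h1
    · exact absurd ⟨_, _, h1, rfl, hxy.symm⟩ hx
    · exact h1
    · exact absurd ⟨_, _, h1, rfl, hxy⟩ hy
  have hnull : μ X₀ᶜ = 0 := by
    have h1 : X₀ᶜ = F ⁻¹' D := by
      ext x; simp [X₀]
    rw [h1, ← Measure.map_apply hF hDm, hmap]
    exact hD.measure_zero _
  have hY₀ : MeasurableSet (F '' X₀) := hX₀.image_of_measurable_injOn hF hinj
  have : StandardBorelSpace X₀ := hX₀.standardBorel
  have hemb : MeasurableEmbedding (fun x : X₀ => F x) :=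
    (hF.comp measurable_subtype_coe).measurableEmbedding
      (fun x y hxy => Subtype.ext (hinj x.2 y.2 hxy))
  have hne : Nonempty X := μ.nonempty_of_neZero
  obtain ⟨G, hG, hGF⟩ := hemb.exists_measurable_extend (g := fun x : X₀ => (x : X))
    measurable_subtype_coe (fun _ => hne)
  refine ⟨X₀, F '' X₀, F, G, hX₀, hY₀, hnull, ?_, hF, hG, hinj.bijOn_image, ?_, hmap⟩
  · rw [← hmap, Measure.map_apply hF hY₀.compl]
    refine measure_mono_null (fun x hx hx' => hx ⟨x, hx', rfl⟩) hnull
  · intro x hx
    exact congrFun hGF ⟨x, hx⟩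

end Crest.Agent.R133
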