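import Crest.Agent.R133.SysA

/-! Row 133: the system, a skew product of the dyadic odometer with a Bernoulli scenery. -/

set_option autoImplicit false

namespace Crest.Agent.R133

open MeasureTheory Function Set
open scoped ENNReal



theorem Par.iterate_T (p : Par) {x : X} (h : RegY x.1) (t : ℕ) :
    p.T^[t] x = (x.1 + t, fun g => x.2 (g + p.jump x.1 (x.1 + t))) := by
  induction t with
  | zero =>
    have h0 : p.jump x.1 (x.1 + ((0 : ℕ) : ℤ_[2])) = 0 := by
      ext k
      rw [p.jump_apply h 0 k]
      simp
    rw [h0]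
    simp
  | succ t ih =>
    have h1 : p.jump x.1 (x.1 + ((t + 1 : ℕ) : ℤ_[2])) =
        p.jump (x.1 + t) (x.1 + t + 1) + p.jump x.1 (x.1 + t) := by
      ext k
      have e1 := p.jump_apply (h.add t) 1 k
      rw [Nat.cast_one] at e1
      rw [Finsupp.add_apply, p.jump_apply h (t + 1) k, e1, p.jump_apply h t k, Nat.cast_succ,
        ← add_assoc]
      ring
    rw [iterate_succ_apply', ih, h1]
    simp only [Par.T, Nat.cast_succ, add_assoc]

theorem sys_measurable_eval : Measurable fun q : (G → Bool) × G => q.1 q.2 :=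
  measurable_from_prod_countable_left fun g => measurable_pi_apply g

theorem Par.measurable_T (p : Par) : Measurable p.T := by
  have h1 : Measurable fun y => p.jump y (y + 1) := by simpa using p.measurable_jump 1
  refine (measurable_fst.add_const 1).prodMk (measurable_pi_lambda _ fun g => ?_)
  exact sys_measurable_eval.comp (measurable_snd.prodMk
    ((measurable_from_top (f := fun j : G => g + j)).comp (h1.comp measurable_fst)))

theorem Par.measurable_Tinv (p : Par) : Measurable p.Tinv := by
  have h1 : Measurable fun y => p.jump y (y + 1) := by simpa using p.measurable_jump 1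
  have h2 : Measurable fun y => p.jump (y - 1) y := by
    simpa [Function.comp_def] using h1.comp (measurable_id.sub_const (1 : ℤ_[2]))
  refine (measurable_fst.sub_const 1).prodMk (measurable_pi_lambda _ fun g => ?_)
  exact sys_measurable_eval.comp (measurable_snd.prodMk
    ((measurable_from_top (f := fun j : G => g - j)).comp (h2.comp measurable_fst)))

/-- the map as a measurable equivalence -/
noncomputable def Par.equiv (p : Par) : X ≃ᵐ X where
  toFun := p.T
  invFun := p.Tinv
  left_inv := by
    intro x
    simp [Par.T, Par.Tinv]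
  right_inv := by
    intro x
    simp [Par.T, Par.Tinv]
  measurable_toFun := p.measurable_T
  measurable_invFun := p.measurable_Tinv

theorem coins_shift (g₀ : G) : MeasurePreserving (fun (ω : G → Bool) (g : G) => ω (g + g₀)) coins coins := by
  refine ⟨measurable_pi_lambda _ fun g => measurable_pi_apply _, ?_⟩
  exact Measure.map_infinitePi_infinitePi_of_inj (P := fun _ : G => (2⁻¹ : ℝ≥0∞) • Measure.count)
    (f := fun g : G => g + g₀) (add_left_injective g₀)

/-- `MeasurePreserving.skew_product` -/
theorem Par.measurePreserving_T (p : Par) : MeasurePreserving p.T mu mu := by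
  have h1 : MeasurePreserving (fun y : ℤ_[2] => y + 1) haarY haarY := by
    simpa [add_comm] using measurePreserving_add_left haarY (1 : ℤ_[2])
  exact h1.skew_product (g := fun y (ω : G → Bool) (g : G) => ω (g + p.jump y (y + 1)))
    p.measurable_T.snd (Filter.Eventually.of_forall fun y => (coins_shift _).map_eq)

theorem coins_cyl {ι : Type} (I : Finset ι) {f : ι → G} (hf : InjOn f I) (β : ι → Bool) :
    coins {ω | ∀ i ∈ I, ω (f i) = β i} = 2⁻¹ ^ I.card := by
  classical
  have h1 := Measure.map_infinitePi_infinitePi_of_inj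
    (P := fun _ : G => (2⁻¹ : ℝ≥0∞) • (Measure.count : Measure Bool))
    (f := fun i : I => f i) (fun i j hij => Subtype.ext (hf i.2 j.2 hij))
  have h2 : {ω : G → Bool | ∀ i ∈ I, ω (f i) = β i} =
      (fun (ω : G → Bool) (i : I) => ω (f i)) ⁻¹'
        Set.pi (Finset.univ : Finset I) fun i => {β i} := by
    ext ω
    simp
  rw [h2, coins, ← Measure.map_apply (measurable_pi_lambda _ fun i => measurable_pi_apply _)
    (MeasurableSet.of_discrete), h1, Measure.infinitePi_pi _ fun _ _ => MeasurableSet.of_discrete]
  simp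

theorem FinDet.mono {e e' : ℕ} {A A' : Finset G} {U : Set X} (h : FinDet e A U) (he : e ≤ e') (hA : A ⊆ A') :
    FinDet e' A' U := by
  intro x x' h1 h2 hx
  refine h x x' ?_ (fun g hg => h2 g (hA hg)) hx
  rw [← pos_mod he x.1, ← pos_mod he x'.1, h1]

theorem FinDet.measurableSet {e : ℕ} {A : Finset G} {U : Set X} (h : FinDet e A U) : MeasurableSet U := by
  let π : X → ℕ × (A → Bool) := fun x => (pos e x.1, fun g => x.2 g)
  have hπ : Measurable π := ((measurable_pos e).comp measurable_fst).prodMk
    (measurable_pi_lambda _ fun g => (measurable_pi_apply _).comp measurable_snd)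
  have : U = π ⁻¹' (π '' U) := by
    refine Set.Subset.antisymm (subset_preimage_image _ _) ?_
    rintro x ⟨x', hx', hx⟩
    exact h x' x (congrArg Prod.fst hx) (fun g hg => congrFun (congrArg Prod.snd hx) ⟨g, hg⟩) hx'
  rw [this]
  exact hπ (Set.to_countable _).measurableSet

/-- The finitely determined sets form a ring of sets generating the σ-algebra (the closed balls of `ℤ_[2]` are fibres of `pos`);
`exists_measure_symmDiff_lt_of_generateFrom_isSetRing`. -/
theorem exists_finDet {B : Set X} (hB : MeasurableSet B) {η : ℝ≥0∞} (hη : 0 < η) :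
    ∃ e A U, FinDet e A U ∧ mu (symmDiff U B) < η := by
  classical
  let C : Set (Set X) := {U | ∃ e A, FinDet e A U}
  have hC : IsSetRing C := by
    refine ⟨⟨0, ∅, fun _ _ _ _ h => h⟩, ?_, ?_⟩
    · rintro s t ⟨e, A, hs⟩ ⟨e', A', ht⟩
      refine ⟨max e e', A ∪ A', fun x x' h1 h2 hx => hx.imp ?_ ?_⟩
      · exact hs.mono (le_max_left _ _) Finset.subset_union_left x x' h1 h2
      · exact ht.mono (le_max_right _ _) Finset.subset_union_right x x' h1 h2
    · rintro s t ⟨e, A, hs⟩ ⟨e', A', ht⟩
      refine ⟨max e e', A ∪ A', fun x x' h1 h2 hx => ⟨?_, fun hx' => hx.2 ?_⟩⟩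
      · exact hs.mono (le_max_left _ _) Finset.subset_union_left x x' h1 h2 hx.1
      · exact ht.mono (le_max_right _ _) Finset.subset_union_right x' x h1.symm
          (fun g hg => (h2 g hg).symm) hx'
  have hgen : (inferInstance : MeasurableSpace X) = MeasurableSpace.generateFrom C := by
    refine le_antisymm ?_ (MeasurableSpace.generateFrom_le fun t ⟨e, A, ht⟩ => ht.measurableSet)
    have h1 : Measurable[MeasurableSpace.generateFrom C] (Prod.fst : X → ℤ_[2]) := by
      refine @measurable_of_isOpen _ _ _ _ _ (MeasurableSpace.generateFrom C) _ fun O hO => ?_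
      have : (Prod.fst : X → ℤ_[2]) ⁻¹' O =
          ⋃ q : {q : ℕ × ℕ // {y | pos q.1 y = q.2} ⊆ O}, {x : X | pos q.1.1 x.1 = q.1.2} := by
        ext x
        simp only [mem_preimage, mem_iUnion, mem_ofPred_eq]
        constructor
        · intro hx
          obtain ⟨ε, hε, hb⟩ := Metric.isOpen_iff.1 hO _ hx
          obtain ⟨e, he⟩ := exists_pow_lt_of_lt_one hε (by norm_num : (2⁻¹ : ℝ) < 1)
          refine ⟨⟨(e, pos e x.1), fun y hy => hb ?_⟩, rfl⟩
          rw [Metric.mem_ball, dist_eq_norm]
          refine lt_of_le_of_lt ((pos_eq_iff e y x.1).1 hy) ?_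
          rwa [zpow_neg, zpow_natCast, ← inv_pow]
        · rintro ⟨q, hq⟩
          exact q.2 hq
      rw [this]
      refine MeasurableSet.iUnion fun q => MeasurableSpace.measurableSet_generateFrom
        ⟨q.1.1, ∅, fun x x' h1 _ hx => ?_⟩
      exact h1.symm.trans hx
    have h2 : Measurable[MeasurableSpace.generateFrom C] (Prod.snd : X → G → Bool) := by
      refine @measurable_pi_lambda _ _ _ (MeasurableSpace.generateFrom C) _ _ fun g s _ =>
        MeasurableSpace.measurableSet_generateFrom ⟨0, {g}, fun x x' _ h2 hx => ?_⟩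
      have := h2 g (Finset.mem_singleton_self g)
      simpa [← this] using hx
    intro s hs
    exact (h1.prodMk h2) hs
  obtain ⟨U, ⟨e, A, hU⟩, hUB⟩ := exists_measure_symmDiff_lt_of_generateFrom_isSetRing (μ := mu) hC
    ⟨{univ}, countable_singleton _, singleton_subset_iff.2 ⟨0, ∅, fun _ _ _ _ h => h⟩, by simp⟩
    hgen hB hη
  exact ⟨e, A, U, hU, hUB⟩

end Crest.Agent.R133
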