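import Crest.Agent.R133.Defs

/-! Row 133: the system, a skew product of the dyadic odometer with a Bernoulli scenery. -/

set_option autoImplicit false

namespace Crest.Agent.R133

open MeasureTheory Function Set
open scoped ENNReal

/-- the parameters of the levels -/
structure Par where
  a : ℕ → ℕ
  b : ℕ → ℕ
  c : ℕ → ℕ
  e : ℕ → ℕ
  ha : ∀ k, k + 1 ≤ a k
  he : ∀ k, 1 ≤ e k

/-- the binary length of the digit `k` -/
def Par.lv (p : Par) (k : ℕ) : ℕ := p.e k + p.a k + p.b k + p.c k * 2 ^ p.a k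

/-- the blocks of level `k` have length `2 ^ p.ex k` -/
def Par.ex (p : Par) : ℕ → ℕ
  | 0 => 0
  | k + 1 => p.ex k + p.lv k

noncomputable instance : MeasurableSpace ℤ_[2] := borel _
instance : BorelSpace ℤ_[2] := ⟨rfl⟩

/-- the Haar probability measure -/
noncomputable def haarY : Measure ℤ_[2] := Measure.addHaarMeasure ⊤

/-- the position in the block of length `2 ^ e` -/
noncomputable def pos (e : ℕ) (y : ℤ_[2]) : ℕ := (PadicInt.toZModPow e y).val

/-- the digit of level `k` -/
noncomputable def Par.dig (p : Par) (k : ℕ) (y : ℤ_[2]) : ℕ := pos (p.ex (k + 1)) y / 2 ^ p.ex k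

/-- the label of level `k` -/
noncomputable def Par.lb (p : Par) (k : ℕ) (y : ℤ_[2]) : ℤ := lab (2 ^ p.a k) (2 ^ p.b k) (2 ^ p.c k) (p.dig k y)

/-- the sites of the scenery -/
abbrev G : Type := ℕ →₀ ℤ

instance : MeasurableSpace G := ⊤
instance : DiscreteMeasurableSpace G := ⟨fun _ => trivial⟩

open Classical in
/-- the difference of the labels -/
noncomputable def Par.jump (p : Par) (y y' : ℤ_[2]) : G :=
  if h : (support fun k => p.lb k y' - p.lb k y).Finite then Finsupp.ofSupportFinite _ h else 0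

/-- the space -/
abbrev X : Type := ℤ_[2] × (G → Bool)

/-- the scenery measure -/
noncomputable def coins : Measure (G → Bool) := Measure.infinitePi fun _ => (2⁻¹ : ℝ≥0∞) • Measure.count

/-- the invariant measure -/
noncomputable def mu : Measure X := haarY.prod coins

/-- the map -/
noncomputable def Par.T (p : Par) (x : X) : X := (x.1 + 1, fun g => x.2 (g + p.jump x.1 (x.1 + 1)))

/-- the inverse map -/
noncomputable def Par.Tinv (p : Par) (x : X) : X := (x.1 - 1, fun g => x.2 (g - p.jump (x.1 - 1) x.1))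

/-- the points whose forward orbit only has finite carries -/
def RegY (y : ℤ_[2]) : Prop := ∀ t : ℕ, y + t ≠ -1

/-- sets determined by finitely many coordinates -/
def FinDet (e : ℕ) (A : Finset G) (U : Set X) : Prop :=
  ∀ x x' : X, pos e x.1 = pos e x'.1 → (∀ g ∈ A, x.2 g = x'.2 g) → x ∈ U → x' ∈ U

instance : IsProbabilityMeasure haarY := by
  refine ⟨?_⟩
  have := Measure.addHaarMeasure_self (K₀ := (⊤ : TopologicalSpace.PositiveCompacts ℤ_[2]))
  rwa [TopologicalSpace.PositiveCompacts.coe_top] at this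

instance : haarY.IsAddLeftInvariant := by
  unfold haarY; infer_instance

instance : IsProbabilityMeasure ((2⁻¹ : ℝ≥0∞) • (Measure.count : Measure Bool)) := by
  refine ⟨?_⟩
  rw [Measure.smul_apply, Measure.count_univ, smul_eq_mul]
  simp only [ENat.card_eq_coe_fintype_card, Fintype.card_bool, Nat.cast_ofNat, ENat.toENNReal_ofNat]
  exact ENNReal.inv_mul_cancel (by simp) (by simp)

instance : IsProbabilityMeasure coins := by
  unfold coins; infer_instance

instance : IsProbabilityMeasure mu := by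
  unfold mu; infer_instance

theorem pos_lt (e : ℕ) (y : ℤ_[2]) : pos e y < 2 ^ e := by
  exact ZMod.val_lt _

theorem pos_add (e : ℕ) (y : ℤ_[2]) (t : ℕ) : pos e (y + t) = (pos e y + t) % 2 ^ e := by
  rw [pos, map_add, map_natCast, ZMod.val_add, ZMod.val_natCast, Nat.add_mod_mod, pos]

/-- `PadicInt.cast_toZModPow` -/
theorem pos_mod {e e' : ℕ} (h : e ≤ e') (y : ℤ_[2]) : pos e' y % 2 ^ e = pos e y := by
  rw [pos, pos, ← PadicInt.cast_toZModPow e e' h y, ← ZMod.natCast_val, ZMod.val_natCast]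

/-- `PadicInt.ker_toZModPow`, `PadicInt.norm_le_pow_iff_mem_span_pow` -/
theorem pos_eq_iff (e : ℕ) (y y' : ℤ_[2]) : pos e y = pos e y' ↔ ‖y - y'‖ ≤ (2 : ℝ) ^ (-(e : ℤ)) := by
  have h := PadicInt.norm_le_pow_iff_mem_span_pow (y - y') e
  rw [← PadicInt.ker_toZModPow, RingHom.mem_ker, map_sub, sub_eq_zero, Nat.cast_ofNat] at h
  rw [h, pos, pos]
  exact (ZMod.val_injective _).eq_iff

theorem measurable_pos (e : ℕ) : Measurable (pos e) := by
  refine measurable_to_countable fun y => ?_
  have : pos e ⁻¹' {pos e y} = {z | ‖z - y‖ ≤ (2 : ℝ) ^ (-(e : ℤ))} :=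
    Set.ext fun z => pos_eq_iff e z y
  rw [this]
  exact (isClosed_le (by fun_prop) continuous_const).measurableSet

theorem sysa_pos_zero (e : ℕ) : pos e 0 = 0 := by
  rw [pos, map_zero, ZMod.val_zero]

theorem sysa_pos_nat {e a : ℕ} (ha : a < 2 ^ e) : pos e (a : ℤ_[2]) = a := by
  have := pos_add e 0 a
  rwa [zero_add, sysa_pos_zero, zero_add, Nat.mod_eq_of_lt ha] at this

/-- the `2 ^ e` fibres are translates of each other -/
theorem haarY_pos {e a : ℕ} (ha : a < 2 ^ e) : haarY {y | pos e y = a} = ((2 ^ e : ℕ) : ℝ≥0∞)⁻¹ := by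
  have h1 : ∀ b, b < 2 ^ e → haarY (pos e ⁻¹' {b}) = haarY (pos e ⁻¹' {0}) := fun b hb => by
    rw [← measure_preimage_add haarY (-(b : ℤ_[2])) (pos e ⁻¹' {0})]
    congr 1
    ext y
    have h2 := pos_eq_iff e y b
    have h3 := pos_eq_iff e (-(b : ℤ_[2]) + y) 0
    rw [sysa_pos_nat hb] at h2
    rw [sysa_pos_zero, sub_zero, neg_add_eq_sub] at h3
    simp only [mem_preimage, mem_singleton_iff, neg_add_eq_sub]
    rw [h2, h3]
  have h2 := sum_measure_preimage_singleton (μ := haarY) (Finset.range (2 ^ e)) (f := pos e)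
    fun b _ => measurable_pos e (measurableSet_singleton b)
  have h3 : pos e ⁻¹' (Finset.range (2 ^ e) : Set ℕ) = univ :=
    eq_univ_of_forall fun y => Finset.mem_coe.2 (Finset.mem_range.2 (pos_lt e y))
  rw [h3, measure_univ, Finset.sum_congr rfl fun b hb => h1 b (Finset.mem_range.1 hb),
    Finset.sum_const, Finset.card_range, nsmul_eq_mul, mul_comm] at h2
  exact (h1 a ha).trans (ENNReal.eq_inv_of_mul_eq_one_left h2)

theorem haarY_singleton (y : ℤ_[2]) : haarY {y} = 0 := by
  refine le_antisymm (ge_of_tendsto' (ENNReal.tendsto_pow_atTop_nhds_zero_of_lt_one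
    (r := 2⁻¹) (by simp)) fun e => ?_) zero_le
  have h := haarY_pos (pos_lt e y)
  rw [Nat.cast_pow, Nat.cast_ofNat, ENNReal.inv_pow] at h
  rw [← h]
  exact measure_mono (by simp)

theorem sysa_countable : ({y | RegY y}ᶜ : Set ℤ_[2]).Countable := by
  refine (countable_range fun t : ℕ => (-1 - t : ℤ_[2])).mono fun y hy => ?_
  simp only [RegY, mem_compl_iff, mem_ofPred_eq, not_forall, not_not] at hy
  obtain ⟨t, ht⟩ := hy
  exact ⟨t, by rw [← ht]; ring⟩

theorem measurableSet_regY : MeasurableSet {y | RegY y} := by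
  exact sysa_countable.measurableSet.of_compl

theorem haarY_regY : haarY {y | RegY y}ᶜ = 0 := by
  have : NullSingletonClass haarY := ⟨haarY_singleton⟩
  exact sysa_countable.measure_zero _

theorem RegY.add {y : ℤ_[2]} (h : RegY y) (t : ℕ) : RegY (y + t) := by
  intro s
  have := h (t + s)
  rwa [Nat.cast_add, ← add_assoc] at this

theorem Par.ex_strictMono (p : Par) : StrictMono p.ex := by
  refine strictMono_nat_of_lt_succ fun k => ?_
  have := p.he k
  simp only [Par.ex, Par.lv]
  omega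

theorem Par.dig_lt (p : Par) (k : ℕ) (y : ℤ_[2]) : p.dig k y < 2 ^ p.lv k := by
  refine Nat.div_lt_of_lt_mul ?_
  rw [← pow_add]
  exact pos_lt _ _

theorem Par.measurable_dig (p : Par) (k : ℕ) : Measurable (p.dig k) := by
  exact (Measurable.of_discrete (f := fun a : ℕ => a / 2 ^ p.ex k)).comp (measurable_pos _)

/-- the digits below the level `k` only depend on the position in the block of level `k` -/
theorem Par.dig_eq_of_pos {p : Par} {k l : ℕ} (h : l < k) {y y' : ℤ_[2]} (hy : pos (p.ex k) y = pos (p.ex k) y') :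
    p.dig l y = p.dig l y' := by
  have h1 : p.ex (l + 1) ≤ p.ex k := p.ex_strictMono.monotone h
  rw [Par.dig, Par.dig, ← pos_mod h1 y, ← pos_mod h1 y', hy]

/-- inside a block of level `k` the higher digits are constant -/
theorem Par.dig_add_of_lt {p : Par} {k l : ℕ} (h : k ≤ l) {y : ℤ_[2]} {t : ℕ} (ht : pos (p.ex k) y + t < 2 ^ p.ex k) :
    p.dig l (y + t) = p.dig l y := by
  have h1 : p.ex k ≤ p.ex l := p.ex_strictMono.monotone h
  have h2 : p.ex k ≤ p.ex (l + 1) := p.ex_strictMono.monotone (by omega)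
  rw [← pos_mod h2] at ht
  have h3 : (pos (p.ex (l + 1)) y + t) / 2 ^ p.ex k = pos (p.ex (l + 1)) y / 2 ^ p.ex k := by
    have ht' : t < 2 ^ p.ex k := by omega
    rw [Nat.add_div_eq_of_add_mod_lt (by rwa [Nat.mod_eq_of_lt ht']), Nat.div_eq_of_lt ht',
      add_zero]
  have h4 : pos (p.ex (l + 1)) y + t < 2 ^ p.ex (l + 1) := by
    have h5 := pos_lt (p.ex (l + 1)) y
    obtain ⟨d, hd⟩ := Nat.exists_eq_add_of_le h2
    have h6 : 2 ^ p.ex (l + 1) = 2 ^ d * 2 ^ p.ex k := by rw [hd, pow_add, mul_comm]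
    rw [h6, ← Nat.div_lt_iff_lt_mul (by positivity), h3, Nat.div_lt_iff_lt_mul (by positivity),
      ← h6]
    exact h5
  obtain ⟨d, hd⟩ := Nat.exists_eq_add_of_le h1
  rw [Par.dig, Par.dig, pos_add, Nat.mod_eq_of_lt h4, hd, pow_add, ← Nat.div_div_eq_div_mul,
    ← Nat.div_div_eq_div_mul, h3]

/-- a regular point has `pos e y + t < 2 ^ e` for all large `e` (induction on `t`; if `pos e y = 2 ^ e - 1` for all `e` then `y = -1`) -/
theorem RegY.exists_level (p : Par) {y : ℤ_[2]} (h : RegY y) (t : ℕ) : ∃ k, pos (p.ex k) y + t < 2 ^ p.ex k := by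
  have h1 : Filter.Tendsto (fun k => (2 : ℝ) ^ (-(p.ex k : ℤ))) Filter.atTop (nhds 0) := by
    simp only [zpow_neg, zpow_natCast, ← inv_pow]
    exact (tendsto_pow_atTop_nhds_zero_of_lt_one (by norm_num) (by norm_num)).comp
      p.ex_strictMono.tendsto_atTop
  have h2 : ∀ᶠ k in Filter.atTop, ∀ s ∈ Finset.range t,
      (2 : ℝ) ^ (-(p.ex k : ℤ)) < ‖y + (s + 1 : ℕ)‖ := by
    refine (Filter.eventually_all_finset _).2 fun s _ => h1.eventually (eventually_lt_nhds ?_)
    refine norm_pos_iff.2 fun h0 => h s ?_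
    rw [Nat.cast_add, Nat.cast_one, ← add_assoc] at h0
    exact eq_neg_of_add_eq_zero_left h0
  obtain ⟨k, hk⟩ := h2.exists
  refine ⟨k, lt_of_not_ge fun hge => ?_⟩
  have h3 := pos_lt (p.ex k) y
  obtain ⟨s, hs⟩ := Nat.exists_eq_add_of_lt h3
  have h4 := (pos_eq_iff (p.ex k) (y + (s + 1 : ℕ)) 0).1 (by
    rw [pos_add, sysa_pos_zero, ← add_assoc, ← hs, Nat.mod_self])
  rw [sub_zero] at h4
  exact absurd h4 (not_le.2 (hk s (Finset.mem_range.2 (by omega))))

theorem Par.jump_apply (p : Par) {y : ℤ_[2]} (h : RegY y) (t k : ℕ) : p.jump y (y + t) k = p.lb k (y + t) - p.lb k y := by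
  obtain ⟨l, hl⟩ := h.exists_level p t
  have hf : (support fun k => p.lb k (y + t) - p.lb k y).Finite := by
    refine (finite_lt_nat l).subset fun j hj => show j < l from lt_of_not_ge fun hge => hj ?_
    simp only [Par.lb, Par.dig_add_of_lt hge hl, sub_self]
  rw [Par.jump, dif_pos hf, Finsupp.ofSupportFinite_coe]

theorem Par.measurable_jump (p : Par) (t : ℕ) : Measurable fun y => p.jump y (y + t) := by
  refine measurable_to_countable' fun g => ?_
  have hl : ∀ k, Measurable (p.lb k) := fun k =>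
    (Measurable.of_discrete (f := fun v : ℕ =>
      (lab (2 ^ p.a k) (2 ^ p.b k) (2 ^ p.c k) v : ℤ))).comp (p.measurable_dig k)
  have h1 : MeasurableSet (⋂ k, {y | p.lb k (y + t) - p.lb k y = g k}) :=
    MeasurableSet.iInter fun k => measurableSet_eq_fun
      (((hl k).comp (measurable_add_const _)).sub (hl k)) measurable_const
  have h2 : (fun y => p.jump y (y + t)) ⁻¹' {g} =
      ({y | RegY y} ∩ ⋂ k, {y | p.lb k (y + t) - p.lb k y = g k}) ∪
        ({y | RegY y}ᶜ ∩ (fun y => p.jump y (y + t)) ⁻¹' {g}) := by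
    ext y
    by_cases hy : RegY y
    · simp [hy, Finsupp.ext_iff, p.jump_apply hy]
    · simp [hy]
  rw [h2]
  exact (measurableSet_regY.inter h1).union
    (sysa_countable.mono inter_subset_left).measurableSet

end Crest.Agent.R133
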