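import Crest.Agent.R133.Sys
import Crest.Agent.R133.Ent

/-! Row 133: the system has zero entropy. -/

set_option autoImplicit false

namespace Crest.Agent.R133

open MeasureTheory Function Set Crest.AnalysisR
open scoped ENNReal

/-- approximate every atom by a finitely determined set -/
theorem exists_finDet_label {m : ℕ} {P : X → Fin m} (hP : Measurable P) {η : ℝ} (hη : 0 < η) :
    ∃ (e : ℕ) (A : Finset G) (P' : X → Fin m), (∀ a, FinDet e A {x | P' x = a}) ∧ mu.real {x | P x ≠ P' x} ≤ η := by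
  classical
  have hη' : 0 < η / (m + 1) := by positivity
  choose e A U hU hd using fun a : Fin m =>
    exists_finDet (B := P ⁻¹' {a}) (hP (measurableSet_singleton a)) (ENNReal.ofReal_pos.2 hη')
  let f : (Fin m → Prop) → Fin m := fun q => if h : ∃ a, q a then h.choose else P (0, fun _ => true)
  have hU' : ∀ a, FinDet (Finset.univ.sup e) (Finset.univ.biUnion A) (U a) := fun a =>
    (hU a).mono (Finset.le_sup (Finset.mem_univ a)) (Finset.subset_biUnion_of_mem A (Finset.mem_univ a))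
  refine ⟨Finset.univ.sup e, Finset.univ.biUnion A, fun x => f fun a => x ∈ U a, ?_, ?_⟩
  · intro a x x' h1 h2 hx
    have : (fun a => x' ∈ U a) = fun a => x ∈ U a := funext fun b => propext
      ⟨hU' b x' x h1.symm fun g hg => (h2 g hg).symm, hU' b x x' h1 h2⟩
    change f (fun a => x' ∈ U a) = a
    rw [this]
    exact hx
  · have hsub : {x | P x ≠ f fun a => x ∈ U a} ⊆ ⋃ a, symmDiff (U a) (P ⁻¹' {a}) := by
      intro x hx
      by_contra hc
      simp only [mem_iUnion, not_exists, Set.mem_symmDiff, mem_preimage, mem_singleton_iff] at hc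
      have h1 : ∃ a, x ∈ U a := ⟨P x, by have := hc (P x); tauto⟩
      refine hx ?_
      simp only [f, dif_pos h1]
      have h2 := h1.choose_spec
      have := hc h1.choose
      tauto
    refine (measureReal_mono hsub).trans ((measureReal_iUnion_fintype_le _).trans ?_)
    refine (Finset.sum_le_card_nsmul _ _ (η / (m + 1)) fun a _ =>
      ENNReal.toReal_le_of_le_ofReal hη'.le (hd a).le).trans ?_
    rw [Finset.card_univ, Fintype.card_fin, nsmul_eq_mul, ← mul_div_assoc, div_le_iff₀ (by positivity)]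
    nlinarith

theorem sysent_lab_lt (p : Par) (k v : ℕ) :
    lab (2 ^ p.a k) (2 ^ p.b k) (2 ^ p.c k) v < 2 ^ (p.lv k - 1) := by
  unfold lab per
  refine (Nat.mod_lt _ (by positivity)).trans_le ?_
  rw [← pow_mul, ← pow_add, ← pow_add]
  refine Nat.pow_le_pow_right (by norm_num) ?_
  have h1 : p.c k * (v % 2 ^ p.a k) ≤ p.c k * 2 ^ p.a k :=
    Nat.mul_le_mul_left _ (Nat.mod_lt _ (by positivity)).le
  have := p.he k
  unfold Par.lv
  omega

/-- the labels below the level `k` take at most `2 ^ ex k / 2 ^ k` values: `lab < per ≤ n J R ^ n = 2 ^ (lv - e)` -/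
theorem Par.exists_sites (p : Par) (k : ℕ) : ∃ Sg : Finset G, Sg.card * 2 ^ k ≤ 2 ^ p.ex k ∧
    ∃ σ : ℕ → G, (∀ q, σ q ∈ Sg) ∧ ∀ y : ℤ_[2], (∀ l, l < k → σ (pos (p.ex k) y) l = p.lb l y) ∧
      ∀ l, k ≤ l → σ (pos (p.ex k) y) l = 0 := by
  classical
  induction k with
  | zero => exact ⟨{0}, by simp [Par.ex], fun _ => 0, by simp, fun y => ⟨by simp, by simp⟩⟩
  | succ k ih =>
    obtain ⟨Sg, hc, σ, hσ, hy⟩ := ih
    refine ⟨(Sg ×ˢ Finset.range (2 ^ (p.lv k - 1))).image fun q => q.1 + Finsupp.single k (q.2 : ℤ), ?_,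
      fun q => σ (q % 2 ^ p.ex k) +
        Finsupp.single k (lab (2 ^ p.a k) (2 ^ p.b k) (2 ^ p.c k) (q / 2 ^ p.ex k) : ℤ),
      fun q => Finset.mem_image.2 ⟨(_, _), Finset.mem_product.2
        ⟨hσ _, Finset.mem_range.2 (sysent_lab_lt p k _)⟩, rfl⟩, fun y => ?_⟩
    · refine (Nat.mul_le_mul_right _ Finset.card_image_le).trans ?_
      have h1 : p.lv k = p.lv k - 1 + 1 := by
        have := p.he k
        unfold Par.lv
        omega
      rw [Finset.card_product, Finset.card_range, Par.ex, pow_add 2 (p.ex k), h1, pow_succ, pow_succ,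
        Nat.add_sub_cancel]
      calc Sg.card * 2 ^ (p.lv k - 1) * (2 ^ k * 2) = Sg.card * 2 ^ k * (2 ^ (p.lv k - 1) * 2) := by ring
        _ ≤ _ := Nat.mul_le_mul_right _ hc
    · simp only [pos_mod (p.ex_strictMono.monotone (Nat.le_succ k)), Finsupp.add_apply]
      refine ⟨fun l hl => ?_, fun l hl => ?_⟩
      · rcases Nat.lt_succ_iff_lt_or_eq.1 hl with h | h
        · rw [(hy y).1 l h, Finsupp.single_eq_of_ne h.ne, add_zero]
        · subst h
          rw [(hy y).2 l le_rfl, Finsupp.single_eq_same, zero_add]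
          rfl
      · rw [(hy y).2 l (by omega), Finsupp.single_eq_of_ne (by omega), add_zero]

/-- a function determined by finite data takes few values -/
theorem sysent_factor {α D β : Type} [Nonempty α] [Fintype D] [Fintype β] (S : α → Prop) (f : α → D) (g : α → β)
    (h : ∀ x x', S x → S x' → f x = f x' → g x = g x') :
    ∃ N : Finset β, N.card ≤ Fintype.card D ∧ ∀ x, S x → g x ∈ N := by
  classical
  refine ⟨Finset.univ.filter fun b => ∃ x, S x ∧ g x = b, ?_,
    fun x hx => Finset.mem_filter.2 ⟨Finset.mem_univ _, x, hx, rfl⟩⟩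
  rw [← Finset.card_univ]
  refine Finset.card_le_card_of_injOn
    (fun b => if hb : ∃ x, S x ∧ g x = b then f hb.choose else f (Classical.arbitrary α))
    (fun _ _ => Finset.mem_univ _) fun b hb b' hb' hbb => ?_
  have h1 := (Finset.mem_filter.1 hb).2
  have h2 := (Finset.mem_filter.1 hb').2
  simp only [dif_pos h1, dif_pos h2] at hbb
  rw [← h1.choose_spec.2, ← h2.choose_spec.2]
  exact h _ _ h1.choose_spec.1 h2.choose_spec.1 hbb

/-- the part of the jump above the level `k` is constant in the blocks of level `k` -/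
theorem sysent_block (p : Par) {k : ℕ} {σ : ℕ → G}
    (hσ : ∀ y : ℤ_[2], (∀ l, l < k → σ (pos (p.ex k) y) l = p.lb l y) ∧ ∀ l, k ≤ l → σ (pos (p.ex k) y) l = 0)
    {y : ℤ_[2]} (hy : RegY y) {t t' : ℕ} (htt : t ≤ t')
    (h : (pos (p.ex k) y + t) / 2 ^ p.ex k = (pos (p.ex k) y + t') / 2 ^ p.ex k) :
    p.jump y (y + t) - σ (pos (p.ex k) (y + t)) = p.jump y (y + t') - σ (pos (p.ex k) (y + t')) := by
  ext l
  rw [Finsupp.sub_apply, Finsupp.sub_apply, p.jump_apply hy, p.jump_apply hy]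
  rcases lt_or_ge l k with hl | hl
  · rw [(hσ _).1 l hl, (hσ _).1 l hl]
    ring
  · rw [(hσ _).2 l hl, (hσ _).2 l hl]
    obtain ⟨d, rfl⟩ := Nat.exists_eq_add_of_le htt
    have h1 : pos (p.ex k) (y + t) + d < 2 ^ p.ex k := by
      rw [pos_add]
      have h2 := Nat.div_add_mod (pos (p.ex k) y + t) (2 ^ p.ex k)
      have h3 := Nat.div_add_mod (pos (p.ex k) y + (t + d)) (2 ^ p.ex k)
      have h4 := Nat.mod_lt (pos (p.ex k) y + (t + d)) (show 0 < 2 ^ p.ex k by positivity)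
      rw [← h] at h3
      omega
    unfold Par.lb
    rw [Nat.cast_add, ← add_assoc, Par.dig_add_of_lt hl h1]

theorem sysent_jump (p : Par) {k : ℕ} {σ : ℕ → G}
    (hσ : ∀ y : ℤ_[2], (∀ l, l < k → σ (pos (p.ex k) y) l = p.lb l y) ∧ ∀ l, k ≤ l → σ (pos (p.ex k) y) l = 0) :
    ∃ w : ℤ_[2] → ℕ → G, ∀ y, RegY y → ∀ t : ℕ, p.jump y (y + t) =
      w y ((pos (p.ex k) y + t) / 2 ^ p.ex k) + σ ((pos (p.ex k) y + t) % 2 ^ p.ex k) := by
  classical
  refine ⟨fun y j => if h : ∃ t : ℕ, (pos (p.ex k) y + t) / 2 ^ p.ex k = j then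
    p.jump y (y + h.choose) - σ (pos (p.ex k) (y + h.choose)) else 0, fun y hy t => ?_⟩
  have h1 : ∃ t' : ℕ, (pos (p.ex k) y + t') / 2 ^ p.ex k = (pos (p.ex k) y + t) / 2 ^ p.ex k := ⟨t, rfl⟩
  simp only [dif_pos h1]
  rw [← pos_add, ← sub_eq_iff_eq_add]
  rcases le_total t h1.choose with h | h
  · exact sysent_block p hσ hy h h1.choose_spec.symm
  · exact (sysent_block p hσ hy h h1.choose_spec).symm

/-- Let `H = 2 ^ ex k ≥ 2 ^ e`.  For a regular `y` and `q = pos (ex k) y`, the time `t` is in the block number `(q + t) / H ≤ n / H + 1`, and `jump y (y + t) = w ((q + t) / H) + σ ((q + t) % H)` for a sequence `w` of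
sites depending on `y`.  So the name is a function of `q` and of the maps `(s, g) ↦ ω (g + w j + s)` on `Sg × A` for `j ≤ n / H + 1`: at most `H * 2 ^ (#Sg * #A * (n / H + 2))` names. -/
theorem Par.count_names (p : Par) {m e : ℕ} {A : Finset G} {P : X → Fin m} (hP : ∀ a, FinDet e A {x | P x = a})
    {η : ℝ} (hη : 0 < η) : ∃ C₀ : ℝ, ∀ n : ℕ, ∃ N : Finset (Fin n → Fin m),
      (N.card : ℝ) ≤ C₀ * Real.exp (η * n) ∧ ∀ x : X, RegY x.1 → (fun j : Fin n => P (p.T^[(j : ℕ)] x)) ∈ N := by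
  classical
  obtain ⟨k0, hk0⟩ := pow_unbounded_of_one_lt ((A.card : ℝ) / η) (one_lt_two (α := ℝ))
  set k := k0 + e with hk
  have hek : e ≤ p.ex k := le_trans (Nat.le_add_left e k0) (p.ex_strictMono.id_le k)
  have hA : (A.card : ℝ) ≤ η * 2 ^ k := by
    rw [div_lt_iff₀ hη] at hk0
    have : (2 : ℝ) ^ k0 ≤ 2 ^ k := pow_le_pow_right₀ one_le_two (by omega)
    nlinarith
  obtain ⟨Sg, hc, σ, hσ, hy⟩ := p.exists_sites k
  obtain ⟨w, hw⟩ := sysent_jump p hy
  set H := 2 ^ p.ex k with hH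
  have hH0 : 0 < H := by positivity
  refine ⟨H * 2 ^ (A.card * Sg.card * 2), fun n => ?_⟩
  obtain ⟨N, hN, hN'⟩ := sysent_factor (D := Fin H × (Fin (n / H + 2) → Sg → A → Bool))
    (fun x : X => RegY x.1)
    (fun x => (⟨pos (p.ex k) x.1, pos_lt _ _⟩, fun j s g => x.2 (g.1 + (w x.1 j + s.1))))
    (fun x (j : Fin n) => P (p.T^[(j : ℕ)] x)) (by
      intro x x' hx hx' hd
      have h1 : pos (p.ex k) x.1 = pos (p.ex k) x'.1 := congrArg (fun d => (d.1 : ℕ)) hd
      funext t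
      refine (hP (P (p.T^[(t : ℕ)] x)) _ _ ?_ ?_ rfl).symm
      · rw [p.iterate_T hx, p.iterate_T hx', ← pos_mod hek, ← pos_mod hek, pos_add, pos_add, h1]
      · intro g hg
        have h2 : (pos (p.ex k) x'.1 + t) / H < n / H + 2 := by
          rw [Nat.div_lt_iff_lt_mul hH0]
          have h3 := Nat.div_add_mod n H
          have h4 := Nat.mod_lt n hH0
          have h5 : pos (p.ex k) x'.1 < H := pos_lt _ _
          have h6 := t.2
          nlinarith
        rw [p.iterate_T hx, p.iterate_T hx']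
        simp only [hw _ hx, hw _ hx', h1]
        exact congrFun (congrFun (congrFun (congrArg Prod.snd hd) ⟨_, h2⟩) ⟨_, hσ _⟩) ⟨g, hg⟩)
  refine ⟨N, le_trans (Nat.cast_le.2 hN) ?_, hN'⟩
  simp only [Fintype.card_prod, Fintype.card_fin, Fintype.card_pi, Fintype.card_bool, Finset.prod_const,
    Finset.card_univ, Fintype.card_coe]
  rw [← pow_mul, ← pow_mul, ← mul_assoc, mul_add, pow_add, mul_comm (2 ^ _) (2 ^ (A.card * Sg.card * 2)),
    ← mul_assoc]
  push_cast
  refine mul_le_mul_of_nonneg_left ?_ (by positivity)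
  have h1 : (2 : ℝ) ≤ Real.exp 1 := by linarith [Real.add_one_le_exp (1 : ℝ)]
  refine (pow_le_pow_left₀ zero_le_two h1 _).trans ?_
  rw [← Real.exp_nat_mul, mul_one, Real.exp_le_exp]
  have h2 : Sg.card * (n / H) * 2 ^ k ≤ n := by
    calc Sg.card * (n / H) * 2 ^ k = Sg.card * 2 ^ k * (n / H) := by ring
      _ ≤ H * (n / H) := Nat.mul_le_mul_right _ hc
      _ ≤ n := Nat.mul_div_le n H
  have h3 : ((Sg.card * (n / H) : ℕ) : ℝ) * 2 ^ k ≤ n := by exact_mod_cast h2
  rw [mul_assoc, Nat.cast_mul]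
  calc (A.card : ℝ) * ((Sg.card * (n / H) : ℕ) : ℝ) ≤ η * 2 ^ k * ((Sg.card * (n / H) : ℕ) : ℝ) :=
        mul_le_mul_of_nonneg_right hA (Nat.cast_nonneg _)
    _ = η * (((Sg.card * (n / H) : ℕ) : ℝ) * 2 ^ k) := by ring
    _ ≤ η * n := mul_le_mul_of_nonneg_left h3 hη.le

theorem Par.hasZeroEntropy (p : Par) : HasZeroEntropy mu p.T := by
  refine hasZeroEntropy_of_count p.measurePreserving_T fun m P hP η hη => ?_
  obtain ⟨e, A, P', h1, h2⟩ := exists_finDet_label hP hη
  obtain ⟨C₀, h3⟩ := p.count_names h1 hη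
  refine ⟨P', measurable_to_countable' fun a => (h1 a).measurableSet, h2, C₀, fun n => ?_⟩
  obtain ⟨N, h4, h5⟩ := h3 n
  have h6 : ∀ᵐ y ∂haarY, RegY y := haarY_regY
  have h7 : ∀ᵐ x ∂mu, RegY x.1 := Measure.quasiMeasurePreserving_fst.ae h6
  exact ⟨N, h4, h7.mono h5⟩

end Crest.Agent.R133
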