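import Crest.Agent.R133.Sys

/-! Row 133: the system is ergodic. -/

set_option autoImplicit false

namespace Crest.Agent.R133

open MeasureTheory Function Set
open scoped ENNReal

theorem syserg_lab_mod (n J R v : ℕ) : lab n J R v % n = v % n := by
  unfold lab per
  exact Nat.mod_mod_of_dvd _ ⟨J * R ^ (v % n), by ring⟩

/-- If `jump y (y + t) = g` and `g k = 0` then the digits of level `k` of `y + t` and `y` are congruent modulo `2 ^ a k`.  The map `t ↦ pos (ex (k + 1)) (y + t)` is a bijection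
of `[0, 2 ^ ex (k + 1))`. -/
theorem Par.card_jump_le (p : Par) {y : ℤ_[2]} (h : RegY y) {k : ℕ} {g : G} (hg : g k = 0) :
    ((Finset.range (2 ^ p.ex (k + 1))).filter fun t : ℕ => p.jump y (y + t) = g).card * 2 ^ p.a k ≤ 2 ^ p.ex (k + 1) := by
  classical
  set M := 2 ^ p.ex k with hM
  set n := 2 ^ p.a k with hn
  set Q := 2 ^ (p.e k + p.b k + p.c k * 2 ^ p.a k) with hQ
  have hN : 2 ^ p.ex (k + 1) = M * Q * n := by
    rw [hM, hQ, hn, ← pow_add, ← pow_add]
    congr 1
    simp only [Par.ex, Par.lv]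
    ring
  have hM0 : 0 < M := by positivity
  have hn0 : 0 < n := by positivity
  set s : ℕ → ℕ := fun t => pos (p.ex (k + 1)) (y + t) with hs
  have hr : ∀ t : ℕ, p.jump y (y + t) = g → s t / M % n = p.dig k y % n := by
    intro t ht
    have h1 := p.jump_apply h t k
    rw [ht, hg] at h1
    have h2 : p.lb k (y + t) = p.lb k y := by omega
    unfold Par.lb at h2
    have h3 := congrArg (· % n) (Int.natCast_inj.1 h2)
    simp only [hn, syserg_lab_mod] at h3
    exact h3
  have hcard : ((Finset.range (2 ^ p.ex (k + 1))).filter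
      fun t : ℕ => p.jump y (y + t) = g).card ≤ (Finset.range M ×ˢ Finset.range Q).card := by
    refine Finset.card_le_card_of_injOn (fun t => (s t % M, s t / M / n)) ?_ ?_
    · intro t _
      have h1 : s t < M * Q * n := hN ▸ pos_lt _ _
      simp only [Finset.coe_product, Finset.coe_range, mem_prod, mem_Iio]
      refine ⟨Nat.mod_lt _ hM0, ?_⟩
      rw [Nat.div_lt_iff_lt_mul hn0, Nat.div_lt_iff_lt_mul hM0]
      linarith
    · intro t ht t' ht' he
      obtain ⟨ht1, ht2⟩ := Finset.mem_filter.1 ht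
      obtain ⟨ht1', ht2'⟩ := Finset.mem_filter.1 ht'
      obtain ⟨e1, e2⟩ := Prod.mk.inj he
      have e3 : s t / M = s t' / M := by
        rw [← Nat.div_add_mod (s t / M) n, ← Nat.div_add_mod (s t' / M) n, e2, hr t ht2,
          hr t' ht2']
      have e4 : s t = s t' := by
        rw [← Nat.div_add_mod (s t) M, ← Nat.div_add_mod (s t') M, e3, e1]
      simp only [hs, pos_add] at e4
      exact (Nat.ModEq.add_left_cancel' _ e4).eq_of_lt_of_lt (Finset.mem_range.1 ht1)
        (Finset.mem_range.1 ht1')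
  rw [Finset.card_product, Finset.card_range, Finset.card_range] at hcard
  rw [hN] at hcard ⊢
  exact Nat.mul_le_mul_right _ hcard

theorem syserg_indep {A B : Finset G} (hAB : Disjoint A B) {S S' : Set (G → Bool)}
    (hS : ∀ ω ω' : G → Bool, (∀ g ∈ A, ω g = ω' g) → ω ∈ S → ω' ∈ S)
    (hS' : ∀ ω ω' : G → Bool, (∀ g ∈ B, ω g = ω' g) → ω ∈ S' → ω' ∈ S') :
    coins (S ∩ S') = coins S * coins S' := by
  have key : ∀ (A : Finset G) (S : Set (G → Bool)),
      (∀ ω ω' : G → Bool, (∀ g ∈ A, ω g = ω' g) → ω ∈ S → ω' ∈ S) →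
      (fun (ω : G → Bool) (i : A) => ω i) ⁻¹' ((fun (ω : G → Bool) (i : A) => ω i) '' S) = S := by
    intro A S hS
    refine Subset.antisymm ?_ (subset_preimage_image _ _)
    rintro ω ⟨ω', h1, h2⟩
    exact hS ω' ω (fun g hg => congrFun h2 ⟨g, hg⟩) h1
  have hi : ProbabilityTheory.iIndepFun (fun (i : G) (ω : G → Bool) => ω i) coins :=
    ProbabilityTheory.iIndepFun_infinitePi (X := fun _ b => b) fun _ => measurable_id
  have h := (hi.indepFun_finset A B hAB fun i => measurable_pi_apply i).measure_inter_preimage_eq_mul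
    ((fun (ω : G → Bool) (i : A) => ω i) '' S) ((fun (ω : G → Bool) (i : B) => ω i) '' S')
    (Set.toFinite _).measurableSet (Set.toFinite _).measurableSet
  rwa [key A S hS, key B S' hS'] at h

theorem syserg_real {S : Set X} (hS : MeasurableSet S) :
    mu.real S = ∫ y, coins.real (Prod.mk y ⁻¹' S) ∂haarY := by
  unfold mu
  simp only [measureReal_def]
  rw [Measure.prod_apply hS, integral_toReal (measurable_measure_prodMk_left hS).aemeasurable
    (ae_of_all _ fun y => measure_lt_top _ _)]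

theorem syserg_int {S : Set X} (hS : MeasurableSet S) :
    Integrable (fun y => coins.real (Prod.mk y ⁻¹' S)) haarY :=
  Measure.integrable_measure_prodMk_left hS (measure_ne_top _ _)

theorem syserg_rot (h : ℕ → ℝ) (N q : ℕ) :
    ∑ t ∈ Finset.range N, h ((q + t) % N) = ∑ t ∈ Finset.range N, h (t % N) := by
  induction q with
  | zero => simp
  | succ q ih =>
    have h1 := Finset.sum_range_succ (fun t => h ((q + t) % N)) N
    have h2 := Finset.sum_range_succ' (fun t => h ((q + t) % N)) N
    simp only [Nat.add_mod_right, add_zero] at h1 h2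
    have h3 : ∀ t, q + 1 + t = q + (t + 1) := fun t => by ring
    simp only [h3]
    linarith

/-- the average of the sections over a block -/
theorem syserg_avg {e : ℕ} {A : Finset G} {U : Set X} (hU : FinDet e A U) (y : ℤ_[2]) :
    ∑ t ∈ Finset.range (2 ^ e), coins.real (Prod.mk (y + (t : ℕ)) ⁻¹' U) = 2 ^ e * mu.real U := by
  set f : ℤ_[2] → ℝ := fun y => coins.real (Prod.mk y ⁻¹' U) with hf
  have hpos : ∀ y y', pos e y = pos e y' → f y = f y' := by
    intro y y' h
    have : Prod.mk y ⁻¹' U = Prod.mk y' ⁻¹' U :=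
      Subset.antisymm (fun ω hω => hU (y, ω) (y', ω) h (fun _ _ => rfl) hω)
        fun ω hω => hU (y', ω) (y, ω) h.symm (fun _ _ => rfl) hω
    simp only [hf, this]
  have h0 : pos e 0 = 0 := by simp [pos]
  have h1 : ∀ y : ℤ_[2], ∑ t ∈ Finset.range (2 ^ e), f (y + (t : ℕ)) =
      ∑ t ∈ Finset.range (2 ^ e), f ((t % 2 ^ e : ℕ) : ℤ_[2]) := by
    intro y
    rw [← syserg_rot (fun s => f (s : ℤ_[2])) (2 ^ e) (pos e y)]
    refine Finset.sum_congr rfl fun t _ => hpos _ _ ?_
    have := pos_add e 0 ((pos e y + t) % 2 ^ e)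
    rw [zero_add, h0, zero_add, Nat.mod_mod] at this
    rw [this, pos_add]
  have hi := syserg_int hU.measurableSet
  have h2 : ∫ y, ∑ t ∈ Finset.range (2 ^ e), f (y + (t : ℕ)) ∂haarY = 2 ^ e * mu.real U := by
    rw [integral_finsetSum _ fun t _ => hi.comp_add_right _,
      Finset.sum_congr rfl fun t _ => integral_add_right_eq_self f ((t : ℕ) : ℤ_[2]),
      syserg_real hU.measurableSet]
    simp [hf]
  rw [← h2]
  refine (h1 y).trans ?_
  simp only [h1]
  simp

/-- Let `f y = coins (section of U at y)`, a function of `pos e y`.  If `jump y (y + t) ∉ A - A` then the sections of `U` and `T^[t] ⁻¹' U` at `y` are independent, of measures `f y` and `f (y + t)`.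
The average of `f (y + t)` over `t < 2 ^ ex (k + 1)` is `mu U` when `e ≤ ex (k + 1)`.  The other `t` have density at most `#A² / 2 ^ a k`. -/
theorem Par.avg_corr (p : Par) {e : ℕ} {A : Finset G} {U : Set X} (hU : FinDet e A U) {η : ℝ} (hη : 0 < η) :
    ∃ n : ℕ, 0 < n ∧ |(∑ t ∈ Finset.range n, mu.real (p.T^[t] ⁻¹' U ∩ U)) / n - mu.real U ^ 2| ≤ η := by
  classical
  set D : Finset G := (A ×ˢ A).image fun q => q.1 - q.2 with hD
  obtain ⟨k₁, hk₁⟩ : ∃ k₁ : ℕ, (D.card : ℝ) / η < 2 ^ k₁ :=
    pow_unbounded_of_one_lt _ (by norm_num)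
  set k := max (max e k₁) ((D.sup fun g => g.support.sup id) + 1) with hk
  have hgk : ∀ g ∈ D, g k = 0 := by
    intro g hg
    by_contra hne
    have h1 : k ≤ g.support.sup id := Finset.le_sup (f := id) (Finsupp.mem_support_iff.2 hne)
    have h2 : g.support.sup id ≤ D.sup fun g => g.support.sup id :=
      Finset.le_sup (f := fun g : G => g.support.sup id) hg
    omega
  have hek : e ≤ p.ex (k + 1) := le_trans (by omega : e ≤ k + 1) (p.ex_strictMono.id_le (k + 1))
  have hak : (D.card : ℝ) ≤ η * 2 ^ p.a k := by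
    rw [div_lt_iff₀ hη] at hk₁
    have h1 : (2 : ℝ) ^ k₁ ≤ 2 ^ p.a k :=
      pow_le_pow_right₀ (by norm_num) (by have := p.ha k; omega)
    nlinarith
  have hU' := hU.mono hek (Finset.Subset.refl A)
  set N := 2 ^ p.ex (k + 1) with hN
  have hN0 : 0 < N := by positivity
  have hN0' : (0 : ℝ) < N := by exact_mod_cast hN0
  refine ⟨N, hN0, ?_⟩
  have hUm := hU.measurableSet
  have hm : ∀ t : ℕ, MeasurableSet (p.T^[t] ⁻¹' U ∩ U) := fun t =>
    ((p.measurable_T.iterate t) hUm).inter hUm
  set f : ℤ_[2] → ℝ := fun y => coins.real (Prod.mk y ⁻¹' U) with hf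
  set c : ℕ → ℤ_[2] → ℝ := fun t y => coins.real (Prod.mk y ⁻¹' (p.T^[t] ⁻¹' U ∩ U)) with hc
  have hgood : ∀ y, RegY y → ∀ t : ℕ, p.jump y (y + t) ∉ D → c t y = f (y + t) * f y := by
    intro y hy t ht
    set j := p.jump y (y + t) with hj
    have e1 : Prod.mk y ⁻¹' (p.T^[t] ⁻¹' U ∩ U) =
        (fun (ω : G → Bool) (g : G) => ω (g + j)) ⁻¹' (Prod.mk (y + t) ⁻¹' U) ∩ Prod.mk y ⁻¹' U := by
      ext ω
      simp only [mem_preimage, mem_inter_iff]
      rw [p.iterate_T (x := (y, ω)) hy]
    have hdis : Disjoint (A.image (· + j)) A := by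
      rw [Finset.disjoint_left]
      intro g hg hg'
      obtain ⟨a, ha, rfl⟩ := Finset.mem_image.1 hg
      exact ht (Finset.mem_image.2 ⟨(a + j, a), Finset.mem_product.2 ⟨hg', ha⟩, by simp⟩)
    have e2 := syserg_indep hdis
      (S := (fun (ω : G → Bool) (g : G) => ω (g + j)) ⁻¹' (Prod.mk (y + t) ⁻¹' U))
      (S' := Prod.mk y ⁻¹' U)
      (fun ω ω' h hω => hU (y + t, fun g => ω (g + j)) (y + t, fun g => ω' (g + j)) rfl
        (fun g hg => h _ (Finset.mem_image_of_mem _ hg)) hω)
      (fun ω ω' h hω => hU (y, ω) (y, ω') rfl h hω)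
    rw [(coins_shift j).measure_preimage (measurable_prodMk_left hUm).nullMeasurableSet] at e2
    simp only [hc, hf, measureReal_def]
    rw [e1, e2, ENNReal.toReal_mul]
  have hone : ∀ y (t : ℕ), |c t y - f (y + t) * f y| ≤ 1 := by
    intro y t
    have a1 : 0 ≤ c t y := measureReal_nonneg
    have a2 : c t y ≤ 1 := measureReal_le_one
    have a3 : 0 ≤ f (y + t) * f y := mul_nonneg measureReal_nonneg measureReal_nonneg
    have a4 : f (y + t) * f y ≤ 1 :=
      mul_le_one₀ measureReal_le_one measureReal_nonneg measureReal_le_one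
    rw [abs_le]
    constructor <;> linarith
  have hbd : ∀ y, RegY y →
      ‖∑ t ∈ Finset.range N, c t y - (N * mu.real U) * f y‖ ≤ η * N := by
    intro y hy
    have e1 : (N * mu.real U : ℝ) = ∑ t ∈ Finset.range N, f (y + (t : ℕ)) := by
      rw [hN, syserg_avg hU' y]
      push_cast
      rfl
    rw [e1, Finset.sum_mul, ← Finset.sum_sub_distrib, Real.norm_eq_abs]
    refine (Finset.abs_sum_le_sum_abs _ _).trans ?_
    have e2 : ∑ t ∈ Finset.range N, |c t y - f (y + (t : ℕ)) * f y| ≤
        ∑ t ∈ Finset.range N, ∑ g ∈ D, (if p.jump y (y + (t : ℕ)) = g then (1 : ℝ) else 0) := by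
      refine Finset.sum_le_sum fun t _ => ?_
      rw [Finset.sum_ite_eq]
      split_ifs with h
      · exact hone y t
      · rw [hgood y hy t h, sub_self, abs_zero]
    refine e2.trans ?_
    rw [Finset.sum_comm]
    have e3 : ∀ g ∈ D, ∑ t ∈ Finset.range N,
        (if p.jump y (y + (t : ℕ)) = g then (1 : ℝ) else 0) ≤ N / 2 ^ p.a k := by
      intro g hg
      rw [Finset.sum_boole, le_div_iff₀ (by positivity)]
      have := p.card_jump_le hy (hgk g hg)
      rw [← hN] at this
      convert (Nat.cast_le (α := ℝ)).2 this using 1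
      push_cast
      rfl
    refine (Finset.sum_le_sum e3).trans ?_
    rw [Finset.sum_const, nsmul_eq_mul, ← mul_div_assoc, div_le_iff₀ (by positivity)]
    nlinarith
  have hae : ∀ᵐ y ∂haarY, RegY y := haarY_regY
  have hI := norm_integral_le_of_norm_le_const (hae.mono hbd)
  have hci : ∀ t ∈ Finset.range N, Integrable (c t) haarY := fun t _ => syserg_int (hm t)
  rw [integral_sub (integrable_finsetSum _ hci) ((syserg_int hUm).const_mul _),
    integral_finsetSum _ hci, integral_const_mul, ← syserg_real hUm, probReal_univ, mul_one,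
    Real.norm_eq_abs] at hI
  simp only [syserg_real (hm _)]
  rw [← abs_of_pos hN0', ← div_le_iff₀ (abs_pos.2 hN0'.ne'), ← abs_div, abs_of_pos hN0'] at hI
  refine le_of_eq_of_le (congrArg _ ?_) hI
  field_simp
  rfl

/-- approximate an invariant set `B` by `U`: `|mu (T^[t] ⁻¹' U ∩ U) - mu B| ≤ 2 η`, so `mu B = (mu B)²` -/
theorem Par.ergodic (p : Par) : Ergodic p.T mu := by
  refine ⟨p.measurePreserving_T, ⟨fun B hB hinv => ?_⟩⟩
  have key : ∀ η : ℝ, 0 < η → |mu.real B - mu.real B ^ 2| ≤ 5 * η := by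
    intro η hη
    obtain ⟨e, A, U, hU, hUB⟩ := exists_finDet hB (ENNReal.ofReal_pos.2 hη)
    have hUm := hU.measurableSet
    have h1 : mu.real (symmDiff U B) ≤ η := ENNReal.toReal_le_of_le_ofReal hη.le hUB.le
    have h2 : |mu.real U - mu.real B| ≤ η :=
      (abs_measureReal_sub_le_measureReal_symmDiff hUm.nullMeasurableSet
        hB.nullMeasurableSet).trans h1
    obtain ⟨n, hn, h3⟩ := p.avg_corr hU hη
    have hn' : (0 : ℝ) < n := by exact_mod_cast hn
    have h4 : ∀ t : ℕ, |mu.real (p.T^[t] ⁻¹' U ∩ U) - mu.real B| ≤ 2 * η := by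
      intro t
      have hBt : p.T^[t] ⁻¹' B = B := Function.IsFixedPt.preimage_iterate hinv t
      refine (abs_measureReal_sub_le_measureReal_symmDiff
        (((p.measurable_T.iterate t) hUm).inter hUm).nullMeasurableSet
        hB.nullMeasurableSet).trans ?_
      have hsub : symmDiff (p.T^[t] ⁻¹' U ∩ U) B ⊆ p.T^[t] ⁻¹' (symmDiff U B) ∪ symmDiff U B := by
        intro x hx
        have hx' : p.T^[t] x ∈ B ↔ x ∈ B := by rw [← mem_preimage, hBt]
        simp only [mem_symmDiff, mem_inter_iff, mem_preimage, mem_union] at hx ⊢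
        tauto
      refine (measureReal_mono hsub).trans ((measureReal_union_le _ _).trans ?_)
      rw [(p.measurePreserving_T.iterate t).measureReal_preimage
        (hUm.symmDiff hB).nullMeasurableSet]
      linarith
    have h5 : |(∑ t ∈ Finset.range n, mu.real (p.T^[t] ⁻¹' U ∩ U)) / n - mu.real B| ≤ 2 * η := by
      have e1 : (∑ t ∈ Finset.range n, mu.real (p.T^[t] ⁻¹' U ∩ U)) / n - mu.real B =
          (∑ t ∈ Finset.range n, (mu.real (p.T^[t] ⁻¹' U ∩ U) - mu.real B)) / n := by
        rw [Finset.sum_sub_distrib, Finset.sum_const, Finset.card_range, nsmul_eq_mul]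
        field_simp
      rw [e1, abs_div, abs_of_pos hn', div_le_iff₀ hn']
      refine (Finset.abs_sum_le_sum_abs _ _).trans ((Finset.sum_le_sum fun t _ => h4 t).trans ?_)
      rw [Finset.sum_const, Finset.card_range, nsmul_eq_mul, mul_comm]
    have h6 : |mu.real U ^ 2 - mu.real B ^ 2| ≤ 2 * η := by
      rw [sq_sub_sq, abs_mul, abs_of_nonneg (add_nonneg measureReal_nonneg measureReal_nonneg)]
      have a1 : mu.real U ≤ 1 := measureReal_le_one
      have a2 : mu.real B ≤ 1 := measureReal_le_one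
      exact mul_le_mul (by linarith) h2 (abs_nonneg _) (by norm_num)
    rw [abs_le] at h3 h5 h6 ⊢
    constructor <;> linarith
  have h0 : mu.real B - mu.real B ^ 2 = 0 := by
    refine abs_nonpos_iff.1 (le_of_forall_pos_le_add fun ε hε => ?_)
    have := key (ε / 5) (by positivity)
    linarith
  rw [Filter.eventuallyConst_set']
  have h1 : mu.real B * (1 - mu.real B) = 0 := by linarith
  rcases mul_eq_zero.1 h1 with h | h
  · exact Or.inl (ae_eq_empty.2 ((measureReal_eq_zero_iff (measure_ne_top _ _)).1 h))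
  · refine Or.inr (ae_eq_univ.2 ((measureReal_eq_zero_iff (measure_ne_top _ _)).1 ?_))
    rw [probReal_compl_eq_one_sub hB, h]

end Crest.Agent.R133
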