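import Crest.Agent.R133.Sys

/-! Row 133: the levels of the system and their transfer to a conjugate system. -/

set_option autoImplicit false

namespace Crest.Agent.R133

open MeasureTheory Function Set Crest.AnalysisR
open scoped ENNReal

theorem syslevel_pos_lt (p : Par) (k : ℕ) {y : ℤ_[2]} {t : ℕ} (h : p.dig k y + t < 2 ^ p.lv k) :
    pos (p.ex (k + 1)) y + 2 ^ p.ex k * t < 2 ^ p.ex (k + 1) := by
  have h0 : 0 < 2 ^ p.ex k := by positivity
  have h1 : pos (p.ex (k + 1)) y < p.dig k y * 2 ^ p.ex k + 2 ^ p.ex k := Nat.lt_div_mul_add h0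
  have h2 : (p.dig k y + t + 1) * 2 ^ p.ex k ≤ 2 ^ p.lv k * 2 ^ p.ex k := Nat.mul_le_mul_right _ h
  have h3 : 2 ^ p.ex (k + 1) = 2 ^ p.lv k * 2 ^ p.ex k := by rw [Par.ex, pow_add, Nat.mul_comm]
  rw [h3]
  nlinarith

theorem syslevel_dig (p : Par) (k : ℕ) {y : ℤ_[2]} {t : ℕ} (h : p.dig k y + t < 2 ^ p.lv k) :
    p.dig k (y + (2 ^ p.ex k * t : ℕ)) = p.dig k y + t := by
  have h0 : 0 < 2 ^ p.ex k := by positivity
  have h1 := syslevel_pos_lt p k h
  unfold Par.dig
  rw [pos_add, Nat.mod_eq_of_lt h1, Nat.add_mul_div_left _ _ h0]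

theorem syslevel_dig_ne (p : Par) {k l : ℕ} (hl : l ≠ k) {y : ℤ_[2]} {t : ℕ} (h : p.dig k y + t < 2 ^ p.lv k) :
    p.dig l (y + (2 ^ p.ex k * t : ℕ)) = p.dig l y := by
  rcases lt_or_gt_of_ne hl with h1 | h1
  · refine Par.dig_eq_of_pos h1 ?_
    rw [pos_add, Nat.add_mul_mod_self_left, Nat.mod_eq_of_lt (pos_lt _ _)]
  · exact Par.dig_add_of_lt h1 (syslevel_pos_lt p k h)

theorem syslevel_jump (p : Par) (k : ℕ) {y : ℤ_[2]} (hy : RegY y) {t : ℕ} (h : p.dig k y + t < 2 ^ p.lv k) :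
    p.jump y (y + (2 ^ p.ex k * t : ℕ)) = Finsupp.single k
      ((lab (2 ^ p.a k) (2 ^ p.b k) (2 ^ p.c k) (p.dig k y + t) : ℤ) -
        lab (2 ^ p.a k) (2 ^ p.b k) (2 ^ p.c k) (p.dig k y)) := by
  ext l
  rw [p.jump_apply hy]
  by_cases hl : l = k
  · subst hl
    rw [Finsupp.single_eq_same, Par.lb, Par.lb, syslevel_dig p l h]
  · rw [Finsupp.single_eq_of_ne hl, Par.lb, Par.lb, syslevel_dig_ne p hl h, sub_self]

theorem syslevel_haar_le (e a : ℕ) : haarY {y | pos e y = a} ≤ ((2 ^ e : ℕ) : ℝ≥0∞)⁻¹ := by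
  rcases lt_or_ge a (2 ^ e) with h | h
  · exact (haarY_pos h).le
  · have : {y | pos e y = a} = ∅ := by
      ext y
      have := pos_lt e y
      simp only [mem_ofPred_eq, mem_empty_iff_false, iff_false]
      omega
    rw [this, measure_empty]
    exact zero_le

theorem syslevel_haar_dig (p : Par) (k a : ℕ) : haarY {y | p.dig k y = a} ≤ ((2 ^ p.lv k : ℕ) : ℝ≥0∞)⁻¹ := by
  have h0 : 0 < 2 ^ p.ex k := by positivity
  have h1 : {y | p.dig k y = a} ⊆ ⋃ r ∈ Finset.range (2 ^ p.ex k), {y | pos (p.ex (k + 1)) y = a * 2 ^ p.ex k + r} := by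
    intro y hy
    simp only [mem_iUnion, Finset.mem_range, mem_ofPred_eq]
    refine ⟨pos (p.ex (k + 1)) y % 2 ^ p.ex k, Nat.mod_lt _ h0, ?_⟩
    have : p.dig k y = a := hy
    rw [← this, Par.dig, Nat.div_add_mod']
  refine (measure_mono h1).trans ((measure_biUnion_finset_le _ _).trans ?_)
  refine (Finset.sum_le_sum fun r _ => syslevel_haar_le _ _).trans (le_of_eq ?_)
  rw [Finset.sum_const, Finset.card_range, nsmul_eq_mul, Par.ex, pow_add, Nat.cast_mul,
    ENNReal.mul_inv (Or.inr (by simp)) (Or.inl (by simp)), ← mul_assoc,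
    ENNReal.mul_inv_cancel (by simp) (by simp), one_mul]

theorem syslevel_null : mu {x : X | RegY x.1}ᶜ = 0 := by
  have : {x : X | RegY x.1}ᶜ = {y | RegY y}ᶜ ×ˢ (univ : Set (G → Bool)) := by
    ext x; simp
  rw [this, mu, Measure.prod_prod, haarY_regY, zero_mul]

/-- `v = dig k`, `good = {RegY}`.  If `dig k y + t < 2 ^ lv k` then adding `2 ^ ex k * t` adds `t` to the digit `k` and keeps all the other digits, so
`jump y (y + 2 ^ ex k * t) = single k (lab (v + t) - lab v)`.  `indep`: Fubini and `coins_cyl`. -/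
theorem Par.level (p : Par) (k : ℕ) : Nonempty
    (Level mu p.T (fun x => x.2 0) (2 ^ p.ex k) (2 ^ p.a k) (2 ^ p.b k) (2 ^ p.c k) (2 ^ p.lv k)) := by
  refine ⟨
    { v := fun x => p.dig k x.1
      good := {x | RegY x.1}
      meas_v := (p.measurable_dig k).comp measurable_fst
      meas_good := measurable_fst measurableSet_regY
      null := syslevel_null
      step := ?_
      same := ?_
      lt := fun x => p.dig_lt k _
      unif := ?_
      indep := ?_ }⟩
  · intro x hx t ht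
    rw [p.iterate_T hx]
    exact syslevel_dig p k ht
  · intro x hx t t' ht ht' hl
    rw [p.iterate_T hx, p.iterate_T hx]
    show x.2 (0 + _) = x.2 (0 + _)
    rw [syslevel_jump p k hx ht, syslevel_jump p k hx ht', hl]
  · intro a
    have : {x : X | p.dig k x.1 = a} = {y | p.dig k y = a} ×ˢ (univ : Set (G → Bool)) := by
      ext x; simp
    rw [this, mu, Measure.prod_prod, measure_univ, mul_one]
    exact syslevel_haar_dig p k a
  · intro a I β hI hinj
    let f : ℕ → G := fun t => Finsupp.single k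
      ((lab (2 ^ p.a k) (2 ^ p.b k) (2 ^ p.c k) (a + t) : ℤ) - lab (2 ^ p.a k) (2 ^ p.b k) (2 ^ p.c k) a)
    have hf : InjOn f I := by
      intro t ht t' ht' h
      have h1 := Finsupp.single_injective k h
      refine hinj ht ht' ?_
      have h2 : (lab (2 ^ p.a k) (2 ^ p.b k) (2 ^ p.c k) (a + t) : ℤ) =
        lab (2 ^ p.a k) (2 ^ p.b k) (2 ^ p.c k) (a + t') := by linarith
      exact_mod_cast h2
    have hsub : {x : X | p.dig k x.1 = a ∧ ∀ t ∈ I, (p.T^[2 ^ p.ex k * t] x).2 0 = β t} ⊆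
        (univ : Set ℤ_[2]) ×ˢ {ω : G → Bool | ∀ t ∈ I, ω (f t) = β t} ∪ {x : X | RegY x.1}ᶜ := by
      rintro x ⟨h1, h2⟩
      by_cases hx : RegY x.1
      · refine Or.inl ⟨trivial, fun t ht => ?_⟩
        have h3 := h2 t ht
        rw [p.iterate_T hx] at h3
        have h4 : x.2 (0 + p.jump x.1 (x.1 + (2 ^ p.ex k * t : ℕ))) = β t := h3
        rw [syslevel_jump p k hx (by rw [h1]; exact hI t ht), h1, zero_add] at h4
        exact h4
      · exact Or.inr hx
    refine (measure_mono hsub).trans ((measure_union_le _ _).trans ?_)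
    rw [syslevel_null, add_zero, mu, Measure.prod_prod, measure_univ, one_mul, coins_cyl I hf]

/-- With the data `X₀, M₀, F, G` of the conjugacy: `G (S m) = T (G m)` on `M₀`, and `ν (G ⁻¹' B) = μ B`; the sets in `indep` agree with preimages under `G` on `M₀`. -/
theorem Level.transfer {X M : Type} [MeasurableSpace X] [MeasurableSpace M] {μ : Measure X} {ν : Measure M} {T : X → X}
    {S : M → M} (hT : Measurable T) (hS : Measurable S) (h : AreMeasConjugate μ T ν S) {P : X → Bool} (hP : Measurable P) :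
    ∃ P' : M → Bool, Measurable P' ∧ ∀ τ n J R V : ℕ, Level μ T P τ n J R V → Nonempty (Level ν S P' τ n J R V) := by
  obtain ⟨X₀, M₀, F, Gm, hX₀, hM₀, hX0, hM0, hTX, hSM, hF, hG, hFb, hGF, hmap, hconj⟩ := h
  have hpre : ∀ B, MeasurableSet B → ν (Gm ⁻¹' B) = μ B := by
    intro B hB
    rw [← hmap, Measure.map_apply hF (hG hB)]
    refine measure_congr ?_
    have hae : ∀ᵐ x ∂μ, x ∈ X₀ := hX0
    filter_upwards [hae] with x hx
    show (Gm (F x) ∈ B) = (x ∈ B)
    rw [hGF x hx]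
  have hit : ∀ x ∈ X₀, ∀ t, T^[t] x ∈ X₀ ∧ S^[t] (F x) = F (T^[t] x) := by
    intro x hx t
    induction t with
    | zero => exact ⟨hx, rfl⟩
    | succ t ih =>
      rw [iterate_succ_apply', iterate_succ_apply', ih.2]
      exact ⟨hTX.mapsTo ih.1, (hconj _ ih.1).symm⟩
  have hit' : ∀ m ∈ M₀, ∀ t, Gm (S^[t] m) = T^[t] (Gm m) := by
    intro m hm t
    obtain ⟨x, hx, rfl⟩ := hFb.surjOn hm
    rw [(hit x hx t).2, hGF _ (hit x hx t).1, hGF x hx]
  refine ⟨fun m => P (Gm m), hP.comp hG, fun τ n J R V L => ⟨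
    { v := fun m => L.v (Gm m)
      good := M₀ ∩ Gm ⁻¹' L.good
      meas_v := L.meas_v.comp hG
      meas_good := hM₀.inter (hG L.meas_good)
      null := ?_
      step := ?_
      same := ?_
      lt := fun m => L.lt _
      unif := ?_
      indep := ?_ }⟩⟩
  · rw [compl_inter]
    refine measure_union_null hM0 ?_
    rw [← preimage_compl, hpre _ L.meas_good.compl, L.null]
  · intro m hm t ht
    rw [hit' m hm.1]
    exact L.step _ hm.2 t ht
  · intro m hm t t' ht ht' hl
    rw [hit' m hm.1, hit' m hm.1]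
    exact L.same _ hm.2 t t' ht ht' hl
  · intro a
    have hB : MeasurableSet {x | L.v x = a} := L.meas_v (measurableSet_singleton a)
    exact (hpre _ hB).le.trans (L.unif a)
  · intro a I β h1 h2
    have hB : MeasurableSet {x | L.v x = a ∧ ∀ t ∈ I, P (T^[τ * t] x) = β t} := by
      refine (L.meas_v (measurableSet_singleton a)).inter ?_
      have : {x | ∀ t ∈ I, P (T^[τ * t] x) = β t} = ⋂ t ∈ I, {x | P (T^[τ * t] x) = β t} := by
        ext x; simp
      show MeasurableSet {x | ∀ t ∈ I, P (T^[τ * t] x) = β t}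
      rw [this]
      exact I.measurableSet_biInter fun t _ => (hP.comp (hT.iterate _)) (measurableSet_singleton _)
    have hsub : {m | L.v (Gm m) = a ∧ ∀ t ∈ I, P (Gm (S^[τ * t] m)) = β t} ⊆
        Gm ⁻¹' {x | L.v x = a ∧ ∀ t ∈ I, P (T^[τ * t] x) = β t} ∪ M₀ᶜ := by
      rintro m ⟨k1, k2⟩
      by_cases hm : m ∈ M₀
      · exact Or.inl ⟨k1, fun t ht => by rw [← hit' m hm]; exact k2 t ht⟩
      · exact Or.inr hm
    refine (measure_mono hsub).trans ((measure_union_le _ _).trans ?_)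
    rw [hM0, add_zero, hpre _ hB]
    exact L.indep a I β h1 h2

theorem mu_singleton (x : X) : mu {x} = 0 := by
  have : ({x} : Set X) = {x.1} ×ˢ {x.2} := by
    ext z; simp [Prod.ext_iff]
  rw [this, mu, Measure.prod_prod, haarY_singleton, zero_mul]

end Crest.Agent.R133
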