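import Crest.Agent.R133.Vol0

/-! Row 133: volumes of linear maps, basic facts (`vol` is `LinearMap.normDet`, see Mathlib
`Analysis/InnerProductSpace/NormDet.lean`: `normDet_comp_of_finrank_eq`, `normDet_eq_abs_det`, `normDet_sq_eq_det_gram`, …). -/

set_option autoImplicit false

namespace Crest.Agent.R133

open MeasureTheory Finset Metric Function

variable {d k : ℕ}

theorem BiLip.injective {L : ℝ} {g : E d →L[ℝ] E d} (h : BiLip L g) : Injective g := by
  rw [injective_iff_map_eq_zero]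
  intro p hp
  have := (h p).2
  rw [hp, norm_zero, mul_zero] at this
  exact norm_le_zero_iff.1 this

theorem BiLip.mono {L L' : ℝ} {g : E d →L[ℝ] E d} (h : BiLip L g) (hL : L ≤ L') : BiLip L' g := by
  intro p
  exact ⟨(h p).1.trans (mul_le_mul_of_nonneg_right hL (norm_nonneg _)),
    (h p).2.trans (mul_le_mul_of_nonneg_right hL (norm_nonneg _))⟩

theorem BiLip.comp {L L' : ℝ} {g h : E d →L[ℝ] E d} (hh : BiLip L' h) (hg : BiLip L g) (hL : 0 ≤ L) (hL' : 0 ≤ L') :
    BiLip (L' * L) (h ∘L g) := by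
  intro p
  constructor
  · calc ‖h (g p)‖ ≤ L' * ‖g p‖ := (hh _).1
      _ ≤ L' * (L * ‖p‖) := mul_le_mul_of_nonneg_left (hg p).1 hL'
      _ = _ := by ring
  · calc ‖p‖ ≤ L * ‖g p‖ := (hg p).2
      _ ≤ L * (L' * ‖h (g p)‖) := mul_le_mul_of_nonneg_left (hh _).2 hL
      _ = L' * L * ‖h (g p)‖ := by ring

theorem prod_add (A : ℕ → E d →L[ℝ] E d) (s m m' : ℕ) : prod A s (m + m') = prod A (s + m) m' ∘L prod A s m := by
  induction m' with
  | zero => simp [prod]
  | succ m' ih =>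
    rw [← add_assoc, prod, prod, ih, add_assoc s m m', ContinuousLinearMap.comp_assoc]

theorem prod_shift (A : ℕ → E d →L[ℝ] E d) (T s m : ℕ) : prod (fun t => A (T + t)) s m = prod A (T + s) m := by
  induction m with
  | zero => simp [prod]
  | succ m ih => rw [prod, prod, ih, add_assoc T s m]

theorem bilip_prod {A : ℕ → E d →L[ℝ] E d} {L : ℝ} (hL : 0 ≤ L) {s m : ℕ}
    (h : ∀ t, s ≤ t → t < s + m → BiLip L (A t)) : BiLip (L ^ m) (prod A s m) := by
  induction m with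
  | zero => intro p; simp [prod]
  | succ m ih =>
    rw [prod, pow_succ']
    exact (h (s + m) (by omega) (by omega)).comp (ih fun t h1 h2 => h t h1 (by omega)) (pow_nonneg hL m) hL

theorem vol_bdd (k : ℕ) (g : E d →L[ℝ] E d) :
    BddAbove {r | ∃ O : E k →L[ℝ] E d, Iso O ∧ r = vol (g ∘L O)} := by
  refine ⟨‖g‖ ^ k, ?_⟩
  rintro r ⟨O, hO, rfl⟩
  have := vol_mono (W := g ∘L O) (W' := O) (norm_nonneg g) fun a => g.le_opNorm (O a)
  rwa [hO.vol_eq, mul_one] at this

theorem vol_iso_le (g : E d →L[ℝ] E d) {O : E k →L[ℝ] E d} (hO : Iso O) : vol (g ∘L O) ≤ alpha k g :=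
  le_csSup (vol_bdd k g) ⟨O, hO, rfl⟩

theorem vol_lt_alpha_iff (g : E d →L[ℝ] E d) (hk : k ≤ d) (c : ℝ) :
    c < alpha k g ↔ ∃ O : E k →L[ℝ] E d, Iso O ∧ c < vol (g ∘L O) := by
  obtain ⟨O, hO⟩ := exists_iso hk
  unfold alpha
  rw [lt_csSup_iff (vol_bdd k g) ⟨_, O, hO, rfl⟩]
  constructor
  · rintro ⟨r, ⟨O, hO, rfl⟩, h⟩
    exact ⟨O, hO, h⟩
  · rintro ⟨O, hO, h⟩
    exact ⟨_, ⟨O, hO, rfl⟩, h⟩

theorem alpha_nonneg (k : ℕ) (g : E d →L[ℝ] E d) : 0 ≤ alpha k g := by
  refine Real.sSup_nonneg ?_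
  rintro r ⟨O, -, rfl⟩
  exact vol_nonneg _

/-- the set in the definition is bounded by `‖g‖ ^ k` (`vol_mono`); factor `W = O B` -/
theorem vol_le_alpha (g : E d →L[ℝ] E d) (W : E k →L[ℝ] E d) : vol (g ∘L W) ≤ alpha k g * vol W := by
  by_cases hW : Injective W
  · obtain ⟨O, B, hO, rfl⟩ := exists_factor hW
    rw [← ContinuousLinearMap.comp_assoc, vol_comp, vol_comp, hO.vol_eq, one_mul]
    exact mul_le_mul_of_nonneg_right (vol_iso_le g hO) (abs_nonneg _)
  · have h2 : ¬ Injective (g ∘L W) := fun h => hW (Injective.of_comp (f := g) (g := W) h)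
    rw [vol_eq_zero hW, vol_eq_zero h2, mul_zero]

theorem alpha_le {g : E d →L[ℝ] E d} {c : ℝ} (hc : 0 ≤ c) (h : ∀ O : E k →L[ℝ] E d, Iso O → vol (g ∘L O) ≤ c) :
    alpha k g ≤ c := by
  refine Real.sSup_le ?_ hc
  rintro r ⟨O, hO, rfl⟩
  exact h O hO

theorem alpha_zero (g : E d →L[ℝ] E d) : alpha 0 g = 1 := by
  have h1 : ∀ W : E 0 →L[ℝ] E d, vol W = 1 := fun W => LinearMap.normDet_of_subsingleton _
  obtain ⟨O, hO⟩ := exists_iso (Nat.zero_le d)
  refine le_antisymm (alpha_le zero_le_one fun O _ => (h1 _).le) ?_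
  rw [← h1 (g ∘L O)]
  exact vol_iso_le g hO

theorem alpha_id (h : k ≤ d) : alpha k (ContinuousLinearMap.id ℝ (E d)) = 1 := by
  obtain ⟨O, hO⟩ := exists_iso h
  refine le_antisymm (alpha_le zero_le_one fun O hO => ?_) ?_
  · rw [ContinuousLinearMap.id_comp, hO.vol_eq]
  · have := vol_iso_le (ContinuousLinearMap.id ℝ (E d)) hO
    rwa [ContinuousLinearMap.id_comp, hO.vol_eq] at this

theorem BiLip.alpha_le {L : ℝ} {g : E d →L[ℝ] E d} (h : BiLip L g) (hL : 0 ≤ L) (k : ℕ) : alpha k g ≤ L ^ k := by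
  refine Crest.Agent.R133.alpha_le (pow_nonneg hL k) fun O hO => ?_
  have := vol_mono (W := g ∘L O) (W' := O) hL fun a => (h (O a)).1
  rwa [hO.vol_eq, mul_one] at this

theorem BiLip.le_alpha {L : ℝ} {g : E d →L[ℝ] E d} (h : BiLip L g) (hL : 0 ≤ L) (hk : k ≤ d) :
    1 ≤ L ^ k * alpha k g := by
  obtain ⟨O, hO⟩ := exists_iso hk
  have := vol_mono (W := O) (W' := g ∘L O) hL fun a => (h (O a)).2
  rw [hO.vol_eq] at this
  exact this.trans (mul_le_mul_of_nonneg_left (vol_iso_le g hO) (pow_nonneg hL k))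

theorem alpha_pos {g : E d →L[ℝ] E d} (h : Injective g) (hk : k ≤ d) : 0 < alpha k g := by
  obtain ⟨O, hO⟩ := exists_iso hk
  exact (vol_pos (W := g ∘L O) (h.comp hO.injective)).trans_le (vol_iso_le g hO)

theorem alpha_comp (k : ℕ) (h g : E d →L[ℝ] E d) : alpha k (h ∘L g) ≤ alpha k h * alpha k g := by
  refine alpha_le (mul_nonneg (alpha_nonneg k h) (alpha_nonneg k g)) fun O hO => ?_
  rw [ContinuousLinearMap.comp_assoc]
  exact (vol_le_alpha h _).trans (mul_le_mul_of_nonneg_left (vol_iso_le g hO) (alpha_nonneg k h))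

theorem exists_opt {g : E d →L[ℝ] E d} (h : Injective g) (hk : k ≤ d) :
    ∃ O : E k →L[ℝ] E d, Iso O ∧ alpha k g ≤ 2 * vol (g ∘L O) := by
  have hp := alpha_pos h hk
  obtain ⟨O, hO, hlt⟩ := (vol_lt_alpha_iff g hk (alpha k g / 2)).1 (by linarith)
  exact ⟨O, hO, by linarith⟩

/-- lower semicontinuous: `{g | c < alpha k g}` is open -/
theorem measurable_alpha (k : ℕ) : Measurable (alpha k : (E d →L[ℝ] E d) → ℝ) := by
  by_cases hk : k ≤ d
  · refine measurable_of_Ioi fun c => IsOpen.measurableSet ?_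
    have : (alpha k : (E d →L[ℝ] E d) → ℝ) ⁻¹' Set.Ioi c =
        ⋃ O : {O : E k →L[ℝ] E d // Iso O}, {g | c < vol (g ∘L O.1)} := by
      ext g
      simp only [Set.mem_preimage, Set.mem_Ioi, vol_lt_alpha_iff g hk, Set.mem_iUnion, Set.mem_setOf_eq,
        Subtype.exists, exists_prop]
    rw [this]
    refine isOpen_iUnion fun O => isOpen_lt continuous_const (continuous_vol.comp ?_)
    exact continuous_id.clm_comp continuous_const
  · have : (alpha k : (E d →L[ℝ] E d) → ℝ) = fun _ => 0 := by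
      funext g
      exact le_antisymm (alpha_le le_rfl fun O hO => absurd (le_of_injective hO.injective) hk) (alpha_nonneg k g)
    rw [this]
    exact measurable_const

end Crest.Agent.R133
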