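import Crest.Agent.R133.Defs

/-! Row 133: volumes of linear maps, basic facts (`vol` is `LinearMap.normDet`, see Mathlib
`Analysis/InnerProductSpace/NormDet.lean`: `normDet_comp_of_finrank_eq`, `normDet_eq_abs_det`, `normDet_sq_eq_det_gram`, …). -/

set_option autoImplicit false

namespace Crest.Agent.R133

open MeasureTheory Finset Metric Function

variable {d k : ℕ}

/-- `W ∘ P` is the orthogonal projection onto the range of `W` -/
structure IsProj (W : E k →L[ℝ] E d) (P : E d →L[ℝ] E k) : Prop where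
  left : ∀ a, P (W a) = a
  norm_le : ∀ x, ‖W (P x)‖ ≤ ‖x‖
  best : ∀ x a, ‖x - W (P x)‖ ≤ ‖x - W a‖

theorem vol_nonneg (W : E k →L[ℝ] E d) : 0 ≤ vol W := by
  exact LinearMap.normDet_nonneg _

theorem vol_pos {W : E k →L[ℝ] E d} (hW : Injective W) : 0 < vol W := by
  refine lt_of_le_of_ne (vol_nonneg W) fun h => ?_
  exact LinearMap.normDet_eq_zero_iff_ker_ne_bot.1 h.symm (LinearMap.ker_eq_bot.2 hW)

theorem vol_eq_zero {W : E k →L[ℝ] E d} (hW : ¬ Injective W) : vol W = 0 := by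
  exact LinearMap.normDet_eq_zero_iff_ker_ne_bot.2 fun h => hW (LinearMap.ker_eq_bot.1 h)

theorem vol_comp (W : E k →L[ℝ] E d) (B : E k →L[ℝ] E k) : vol (W ∘L B) = vol W * |B.det| := by
  have h := LinearMap.normDet_comp_of_finrank_eq (B : E k →ₗ[ℝ] E k) (W : E k →ₗ[ℝ] E d) rfl
  rw [LinearMap.normDet_eq_abs_det] at h
  exact h

theorem Iso.injective {O : E k →L[ℝ] E d} (h : Iso O) : Injective O := by
  refine (injective_iff_map_eq_zero O).2 fun a ha => ?_
  rw [← norm_eq_zero, ← h a, ha, norm_zero]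

theorem Iso.vol_eq {O : E k →L[ℝ] E d} (h : Iso O) : vol O = 1 := by
  exact LinearIsometry.normDet_eq_one (⟨(O : E k →ₗ[ℝ] E d), h⟩ : E k →ₗᵢ[ℝ] E d)

theorem le_of_injective {W : E k →L[ℝ] E d} (hW : Injective W) : k ≤ d := by
  simpa using LinearMap.finrank_le_finrank_of_injective (f := (W : E k →ₗ[ℝ] E d)) hW

theorem vol0_factor {W : E k →L[ℝ] E d} (hW : Injective W) :
    ∃ (O : E k →L[ℝ] E d) (B : E k ≃L[ℝ] E k), Iso O ∧ W = O ∘L (B : E k →L[ℝ] E k) := by
  have hr : Module.finrank ℝ (LinearMap.range (W : E k →ₗ[ℝ] E d)) = k := by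
    rw [LinearMap.finrank_range_of_inj hW]; simp
  let b : OrthonormalBasis (Fin k) ℝ (LinearMap.range (W : E k →ₗ[ℝ] E d)) :=
    (stdOrthonormalBasis ℝ _).reindex (finCongr hr)
  refine ⟨(LinearMap.range (W : E k →ₗ[ℝ] E d)).subtypeL ∘L
      (b.repr.symm.toContinuousLinearEquiv : E k →L[ℝ] _),
    ((LinearEquiv.ofInjective (W : E k →ₗ[ℝ] E d) hW).trans
      b.repr.toLinearEquiv).toContinuousLinearEquiv, fun a => ?_, ?_⟩
  · exact b.repr.symm.norm_map a
  · ext1 a
    simp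

theorem exists_iso (h : k ≤ d) : ∃ O : E k →L[ℝ] E d, Iso O := by
  obtain ⟨f, hf⟩ := (finrank_le_iff_exists_linearMap (R := ℝ) (M := E k) (M' := E d)).1
    (by simpa using h)
  obtain ⟨O, -, hO, -⟩ := vol0_factor (W := LinearMap.toContinuousLinearMap f) hf
  exact ⟨O, hO⟩

/-- the image of the unit ball is contained in the ball of radius `c` (`Measure.addHaar_image_linearMap`) -/
theorem abs_det_le {X : E k →L[ℝ] E k} {c : ℝ} (hc : 0 ≤ c) (h : ∀ a, ‖X a‖ ≤ c * ‖a‖) : |X.det| ≤ c ^ k := by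
  have h1 : X '' closedBall 0 1 ⊆ closedBall 0 c := by
    rintro _ ⟨a, ha, rfl⟩
    rw [mem_closedBall_zero_iff] at ha ⊢
    exact (h a).trans (mul_le_of_le_one_right hc ha)
  have h2 := measure_mono (μ := (volume : Measure (E k))) h1
  rw [Measure.addHaar_image_continuousLinearMap, Measure.addHaar_closedBall' _ _ hc,
    ENNReal.mul_le_mul_iff_left (measure_closedBall_pos _ _ one_pos).ne' measure_closedBall_lt_top.ne,
    ENNReal.ofReal_le_ofReal_iff (pow_nonneg hc _)] at h2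
  simpa using h2

/-- use an orthonormal basis of the range of `W` -/
theorem exists_factor {W : E k →L[ℝ] E d} (hW : Injective W) :
    ∃ (O : E k →L[ℝ] E d) (B : E k ≃L[ℝ] E k), Iso O ∧ W = O ∘L (B : E k →L[ℝ] E k) := by
  exact vol0_factor hW

/-- `W = O B`, `W' = O' B'`, apply `abs_det_le` to `B B'⁻¹` -/
theorem vol_mono {d' : ℕ} {W : E k →L[ℝ] E d} {W' : E k →L[ℝ] E d'} {c : ℝ} (hc : 0 ≤ c)
    (h : ∀ a, ‖W a‖ ≤ c * ‖W' a‖) : vol W ≤ c ^ k * vol W' := by
  by_cases hW' : Injective W'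
  · by_cases hW : Injective W
    · obtain ⟨O, B, hO, rfl⟩ := exists_factor hW
      obtain ⟨O', B', hO', rfl⟩ := exists_factor hW'
      have h1 : ∀ a, ‖((B : E k →L[ℝ] E k) ∘L (B'.symm : E k →L[ℝ] E k)) a‖ ≤ c * ‖a‖ := by
        intro a
        have h2 := h (B'.symm a)
        rw [ContinuousLinearMap.comp_apply, ContinuousLinearMap.comp_apply, hO, hO'] at h2
        simpa using h2
      have h2 := abs_det_le hc h1
      have h3 : (B : E k →L[ℝ] E k).det =
          ((B : E k →L[ℝ] E k) ∘L (B'.symm : E k →L[ℝ] E k)).det * (B' : E k →L[ℝ] E k).det := by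
        unfold ContinuousLinearMap.det
        rw [← LinearMap.det_comp]
        congr 1
        ext1 a
        simp
      rw [vol_comp, vol_comp, hO.vol_eq, hO'.vol_eq, one_mul, one_mul, h3, abs_mul]
      exact mul_le_mul_of_nonneg_right h2 (abs_nonneg _)
    · rw [vol_eq_zero hW]
      exact mul_nonneg (pow_nonneg hc _) (vol_nonneg _)
  · have hW : ¬ Injective W := fun hW => hW' ((injective_iff_map_eq_zero W').2 fun a ha => by
      have h1 := h a
      rw [ha, norm_zero, mul_zero, norm_le_zero_iff] at h1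
      exact (injective_iff_map_eq_zero W).1 hW a h1)
    rw [vol_eq_zero hW, vol_eq_zero hW', mul_zero]

/-- `vol W = √(det (gram …))` -/
theorem continuous_vol : Continuous (vol : (E k →L[ℝ] E d) → ℝ) := by
  have h : (vol : (E k →L[ℝ] E d) → ℝ) = fun W =>
      √((Matrix.gram ℝ (fun i => W (EuclideanSpace.basisFun (Fin k) ℝ i))).det) := by
    funext W
    have h1 := LinearMap.normDet_sq_eq_det_gram (W : E k →ₗ[ℝ] E d) (EuclideanSpace.basisFun (Fin k) ℝ)
    rw [eq_comm, Real.sqrt_eq_iff_eq_sq (by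
      have h2 : (0 : ℝ) ≤ (W : E k →ₗ[ℝ] E d).normDet ^ 2 := sq_nonneg _
      exact h2.trans_eq h1) (vol_nonneg W)]
    exact h1.symm
  rw [h]
  refine Continuous.sqrt (Continuous.matrix_det (continuous_matrix fun i j => ?_))
  simp only [Matrix.gram_apply]
  fun_prop

/-- `P = B⁻¹ ∘ O†` -/
theorem exists_proj {W : E k →L[ℝ] E d} (hW : Injective W) : ∃ P, IsProj W P := by
  let K : Submodule ℝ (E d) := LinearMap.range (W : E k →ₗ[ℝ] E d)
  let e : E k ≃L[ℝ] K := (LinearEquiv.ofInjective (W : E k →ₗ[ℝ] E d) hW).toContinuousLinearEquiv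
  have he : ∀ y : K, W (e.symm y) = y := fun y => by
    have h1 : ((e (e.symm y) : K) : E d) = W (e.symm y) := rfl
    rw [← h1, e.apply_symm_apply]
  have hP : ∀ x, W (((e.symm : K →L[ℝ] E k) ∘L K.orthogonalProjectionOnto) x) =
      K.starProjection x := fun x => he _
  refine ⟨(e.symm : K →L[ℝ] E k) ∘L K.orthogonalProjectionOnto, fun a => hW ?_, fun x => ?_,
    fun x a => ?_⟩
  · rw [hP]
    exact Submodule.starProjection_eq_self_iff.2 ⟨a, rfl⟩
  · rw [hP]
    exact K.norm_starProjection_apply_le x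
  · rw [hP, Submodule.starProjection_minimal]
    exact ciInf_le ⟨0, by rintro _ ⟨y, rfl⟩; exact norm_nonneg _⟩ (⟨W a, a, rfl⟩ : K)

theorem vol0_preimage {O : E k →L[ℝ] E d} (hO : Iso O) (B : E k ≃L[ℝ] E k) (s : Set (E k))
    (r : ℝ) (hs : volume s = ENNReal.ofReal r * volume (ball (0 : E k) 1)) :
    volume ((B : E k →L[ℝ] E k) ⁻¹' s) =
      ENNReal.ofReal (r / vol (O ∘L (B : E k →L[ℝ] E k))) * volume (ball (0 : E k) 1) := by
  have hB : LinearMap.det ((B : E k →L[ℝ] E k) : E k →ₗ[ℝ] E k) ≠ 0 :=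
    (LinearEquiv.isUnit_det' B.toLinearEquiv).ne_zero
  rw [Measure.addHaar_preimage_continuousLinearMap _ hB, hs, ← mul_assoc,
    ← ENNReal.ofReal_mul (abs_nonneg _), vol_comp, hO.vol_eq, one_mul, abs_inv, inv_mul_eq_div]

theorem volume_ellipsoid_le {W : E k →L[ℝ] E d} (hW : Injective W) {ϱ : ℝ} (hϱ : 0 ≤ ϱ) :
    volume {a | ‖W a‖ ≤ ϱ} = ENNReal.ofReal (ϱ ^ k / vol W) * volume (ball (0 : E k) 1) := by
  obtain ⟨O, B, hO, rfl⟩ := exists_factor hW
  rw [← vol0_preimage hO B (closedBall 0 ϱ) (ϱ ^ k)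
    (by simpa using Measure.addHaar_closedBall (volume : Measure (E k)) 0 hϱ)]
  congr 1
  ext a
  rw [Set.mem_ofPred_eq, Set.mem_preimage, mem_closedBall_zero_iff, ContinuousLinearMap.comp_apply,
    hO]

theorem volume_ellipsoid_lt {W : E k →L[ℝ] E d} (hW : Injective W) {ϱ : ℝ} (hϱ : 0 < ϱ) :
    volume {a | ‖W a‖ < ϱ} = ENNReal.ofReal (ϱ ^ k / vol W) * volume (ball (0 : E k) 1) := by
  obtain ⟨O, B, hO, rfl⟩ := exists_factor hW
  rw [← vol0_preimage hO B (ball 0 ϱ) (ϱ ^ k)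
    (by simpa using Measure.addHaar_ball_of_pos (volume : Measure (E k)) 0 hϱ)]
  congr 1
  ext a
  rw [Set.mem_ofPred_eq, Set.mem_preimage, mem_ball_zero_iff, ContinuousLinearMap.comp_apply, hO]

end Crest.Agent.R133
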