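import Crest.Agent.R133.Vol2Aux

/-! Row 133: volumes in consecutive dimensions.

The basic identity is `√(det (gram (Fin.cons q v))) = dist (q, span v) * √(det (gram v))`
(replace `q` by its component orthogonal to the span, then the Gram matrix is block diagonal); `vol W` is
`√(det (gram (W ∘ b)))` for any orthonormal basis `b` of `E k` (`LinearMap.normDet_sq_eq_det_gram`). -/

set_option autoImplicit false

namespace Crest.Agent.R133

open MeasureTheory Finset Metric Function
open scoped InnerProductSpace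

variable {d k : ℕ}

/-- Reduce to `W = O` isometric (`exists_factor`, `vol_comp`) and `‖a‖ = 1`; extend `a` to an orthonormal basis
`(a, b₁, …, b_k)` of `E (k + 1)`; `vol (g O) = dist (g O a, span (g O bᵢ)) * vol (g O b) ≤ ‖g O a‖ * alpha k g`. -/
theorem vol_back (g : E d →L[ℝ] E d) (W : E (k + 1) →L[ℝ] E d) (a : E (k + 1)) :
    vol (g ∘L W) * ‖W a‖ ≤ alpha k g * ‖g (W a)‖ * vol W := by
  by_cases hW : Injective W
  swap
  · have h0 : vol (g ∘L W) = 0 := vol_eq_zero fun h => hW (Injective.of_comp (f := g) h)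
    rw [h0, zero_mul]
    exact mul_nonneg (mul_nonneg (alpha_nonneg _ _) (norm_nonneg _)) (vol_nonneg _)
  obtain ⟨O, B, hO, rfl⟩ := exists_factor hW
  rw [← ContinuousLinearMap.comp_assoc, vol_comp, vol_comp, hO.vol_eq, one_mul]
  have h1 := vol2_back_iso g hO (B a)
  have h2 : (O ∘L (B : E (k + 1) →L[ℝ] E (k + 1))) a = O (B a) := rfl
  rw [h2, hO]
  have h3 := abs_nonneg (B : E (k + 1) →L[ℝ] E (k + 1)).det
  nlinarith [mul_le_mul_of_nonneg_right h1 h3]

/-- Reduce to `W = O` isometric and `g ∘ O` injective; let `n` be the component of `x` orthogonal to the range of `O`; if `n ≠ 0` then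
`(n / ‖n‖, O)` is an orthonormal `(k + 1)`-frame, with `vol = dist (g n, range (g O)) / ‖n‖ * vol (g O)`. -/
theorem vol_quot (g : E d →L[ℝ] E d) (W : E k →L[ℝ] E d) (x : E d) :
    ∃ a, vol (g ∘L W) * ‖g x - g (W a)‖ ≤ alpha (k + 1) g * ‖x‖ * vol W := by
  set v : Fin k → E d := fun i => W (EuclideanSpace.single i 1) with hv
  have hW : W = vol2_mk v := vol2_eq_mk W
  obtain ⟨a₀, h₀, h₀'⟩ := vol2_cons x v
  obtain ⟨a₁, h₁, -⟩ := vol2_cons (g x) (fun i => g (v i))
  refine ⟨a₁, ?_⟩
  have hc : g ∘L vol2_mk (Fin.cons x v : Fin (k + 1) → E d) =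
      vol2_mk (Fin.cons (g x) (fun i => g (v i)) : Fin (k + 1) → E d) := by
    rw [vol2_comp_mk]
    congr 1
    funext i
    refine Fin.cases ?_ (fun j => ?_) i <;> simp
  have h2 := vol_le_alpha g (vol2_mk (Fin.cons x v : Fin (k + 1) → E d))
  rw [hc, h₁, h₀, ← vol2_comp_mk, ← hW] at h2
  have h3 : ‖x - W a₀‖ ≤ ‖x‖ := by
    have := h₀' 0
    rw [← hW] at this
    simpa using this
  have h4 : alpha (k + 1) g * (‖x - W a₀‖ * vol W) ≤ alpha (k + 1) g * (‖x‖ * vol W) :=
    mul_le_mul_of_nonneg_left (mul_le_mul_of_nonneg_right h3 (vol_nonneg _)) (alpha_nonneg _ _)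
  have h5 : (g ∘L W) a₁ = g (W a₁) := rfl
  rw [h5] at h2
  calc vol (g ∘L W) * ‖g x - g (W a₁)‖ = ‖g x - g (W a₁)‖ * vol (g ∘L W) := mul_comm _ _
    _ ≤ alpha (k + 1) g * (‖x‖ * vol W) := h2.trans h4
    _ = _ := by ring

/-- For frames `W` of dimension `k + 2` and `V` of dimension `k` choose `p = W a ≠ 0` with `g p ⊥ range (g V)` (dimension count).
`vol_back` gives `vol (g W) ‖p‖ ≤ α ‖g p‖`, `vol_quot` gives `vol (g V) ‖g p‖ ≤ α ‖p‖`. -/
theorem alpha_concave {g : E d →L[ℝ] E d} (hg : Injective g) :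
    alpha (k + 2) g * alpha k g ≤ alpha (k + 1) g ^ 2 := by
  have key : ∀ (W : E (k + 2) →L[ℝ] E d) (V : E k →L[ℝ] E d), Iso W → Iso V →
      vol (g ∘L W) * vol (g ∘L V) ≤ alpha (k + 1) g ^ 2 := by
    intro W V hW hV
    let T : E (k + 2) →L[ℝ] E k := (ContinuousLinearMap.adjoint (g ∘L V)) ∘L (g ∘L W)
    have hT : ¬ Injective T := fun h => by
      have := le_of_injective h
      omega
    obtain ⟨a, ha, ha0⟩ : ∃ a, T a = 0 ∧ a ≠ 0 := by
      by_contra hcon
      push Not at hcon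
      exact hT ((injective_iff_map_eq_zero T).2 hcon)
    have horth : ∀ a', ⟪g (W a), g (V a')⟫_ℝ = 0 := by
      intro a'
      have h1 : ⟪T a, a'⟫_ℝ = ⟪g (W a), g (V a')⟫_ℝ :=
        ContinuousLinearMap.adjoint_inner_left (g ∘L V) a' (g (W a))
      rw [← h1, ha, inner_zero_left]
    have hp : 0 < ‖W a‖ := by rw [hW]; exact norm_pos_iff.2 ha0
    have hgp : 0 < ‖g (W a)‖ := by
      refine norm_pos_iff.2 fun h => ?_
      have : W a = 0 := hg (by rw [h, map_zero])
      rw [this, norm_zero] at hp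
      exact lt_irrefl _ hp
    have h1 := vol_back g W a
    obtain ⟨a', h2⟩ := vol_quot g V (W a)
    rw [hW.vol_eq, mul_one] at h1
    rw [hV.vol_eq, mul_one] at h2
    have h3 : ‖g (W a)‖ ≤ ‖g (W a) - g (V a')‖ := by
      have h4 : ‖g (W a) - g (V a')‖ ^ 2 = ‖g (W a)‖ ^ 2 + ‖g (V a')‖ ^ 2 := by
        rw [norm_sub_sq_real, horth]; ring
      refine (sq_le_sq₀ (norm_nonneg _) (norm_nonneg _)).1 ?_
      rw [h4]; nlinarith [sq_nonneg ‖g (V a')‖]
    have h5 : vol (g ∘L V) * ‖g (W a)‖ ≤ alpha (k + 1) g * ‖W a‖ :=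
      (mul_le_mul_of_nonneg_left h3 (vol_nonneg _)).trans h2
    have h6 := mul_le_mul h1 h5 (mul_nonneg (vol_nonneg _) (norm_nonneg _))
      (mul_nonneg (alpha_nonneg _ _) (norm_nonneg _))
    have h7 : vol (g ∘L W) * vol (g ∘L V) * (‖W a‖ * ‖g (W a)‖) ≤ alpha (k + 1) g ^ 2 * (‖W a‖ * ‖g (W a)‖) := by
      calc _ = vol (g ∘L W) * ‖W a‖ * (vol (g ∘L V) * ‖g (W a)‖) := by ring
        _ ≤ _ := h6
        _ = _ := by ring
    exact le_of_mul_le_mul_right h7 (mul_pos hp hgp)
  have h1 : ∀ W : E (k + 2) →L[ℝ] E d, Iso W → vol (g ∘L W) * alpha k g ≤ alpha (k + 1) g ^ 2 := by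
    intro W hW
    rcases (vol_nonneg (g ∘L W)).eq_or_lt with h | h
    · rw [← h, zero_mul]; positivity
    · rw [mul_comm, ← le_div_iff₀ h]
      refine alpha_le (div_nonneg (sq_nonneg _) h.le) fun V hV => ?_
      rw [le_div_iff₀ h, mul_comm]
      exact key W V hW hV
  rcases (alpha_nonneg k g).eq_or_lt with h | h
  · rw [← h, mul_zero]; positivity
  · rw [← le_div_iff₀ h]
    refine alpha_le (div_nonneg (sq_nonneg _) h.le) fun W hW => ?_
    rw [le_div_iff₀ h]
    exact h1 W hW

/-- `fr T` is the coordinate frame `i ↦ e (T i)` if `T` is injective (any frame otherwise).  Start from any orthonormal frame and replace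
its vectors one at a time by coordinate vectors: `v = ∑ c_j e_j` with `|c_j| ≤ 1` gives
`dist (g v, V) ≤ d * max_j dist (g e_j, V)`.  (Or expand `det (Φ ∘ g ∘ O)` by multilinearity, where `g ∘ O = O' B`, `Φ = O'†`.) -/
theorem exists_frames (hk : k ≤ d) : ∃ fr : (Fin k → Fin d) → (E k →L[ℝ] E d), (∀ T, Iso (fr T)) ∧
    ∀ g : E d →L[ℝ] E d, ∃ T, alpha k g ≤ (d : ℝ) ^ k * vol (g ∘L fr T) := by
  classical
  obtain ⟨O₀, hO₀⟩ := exists_iso hk
  let fr : (Fin k → Fin d) → (E k →L[ℝ] E d) := fun T =>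
    if Injective T then vol2_mk (fun i => EuclideanSpace.single (T i) 1) else O₀
  refine ⟨fr, fun T => ?_, fun g => ?_⟩
  · by_cases hT : Injective T
    · simp only [fr, if_pos hT]
      refine vol2_iso_mk ?_
      have := (EuclideanSpace.basisFun (Fin d) ℝ).orthonormal.comp T hT
      simpa [Function.comp_def] using this
    · simp only [fr, if_neg hT]
      exact hO₀
  · have : Nonempty (Fin k → Fin d) := ⟨Fin.castLE hk⟩
    obtain ⟨T₀, hT₀⟩ := Finite.exists_max fun T => vol (g ∘L fr T)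
    refine ⟨T₀, alpha_le (mul_nonneg (by positivity) (vol_nonneg _)) fun O hO => ?_⟩
    refine vol2_expand g hO fun T => ?_
    by_cases hT : Injective T
    · have := hT₀ T
      simp only [fr, if_pos hT] at this
      exact this
    · rw [vol_eq_zero]
      · exact vol_nonneg _
      · intro h
        apply hT
        intro i j hij
        have h1 : (g ∘L vol2_mk (fun i => (EuclideanSpace.single (T i) 1 : E d))) (EuclideanSpace.single i 1) =
            (g ∘L vol2_mk (fun i => (EuclideanSpace.single (T i) 1 : E d))) (EuclideanSpace.single j 1) := by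
          simp only [ContinuousLinearMap.comp_apply, vol2_mk_single, hij]
        have h2 := h h1
        by_contra hne
        have h3 := congrArg (fun x : E k => x i) h2
        simp [hne] at h3

end Crest.Agent.R133
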