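import Crest.Agent.R133.Vol

set_option autoImplicit false

namespace Crest.Agent.R133

open MeasureTheory Finset Metric Function
open scoped InnerProductSpace

variable {d k : ℕ}

theorem vol2_gram_mul {V : Type*} [NormedAddCommGroup V] [InnerProductSpace ℝ V] {n : ℕ} (w : Fin n → V)
    (M : Matrix (Fin n) (Fin n) ℝ) :
    Matrix.gram ℝ (fun j => ∑ i, M i j • w i) = M.transpose * Matrix.gram ℝ w * M := by
  ext j j'
  simp only [Matrix.gram_apply, Matrix.mul_apply, Matrix.transpose_apply, sum_inner, inner_sum,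
    real_inner_smul_left, real_inner_smul_right, Finset.sum_mul]
  refine Finset.sum_congr rfl fun i _ => ?_
  refine Finset.sum_congr rfl fun i' _ => ?_
  ring

theorem vol2_gram_shear {V : Type*} [NormedAddCommGroup V] [InnerProductSpace ℝ V] (q : V) (v : Fin k → V)
    (c : Fin k → ℝ) :
    (Matrix.gram ℝ (Fin.cons (q + ∑ i, c i • v i) v : Fin (k + 1) → V)).det =
      (Matrix.gram ℝ (Fin.cons q v : Fin (k + 1) → V)).det := by
  classical
  let M : Matrix (Fin (k + 1)) (Fin (k + 1)) ℝ :=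
    Matrix.of fun i j => Fin.cases (Fin.cases 1 (fun _ => 0) j)
      (fun i' => Fin.cases (c i') (fun j' => if i' = j' then 1 else 0) j) i
  have hM : M.det = 1 := by
    rw [Matrix.det_succ_row_zero, Fin.sum_univ_succ]
    have h1 : M.submatrix Fin.succ (Fin.succAbove 0) = 1 := by
      ext i j
      simp [M, Matrix.one_apply]
    rw [h1]
    simp [M]
  have h : (Fin.cons (q + ∑ i, c i • v i) v : Fin (k + 1) → V) =
      fun j => ∑ i, M i j • (Fin.cons q v : Fin (k + 1) → V) i := by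
    funext j
    refine Fin.cases ?_ (fun j' => ?_) j
    · simp [M, Fin.sum_univ_succ]
    · simp [M, Fin.sum_univ_succ]
  rw [h, vol2_gram_mul, Matrix.det_mul, Matrix.det_mul, Matrix.det_transpose, hM]
  ring

theorem vol2_gram_block {V : Type*} [NormedAddCommGroup V] [InnerProductSpace ℝ V] (n : V) (v : Fin k → V)
    (h : ∀ i, ⟪n, v i⟫_ℝ = 0) :
    (Matrix.gram ℝ (Fin.cons n v : Fin (k + 1) → V)).det = ‖n‖ ^ 2 * (Matrix.gram ℝ v).det := by
  rw [Matrix.det_succ_row_zero, Fin.sum_univ_succ]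
  have h1 : (Matrix.gram ℝ (Fin.cons n v : Fin (k + 1) → V)).submatrix Fin.succ (Fin.succAbove 0) =
      Matrix.gram ℝ v := by
    ext i j
    simp
  rw [h1]
  simp [h]

theorem vol2_sq (W : E k →L[ℝ] E d) (b : OrthonormalBasis (Fin k) ℝ (E k)) :
    vol W ^ 2 = (Matrix.gram ℝ (fun i => W (b i))).det := by
  have := LinearMap.normDet_sq_eq_det_gram (W : E k →ₗ[ℝ] E d) b
  simpa [vol] using this

/-- the map with prescribed columns -/
noncomputable def vol2_mk (v : Fin k → E d) : E k →L[ℝ] E d :=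
  ∑ i, (EuclideanSpace.proj i : E k →L[ℝ] ℝ).smulRight (v i)

theorem vol2_mk_apply (v : Fin k → E d) (a : E k) : vol2_mk v a = ∑ i, a i • v i := by
  simp [vol2_mk]

theorem vol2_mk_single (v : Fin k → E d) (i : Fin k) : vol2_mk v (EuclideanSpace.single i 1) = v i := by
  classical
  rw [vol2_mk_apply, Finset.sum_eq_single i]
  · simp
  · intro j _ hj
    simp [hj]
  · simp

theorem vol2_comp_mk {d' : ℕ} (g : E d →L[ℝ] E d') (v : Fin k → E d) :
    g ∘L vol2_mk v = vol2_mk (fun i => g (v i)) := by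
  ext1 a
  simp [vol2_mk_apply]

theorem vol2_eq_mk (W : E k →L[ℝ] E d) : W = vol2_mk (fun i => W (EuclideanSpace.single i 1)) := by
  ext1 a
  rw [vol2_mk_apply]
  conv_lhs => rw [← (EuclideanSpace.basisFun (Fin k) ℝ).sum_repr a]
  simp

theorem vol2_mk_sq (v : Fin k → E d) : vol (vol2_mk v) ^ 2 = (Matrix.gram ℝ v).det := by
  rw [vol2_sq _ (EuclideanSpace.basisFun (Fin k) ℝ)]
  simp [vol2_mk_single]

theorem vol2_iso_mk {v : Fin k → E d} (hv : Orthonormal ℝ v) : Iso (vol2_mk v) := by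
  intro a
  rw [vol2_mk_apply]
  have h1 : ‖∑ i, a i • v i‖ ^ 2 = ‖a‖ ^ 2 := by
    rw [← real_inner_self_eq_norm_sq, hv.inner_sum, EuclideanSpace.norm_sq_eq]
    simp [sq]
  exact (sq_eq_sq₀ (norm_nonneg _) (norm_nonneg _)).1 h1

theorem vol2_cons (q : E d) (v : Fin k → E d) :
    ∃ a : E k, vol (vol2_mk (Fin.cons q v : Fin (k + 1) → E d)) = ‖q - vol2_mk v a‖ * vol (vol2_mk v) ∧
      ∀ a', ‖q - vol2_mk v a‖ ≤ ‖q - vol2_mk v a'‖ := by
  set W := vol2_mk v with hW
  let K : Submodule ℝ (E d) := LinearMap.range (W : E k →ₗ[ℝ] E d)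
  obtain ⟨a, ha⟩ : K.starProjection q ∈ K := K.starProjection_apply_mem q
  have ha' : W a = K.starProjection q := ha
  have horth : ∀ a', ⟪q - W a, W a'⟫_ℝ = 0 := by
    intro a'
    rw [ha']
    exact K.starProjection_inner_eq_zero q _ ⟨a', rfl⟩
  refine ⟨a, ?_, ?_⟩
  · have h1 : vol (vol2_mk (Fin.cons q v : Fin (k + 1) → E d)) ^ 2 = (‖q - W a‖ * vol W) ^ 2 := by
      rw [vol2_mk_sq, mul_pow, hW, vol2_mk_sq, ← vol2_gram_block, ← vol2_gram_shear (q - vol2_mk v a) v a,
        ← vol2_mk_apply, sub_add_cancel]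
      intro i
      rw [← vol2_mk_single v i]
      exact horth _
    exact (sq_eq_sq₀ (vol_nonneg _) (mul_nonneg (norm_nonneg _) (vol_nonneg _))).1 h1
  · intro a'
    have h2 : q - W a' = (q - W a) + W (a - a') := by
      rw [map_sub]; abel
    have h3 : ‖q - W a'‖ ^ 2 = ‖q - W a‖ ^ 2 + ‖W (a - a')‖ ^ 2 := by
      rw [h2, norm_add_sq_real, horth]; ring
    have h4 : ‖q - W a‖ ^ 2 ≤ ‖q - W a'‖ ^ 2 := by
      rw [h3]; nlinarith [sq_nonneg ‖W (a - a')‖]
    exact (sq_le_sq₀ (norm_nonneg _) (norm_nonneg _)).1 h4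

theorem vol2_back_iso (g : E d →L[ℝ] E d) {O : E (k + 1) →L[ℝ] E d} (hO : Iso O) (c : E (k + 1)) :
    vol (g ∘L O) * ‖c‖ ≤ alpha k g * ‖g (O c)‖ := by
  by_cases hc : c = 0
  · subst hc; simp
  have hc' : 0 < ‖c‖ := norm_pos_iff.2 hc
  set u : E (k + 1) := ‖c‖⁻¹ • c with hu
  have hu1 : ‖u‖ = 1 := by
    rw [hu, norm_smul, norm_inv, norm_norm, inv_mul_cancel₀ hc'.ne']
  have hon : Orthonormal ℝ (({0} : Set (Fin (k + 1))).domRestrict (fun _ => u)) := by
    constructor
    · intro i; exact hu1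
    · intro i j hij
      exact absurd (Subsingleton.elim i j) hij
  obtain ⟨b, hb⟩ := hon.exists_orthonormalBasis_extension_of_card_eq (by simp)
  have hb0 : b 0 = u := hb 0 rfl
  have hon2 : Orthonormal ℝ (fun i : Fin k => O (b i.succ)) := by
    let O' : E (k + 1) →ₗᵢ[ℝ] E d := ⟨(O : E (k + 1) →ₗ[ℝ] E d), hO⟩
    exact (b.orthonormal.comp Fin.succ (Fin.succ_injective k)).comp_linearIsometry O'
  have h1 : vol (g ∘L O) = vol (vol2_mk (Fin.cons (g (O u)) (fun i => g (O (b i.succ))) : Fin (k + 1) → E d)) := by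
    refine (sq_eq_sq₀ (vol_nonneg _) (vol_nonneg _)).1 ?_
    rw [vol2_sq _ b, vol2_mk_sq]
    congr 2
    funext i
    refine Fin.cases ?_ (fun j => ?_) i
    · simp [hb0]
    · simp
  obtain ⟨a, h2, h3⟩ := vol2_cons (g (O u)) (fun i : Fin k => g (O (b i.succ)))
  have h4 : ‖g (O u) - vol2_mk (fun i : Fin k => g (O (b i.succ))) a‖ ≤ ‖g (O u)‖ := by
    simpa using h3 0
  have h5 : vol (vol2_mk (fun i : Fin k => g (O (b i.succ)))) ≤ alpha k g := by
    have := vol_le_alpha g (vol2_mk (fun i : Fin k => O (b i.succ)))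
    rwa [(vol2_iso_mk hon2).vol_eq, mul_one, vol2_comp_mk] at this
  have h6 : vol (g ∘L O) ≤ ‖g (O u)‖ * alpha k g := by
    rw [h1, h2]
    exact mul_le_mul h4 h5 (vol_nonneg _) (norm_nonneg _)
  have h7 : ‖g (O u)‖ * ‖c‖ = ‖g (O c)‖ := by
    rw [hu, map_smul, map_smul, norm_smul, norm_inv, norm_norm]
    field_simp
  calc vol (g ∘L O) * ‖c‖ ≤ ‖g (O u)‖ * alpha k g * ‖c‖ := mul_le_mul_of_nonneg_right h6 hc'.le
    _ = alpha k g * (‖g (O u)‖ * ‖c‖) := by ring
    _ = _ := by rw [h7]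

theorem vol2_abs_det (X : E k →L[ℝ] E k) : vol X = |X.det| := by
  have h := vol_comp (ContinuousLinearMap.id ℝ (E k)) X
  have h1 : Iso (ContinuousLinearMap.id ℝ (E k)) := fun _ => rfl
  rwa [h1.vol_eq, one_mul, ContinuousLinearMap.id_comp] at h

theorem vol2_mk_det (v : Fin k → E k) :
    vol (vol2_mk v) = |(EuclideanSpace.basisFun (Fin k) ℝ).toBasis.det v| := by
  rw [vol2_abs_det]
  congr 1
  have h := (EuclideanSpace.basisFun (Fin k) ℝ).toBasis.det_comp (vol2_mk v : E k →ₗ[ℝ] E k)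
    (EuclideanSpace.basisFun (Fin k) ℝ).toBasis
  rw [Module.Basis.det_self, mul_one] at h
  have h2 : ((vol2_mk v : E k →ₗ[ℝ] E k) ∘ (EuclideanSpace.basisFun (Fin k) ℝ).toBasis) = v := by
    funext i
    simp [vol2_mk_single]
  rw [h2] at h
  exact h.symm

theorem vol2_expand (g : E d →L[ℝ] E d) {O : E k →L[ℝ] E d} (hO : Iso O) {M : ℝ}
    (hM : ∀ T : Fin k → Fin d, vol (g ∘L vol2_mk (fun i => (EuclideanSpace.single (T i) 1 : E d))) ≤ M)
    [Nonempty (Fin k → Fin d)] :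
    vol (g ∘L O) ≤ (d : ℝ) ^ k * M := by
  classical
  have hM0 : 0 ≤ M := (vol_nonneg _).trans (hM (Classical.arbitrary _))
  by_cases hgO : Injective (g ∘L O)
  swap
  · rw [vol_eq_zero hgO]; positivity
  obtain ⟨O', B, hO', hB⟩ := exists_factor hgO
  obtain ⟨P, hP⟩ := exists_proj hO'.injective
  have hP1 : ∀ x, ‖P x‖ ≤ ‖x‖ := fun x => by rw [← hO']; exact hP.norm_le x
  have hB' : (B : E k →L[ℝ] E k) = P ∘L (g ∘L O) := by
    ext1 a
    rw [hB]
    exact (hP.left _).symm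
  let D := (EuclideanSpace.basisFun (Fin k) ℝ).toBasis.det
  let c : Fin k → Fin d → ℝ := fun i j => O (EuclideanSpace.single i 1) j
  have hc : ∀ i j, |c i j| ≤ 1 := by
    intro i j
    have h1 := PiLp.norm_apply_le (O (EuclideanSpace.single i 1)) j
    rw [hO] at h1
    simpa using h1
  have h1 : vol (g ∘L O) = |D (fun i => ∑ j, c i j • P (g (EuclideanSpace.single j 1)))| := by
    rw [hB, vol_comp, hO'.vol_eq, one_mul, ← vol2_abs_det, hB', vol2_eq_mk (P ∘L (g ∘L O)), vol2_mk_det]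
    congr 2
    funext i
    simp only [ContinuousLinearMap.comp_apply]
    conv_lhs => rw [← (EuclideanSpace.basisFun (Fin d) ℝ).sum_repr (O (EuclideanSpace.single i 1))]
    simp [c]
  have h2 : D (fun i => ∑ j, c i j • P (g (EuclideanSpace.single j 1))) =
      ∑ T : Fin k → Fin d, (∏ i, c i (T i)) * D (fun i => P (g (EuclideanSpace.single (T i) 1))) := by
    have := D.toMultilinearMap.map_sum (fun i j => c i j • P (g (EuclideanSpace.single j 1)))
    refine this.trans (Finset.sum_congr rfl fun T _ => ?_)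
    exact D.toMultilinearMap.map_smul_univ _ _
  have h3 : ∀ T : Fin k → Fin d, |(∏ i, c i (T i)) * D (fun i => P (g (EuclideanSpace.single (T i) 1)))| ≤ M := by
    intro T
    rw [abs_mul, Finset.abs_prod]
    have h4 : ∏ i, |c i (T i)| ≤ 1 := Finset.prod_le_one (fun i _ => abs_nonneg _) (fun i _ => hc _ _)
    have h5 : |D (fun i => P (g (EuclideanSpace.single (T i) 1)))| ≤ M := by
      rw [← vol2_mk_det]
      refine le_trans ?_ (hM T)
      have h6 := vol_mono (W := vol2_mk (fun i => P (g (EuclideanSpace.single (T i) 1))))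
        (W' := g ∘L vol2_mk (fun i => (EuclideanSpace.single (T i) 1 : E d))) zero_le_one (fun a => by
          rw [one_mul, vol2_comp_mk, ← vol2_comp_mk P]
          exact hP1 _)
      simpa using h6
    calc _ ≤ 1 * M := mul_le_mul h4 h5 (abs_nonneg _) zero_le_one
      _ = M := one_mul M
  rw [h1, h2]
  calc _ ≤ ∑ T : Fin k → Fin d, |(∏ i, c i (T i)) * D (fun i => P (g (EuclideanSpace.single (T i) 1)))| :=
        Finset.abs_sum_le_sum_abs _ _
    _ ≤ ∑ _T : Fin k → Fin d, M := Finset.sum_le_sum fun T _ => h3 T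
    _ = (d : ℝ) ^ k * M := by simp

end Crest.Agent.R133
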